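import Vale.Agent.P200.Ext.General

/-!
P200, any number of variables: base change and the literal lex-plus-powers space.
-/

namespace Vale.P200.Ext

open MvPolynomial Module

universe u

variable {K : Type u} [Field K]

/-- A monomial ideal for every field from the case of infinite fields. -/
theorem hasMon_of_good {n c : ℕ} (h : c ≤ n) {a : Fin c → ℕ} (ha : ∀ i, 2 ≤ a i)
    (hgood : ∀ (L : Type u) [Field L] [Infinite L], Good L a)
    {f : Fin c → MvPolynomial (Fin n) K} (hf : ∀ i, (f i).IsHomogeneous (a i))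
    (hreg : RegMod ⊥ (List.ofFn f)) {I : Ideal (MvPolynomial (Fin n) K)} (hI : Closed I)
    (hfI : ∀ i, f i ∈ I) : HasMon h a I := by
  let L := RatFunc K
  have : Infinite L := Infinite.of_injective (algebraMap (Polynomial K) (RatFunc K))
    (RatFunc.algebraMap_injective K)
  have hregL := RegMod.baseChange (L := L) _ _ hreg
  rw [Ideal.map_bot, List.map_ofFn] at hregL
  obtain ⟨S, hS, hpow, hcount⟩ := toHasMon (K := L) h a ha (hgood L)
    (fun i => MvPolynomial.map (algebraMap K L) (f i)) (fun i => (hf i).map _) hregL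
    (I.map (MvPolynomial.map (algebraMap K L))) (Closed.baseChange hI)
    (fun i => Ideal.mem_map_of_mem _ (hfI i))
  exact ⟨S, hS, hpow, fun d => (hcount d).trans (finrank_grade_baseChange I d)⟩

/-- The powers of the first `c` variables. -/
noncomputable def powersIdeal (K : Type u) [Field K] {n c : ℕ} (h : c ≤ n) (a : Fin c → ℕ) :
    Ideal (MvPolynomial (Fin n) K) :=
  Ideal.span (Set.range fun i => X (Fin.castLE h i) ^ a i)

/-- The span of the monomials of degree `d` in `P` and of the `dim I_d - dim P_d`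
lexicographically greatest monomials of degree `d` outside `P`. -/
noncomputable def lppSpaceN {n : ℕ} (P I : Ideal (MvPolynomial (Fin n) K)) (d : ℕ) :
    Submodule K (MvPolynomial (Fin n) K) :=
  Submodule.span K ((fun m => monomial m (1 : K)) ''
    {m : Fin n →₀ ℕ | m.degree = d ∧
      (monomial m 1 ∈ P ∨
        {m' : Fin n →₀ ℕ | m'.degree = d ∧ toLex m < toLex m' ∧ monomial m' 1 ∉ P}.ncard <
          finrank K (grade I d) - finrank K (grade P d))})

section Powers

variable {n c : ℕ}

/-- The exponent lies outside the powers. -/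
def OutN (h : c ≤ n) (a : Fin c → ℕ) (m : Fin n →₀ ℕ) : Prop := ∀ i, m (Fin.castLE h i) < a i

lemma outN_upper (h : c ≤ n) (a : Fin c → ℕ) : IsUpperSet {m | ¬ OutN h a m} :=
  fun _ _ hle hm hm' => hm fun i => lt_of_le_of_lt (hle _) (hm' i)

lemma powersIdeal_eq (h : c ≤ n) (a : Fin c → ℕ) :
    powersIdeal K h a = restrictSupportIdeal (R := K) _ (outN_upper h a) := by
  have h1 : (Set.range fun i => (X (Fin.castLE h i) : MvPolynomial (Fin n) K) ^ a i) =
      (fun s => monomial s 1) '' Set.range fun i => Finsupp.single (Fin.castLE h i) (a i) := by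
    rw [← Set.range_comp]
    simp [Function.comp_def, X_pow_eq_monomial]
  rw [powersIdeal, h1]
  ext p
  rw [mem_ideal_span_monomial_image]
  change _ ↔ (p.support : Set (Fin n →₀ ℕ)) ⊆ _
  refine forall₂_congr fun x _ => ?_
  simp only [Set.mem_range, exists_exists_eq_and, Finsupp.single_le_iff, Set.mem_ofPred_eq, OutN,
    not_forall, not_lt]

lemma grade_restrictSupportIdeal {s : Set (Fin n →₀ ℕ)} (hs : IsUpperSet s) (d : ℕ) :
    grade (restrictSupportIdeal (R := K) s hs) d =
      restrictSupport K {m | m.degree = d ∧ m ∈ s} := by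
  rw [grade, restrictScalars_restrictSupportIdeal, homogeneousSubmodule_eq_finsupp_supported]
  ext p
  simp only [Submodule.mem_inf, restrictSupport, AddMonoidAlgebra.mem_supported, Set.subset_def,
    Set.mem_ofPred_eq]
  exact ⟨fun h x hx => ⟨h.2 x hx, h.1 x hx⟩, fun h => ⟨fun x hx => (h x hx).2, fun x hx => (h x hx).1⟩⟩

lemma monomial_mem_powersIdeal (h : c ≤ n) (a : Fin c → ℕ) (m : Fin n →₀ ℕ) :
    monomial m (1 : K) ∈ powersIdeal K h a ↔ ¬ OutN h a m := by
  rw [powersIdeal_eq]
  change monomial m (1 : K) ∈ restrictSupport K {x | ¬ OutN h a x} ↔ _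
  simp

lemma finrank_grade_powers (h : c ≤ n) (a : Fin c → ℕ) (d : ℕ) :
    finrank K ↥(grade (powersIdeal K h a) d) = {m | m.degree = d ∧ ¬ OutN h a m}.ncard := by
  rw [powersIdeal_eq, grade_restrictSupportIdeal, finrank_restrictSupport_gen]
  rfl

lemma toLex_coe_lt (x y : Fin n →₀ ℕ) :
    toLex (x : Fin n → ℕ) < toLex (y : Fin n → ℕ) ↔ toLex x < toLex y := Iff.rfl

end Powers

/-- The lex-plus-powers space is an ideal as soon as some monomial ideal has the Hilbert
function. -/
theorem exists_lpp_of_hasMon {n c : ℕ} (h : c ≤ n) {a : Fin c → ℕ} (ha : Monotone a)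
    {I : Ideal (MvPolynomial (Fin n) K)} (hmon : HasMon h a I) :
    ∃ J : Ideal (MvPolynomial (Fin n) K), ∀ d,
      grade J d = lppSpaceN (powersIdeal K h a) I d ∧
        finrank K ↥(grade J d) = finrank K ↥(grade I d) := by
  classical
  obtain ⟨S, hS, hpow, hcount⟩ := hmon
  have hPS : ∀ m, ¬ OutN h a m → m ∈ S := by
    intro m hm
    simp only [OutN, not_forall, not_lt] at hm
    obtain ⟨i, hi⟩ := hm
    exact hS (Finsupp.single_le_iff.2 hi) (hpow i)
  set q : ℕ → ℕ := fun d =>
    finrank K ↥(grade I d) - finrank K ↥(grade (powersIdeal K h a) d) with hqdef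
  set R : (Fin n →₀ ℕ) → ℕ := fun m =>
    {m' : Fin n →₀ ℕ | m'.degree = m.degree ∧ toLex m < toLex m' ∧ OutN h a m'}.ncard with hR
  set T : Set (Fin n →₀ ℕ) := {m | OutN h a m → R m < q m.degree} with hT
  -- the box for the degrees at most `d`
  let box : ℕ → Fin n → ℕ := fun d j => if hj : j.val < c then a ⟨j.val, hj⟩ else d + (∑ i, a i) + 2
  have hbox : ∀ d, Monotone (box d) := by
    intro d j k hjk
    have hjk' : j.val ≤ k.val := hjk
    simp only [box]
    split_ifs with h1 h2
    · exact ha (by simpa using hjk')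
    · have : a ⟨j.val, h1⟩ ≤ ∑ i, a i := Finset.single_le_sum (fun i _ => Nat.zero_le _) (Finset.mem_univ _)
      omega
    · omega
    · exact le_rfl
  have hlev : ∀ d e, e ≤ d + 1 → ∀ m : Fin n →₀ ℕ,
      (m : Fin n → ℕ) ∈ lev (box d) e ↔ m.degree = e ∧ OutN h a m := by
    intro d e he m
    rw [mem_lev, ← Finsupp.degree_eq_sum, and_comm]
    refine and_congr_right fun hm => ⟨fun hh i => ?_, fun hh j => ?_⟩
    · have := hh (Fin.castLE h i)
      simpa [box] using this
    · simp only [box]
      split_ifs with hj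
      · exact hh ⟨j.val, hj⟩
      · have : m j ≤ m.degree := Finsupp.le_degree j m
        omega
  have himg : ∀ d e, e ≤ d + 1 → ∀ Q : (Fin n → ℕ) → Prop,
      {m : Fin n →₀ ℕ | m.degree = e ∧ OutN h a m ∧ Q m}.ncard =
        ((lev (box d) e).filter Q).card := by
    intro d e he Q
    rw [← Set.ncard_image_of_injective _ (DFunLike.coe_injective (F := Fin n →₀ ℕ)),
      ← Set.ncard_coe_finset]
    congr 1
    ext g
    simp only [Set.mem_image, Set.mem_ofPred_eq, Finset.coe_filter]
    constructor
    · rintro ⟨m, ⟨h1, h2, h3⟩, rfl⟩; exact ⟨(hlev d e he m).2 ⟨h1, h2⟩, h3⟩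
    · rintro ⟨hg, hQ⟩
      refine ⟨Finsupp.equivFunOnFinite.symm g, ⟨?_, ?_, by simpa using hQ⟩, by simp⟩
      · exact ((hlev d e he _).1 (by simpa using hg)).1
      · exact ((hlev d e he _).1 (by simpa using hg)).2
  have hrk : ∀ d e, e ≤ d + 1 → ∀ m : Fin n →₀ ℕ, m.degree = e →
      R m = rk (box d) e (m : Fin n → ℕ) := by
    intro d e he m hm
    rw [hR, rk, ← himg d e he fun g => toLex (m : Fin n → ℕ) < toLex g]
    simp only [hm]
    congr 1
    ext m'
    simp only [Set.mem_ofPred_eq, toLex_coe_lt]
    tauto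
  let A : ℕ → ℕ → Finset (Fin n → ℕ) := fun d e =>
    (lev (box d) e).filter fun g => Finsupp.equivFunOnFinite.symm g ∈ S
  have hA : ∀ d e, e ≤ d + 1 → (A d e).card = q e := by
    intro d e he
    have h1 : {m : Fin n →₀ ℕ | m.degree = e ∧ m ∈ S} = {m | m.degree = e ∧ ¬ OutN h a m} ∪
        {m | m.degree = e ∧ OutN h a m ∧
          Finsupp.equivFunOnFinite.symm (m : Fin n → ℕ) ∈ S} := by
      ext m
      simp only [Set.mem_union, Set.mem_ofPred_eq, Equiv.symm_apply_eq,
        show Finsupp.equivFunOnFinite.symm (m : Fin n → ℕ) = m from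
          Finsupp.equivFunOnFinite.symm_apply_apply m]
      constructor
      · rintro ⟨hd, hm⟩
        by_cases ho : OutN h a m
        · exact Or.inr ⟨hd, ho, hm⟩
        · exact Or.inl ⟨hd, ho⟩
      · rintro (⟨hd, ho⟩ | ⟨hd, -, hm⟩)
        · exact ⟨hd, hPS m ho⟩
        · exact ⟨hd, hm⟩
    have hfin := finite_degree_eq (σ := Fin n) e
    have h2 := hcount e
    rw [h1, Set.ncard_union_eq ?_ (hfin.subset fun m hm => hm.1) (hfin.subset fun m hm => hm.1),
      himg d e he fun g => Finsupp.equivFunOnFinite.symm g ∈ S, ← finrank_grade_powers (K := K)] at h2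
    · simp only [hqdef, A]
      omega
    · rw [Set.disjoint_left]; exact fun m h h' => h.2 h'.2.1
  have hqle : ∀ d, q d ≤ (lev (box d) d).card := fun d =>
    hA d d (by omega) ▸ Finset.card_le_card (Finset.filter_subset _ _)
  have hstep : ∀ d, up (box d) (seg (box d) d (q d)) ⊆ seg (box d) (d + 1) (q (d + 1)) := by
    intro d
    have hsub : up (box d) (A d d) ⊆ A d (d + 1) := by
      intro x hx
      refine Finset.mem_filter.2 ⟨up_subset_lev (Finset.filter_subset _ _) hx, ?_⟩
      obtain ⟨-, g, hg, i, rfl⟩ := mem_up.1 hx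
      refine hS ?_ (Finset.mem_filter.1 hg).2
      intro j; simp
    have := up_seg_subset (hbox d) (Finset.filter_subset _ _)
      ((Finset.card_le_card hsub).trans (hA d (d + 1) le_rfl).le)
    rwa [hA d d (by omega)] at this
  have hTu : IsUpperSet T := by
    have key : ∀ (k : ℕ) (γ : Fin n →₀ ℕ), γ.degree = k → ∀ x, x ∈ T → x + γ ∈ T := by
      intro k
      induction k with
      | zero =>
        intro γ hγ x hx
        rw [Finsupp.degree_eq_zero_iff] at hγ
        rwa [hγ, add_zero]
      | succ k ih =>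
        intro γ hγ x hx
        obtain ⟨i, hi⟩ : ∃ i, γ i ≠ 0 := by
          by_contra hh
          simp only [not_exists, not_not] at hh
          rw [show γ = 0 from Finsupp.ext hh, map_zero] at hγ
          omega
        have he : Finsupp.single i 1 + (γ - Finsupp.single i 1) = γ :=
          add_tsub_cancel_of_le (Finsupp.single_le_iff.2 (Nat.one_le_iff_ne_zero.2 hi))
        have hd : (γ - Finsupp.single i 1).degree = k := by
          have := congrArg Finsupp.degree he
          rw [map_add, Finsupp.degree_single, hγ] at this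
          omega
        rw [← he, ← add_assoc]
        refine ih _ hd _ fun ho => ?_
        have hdeg : (x + Finsupp.single i 1).degree = x.degree + 1 := by simp
        have hox : OutN h a x := fun j => lt_of_le_of_lt (by simp) (ho j)
        have hxs : (x : Fin n → ℕ) ∈ seg (box x.degree) x.degree (q x.degree) := by
          refine Finset.mem_filter.2 ⟨(hlev _ _ (by omega) x).2 ⟨rfl, hox⟩, ?_⟩
          rw [← hrk x.degree x.degree (by omega) x rfl]
          exact hx hox
        have hlx := (hlev x.degree (x.degree + 1) le_rfl _).2 ⟨hdeg, ho⟩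
        have h1 := hstep x.degree (mem_up.2 ⟨(mem_lev.1 hlx).1, (x : Fin n → ℕ), hxs, i, by
          funext j; simp [Finsupp.single_apply, Pi.single_apply, eq_comm]⟩)
        rw [hrk x.degree (x.degree + 1) le_rfl _ hdeg, hdeg]
        exact (Finset.mem_filter.1 h1).2
    intro x y hxy hx
    obtain ⟨γ, rfl⟩ := exists_add_of_le hxy
    exact key _ γ rfl x hx
  refine ⟨restrictSupportIdeal (R := K) T hTu, fun d => ⟨?_, ?_⟩⟩
  · rw [grade_restrictSupportIdeal, restrictSupport_eq_span, lppSpaceN]
    congr 2
    ext m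
    simp only [Set.mem_ofPred_eq, monomial_mem_powersIdeal, not_not, hT]
    refine and_congr_right fun hd => ?_
    subst hd
    exact imp_iff_not_or
  · rw [grade_restrictSupportIdeal, finrank_restrictSupport_gen]
    have h1 : {m : Fin n →₀ ℕ | m.degree = d ∧ m ∈ T} = {m | m.degree = d ∧ ¬ OutN h a m} ∪
        {m | m.degree = d ∧ OutN h a m ∧ rk (box d) d (m : Fin n → ℕ) < q d} := by
      ext m
      simp only [Set.mem_union, Set.mem_ofPred_eq, hT]
      constructor
      · rintro ⟨hd, hm⟩
        by_cases ho : OutN h a m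
        · refine Or.inr ⟨hd, ho, ?_⟩
          rw [← hrk d d (by omega) m hd]
          simpa [hd] using hm ho
        · exact Or.inl ⟨hd, ho⟩
      · rintro (⟨hd, ho⟩ | ⟨hd, ho, hm⟩)
        · exact ⟨hd, fun hh => absurd hh ho⟩
        · refine ⟨hd, fun _ => ?_⟩
          rw [hrk d d (by omega) m hd, hd]
          exact hm
    have hfin := finite_degree_eq (σ := Fin n) d
    rw [h1, Set.ncard_union_eq ?_ (hfin.subset fun m hm => hm.1) (hfin.subset fun m hm => hm.1),
      himg d d (by omega) fun g => rk (box d) d g < q d, ← finrank_grade_powers (K := K)]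
    · refine (congrArg₂ (· + ·) rfl ((congrArg Finset.card (?_ : _ = seg (box d) d (q d))).trans
        (card_seg (hqle d)))).trans ?_
      · exact Finset.ext fun g => by simp [seg]
      rw [hqdef]
      have h2 := hcount d
      have h3 : finrank K ↥(grade (powersIdeal K h a) d) ≤ finrank K ↥(grade I d) := by
        rw [finrank_grade_powers, ← h2]
        refine Set.ncard_le_ncard (fun m hm => ?_) (hfin.subset fun m hm => hm.1)
        exact ⟨hm.1, hPS m hm.2⟩
      dsimp only
      omega
    · rw [Set.disjoint_left]; exact fun m h h' => h.2 h'.2.1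

end Vale.P200.Ext
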