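import Vale.Agent.P200.Ext.Seq

/-!
P200, any number of variables: initial slices along the extra variables.
-/

namespace Vale.P200.Ext

open MvPolynomial Module

variable {K : Type*} [Field K]

/-- Exponents in `m` variables of degree at most `d`. -/
noncomputable def expLE (m d : ℕ) : Finset (Fin m →₀ ℕ) :=
  (Finset.range (d + 1)).biUnion fun k => (Finset.univ : Finset (Fin m)).finsuppAntidiag k

/-- Set the first block of variables to zero. -/
noncomputable def killFirst {m c : ℕ} : MvPolynomial (Fin m ⊕ Fin c) K →ₐ[K] MvPolynomial (Fin c) K :=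
  aeval (Sum.elim 0 X)

section Slice

variable {m c : ℕ}

/-- The coefficient of the monomial `α` in the first block. -/
noncomputable def sl (α : Fin m →₀ ℕ) :
    MvPolynomial (Fin m ⊕ Fin c) K →ₗ[K] MvPolynomial (Fin c) K :=
  ((lcoeff (MvPolynomial (Fin c) K) α).restrictScalars K).comp
    (sumAlgEquiv K (Fin m) (Fin c)).toLinearMap

lemma sl_apply (α : Fin m →₀ ℕ) (p : MvPolynomial (Fin m ⊕ Fin c) K) :
    sl α p = coeff α (sumAlgEquiv K (Fin m) (Fin c) p) := rfl

lemma coeff_sl (α : Fin m →₀ ℕ) (γ : Fin c →₀ ℕ) (p : MvPolynomial (Fin m ⊕ Fin c) K) :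
    coeff γ (sl α p) = coeff (Finsupp.sumFinsuppAddEquivProdFinsupp.symm (α, γ)) p := by
  classical
  induction p using MvPolynomial.induction_on' with
  | add p q hp hq => simp [map_add, hp, hq]
  | monomial δ r =>
    obtain ⟨⟨a, b⟩, rfl⟩ := Finsupp.sumFinsuppAddEquivProdFinsupp.symm.surjective δ
    have : sumAlgEquiv K (Fin m) (Fin c)
        (monomial (Finsupp.sumFinsuppAddEquivProdFinsupp.symm (a, b)) r) =
          monomial a (monomial b r) := by
      simp [sumAlgEquiv, monomial]
    rw [sl_apply, this, coeff_monomial, coeff_monomial]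
    simp only [Finsupp.sumFinsuppAddEquivProdFinsupp.symm.injective.eq_iff, Prod.mk.injEq]
    split_ifs <;> simp_all [coeff_monomial]

lemma degree_sum (α : Fin m →₀ ℕ) (γ : Fin c →₀ ℕ) :
    (Finsupp.sumFinsuppAddEquivProdFinsupp.symm (α, γ)).degree = α.degree + γ.degree := by
  simp [Finsupp.degree_eq_sum, Fintype.sum_sum_type]

lemma hcomp_sl (α : Fin m →₀ ℕ) (e : ℕ) (p : MvPolynomial (Fin m ⊕ Fin c) K) :
    homogeneousComponent e (sl α p) = sl α (homogeneousComponent (α.degree + e) p) := by
  ext γ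
  simp only [coeff_homogeneousComponent, coeff_sl, degree_sum, add_right_inj]

lemma sl_homogeneous {α : Fin m →₀ ℕ} {p : MvPolynomial (Fin m ⊕ Fin c) K} {d : ℕ}
    (hp : p.IsHomogeneous d) : (sl α p).IsHomogeneous (d - α.degree) := by
  intro γ hγ
  rw [coeff_sl] at hγ
  have h : (Finsupp.sumFinsuppAddEquivProdFinsupp.symm (α, γ)).degree = d := by
    by_contra hne
    exact hγ (hp.coeff_eq_zero hne)
  show Finsupp.weight (fun _ => 1) γ = d - α.degree
  rw [← Finsupp.degree_eq_weight_one]
  have := degree_sum α γ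
  omega

lemma sl_eq_zero {α : Fin m →₀ ℕ} {p : MvPolynomial (Fin m ⊕ Fin c) K} {d : ℕ}
    (hp : p.IsHomogeneous d) (h : d < α.degree) : sl α p = 0 := by
  ext γ
  rw [coeff_sl, coeff_zero]
  refine hp.coeff_eq_zero ?_
  rw [degree_sum]; omega

lemma sl_zero_eq_killFirst (p : MvPolynomial (Fin m ⊕ Fin c) K) : sl 0 p = killFirst p := by
  induction p using MvPolynomial.induction_on with
  | C r => simp [sl_apply, killFirst]
  | add p q hp hq => rw [map_add, map_add, hp, hq]
  | mul_X p i hp =>
    have h : sl (0 : Fin m →₀ ℕ) (p * X i) =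
        sl 0 p * coeff 0 (sumAlgEquiv K (Fin m) (Fin c) (X i)) := by
      simp only [sl_apply, map_mul, ← constantCoeff_eq, constantCoeff.map_mul]
    rw [h, hp, map_mul]
    cases i <;> simp [killFirst]

/-- The initial slice at `α` of an ideal, for the lexicographic order on the first block. -/
noncomputable def slice (I : Ideal (MvPolynomial (Fin m ⊕ Fin c) K)) (α : Fin m →₀ ℕ) :
    Ideal (MvPolynomial (Fin c) K) where
  carrier := {g | ∃ p ∈ I, (∀ β, toLex β < toLex α → sl β p = 0) ∧ sl α p = g}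
  zero_mem' := ⟨0, I.zero_mem, fun _ _ => map_zero _, map_zero _⟩
  add_mem' := by
    rintro g h ⟨p, hp, hp', rfl⟩ ⟨q, hq, hq', rfl⟩
    exact ⟨p + q, add_mem hp hq, fun β hβ => by rw [map_add, hp' β hβ, hq' β hβ, add_zero],
      map_add _ _ _⟩
  smul_mem' := by
    rintro r g ⟨p, hp, hp', rfl⟩
    have key : ∀ β, sl β ((sumAlgEquiv K (Fin m) (Fin c)).symm (C r) * p) = r * sl β p := fun β => by
      rw [sl_apply, map_mul, AlgEquiv.apply_symm_apply, coeff_C_mul, sl_apply]
    exact ⟨_, I.mul_mem_left _ hp, fun β hβ => by rw [key, hp' β hβ, mul_zero],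
      by rw [key, smul_eq_mul]⟩

lemma mem_slice {I : Ideal (MvPolynomial (Fin m ⊕ Fin c) K)} {α : Fin m →₀ ℕ}
    {g : MvPolynomial (Fin c) K} : g ∈ slice I α ↔
      ∃ p ∈ I, (∀ β, toLex β < toLex α → sl β p = 0) ∧ sl α p = g := Iff.rfl

lemma closed_slice {I : Ideal (MvPolynomial (Fin m ⊕ Fin c) K)} (hI : Closed I)
    (α : Fin m →₀ ℕ) : Closed (slice I α) := by
  rintro g ⟨p, hp, hp', rfl⟩ e
  refine ⟨homogeneousComponent (α.degree + e) p, hI p hp _, fun β hβ => ?_, (hcomp_sl α e p).symm⟩
  rcases lt_or_ge (α.degree + e) β.degree with h | h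
  · exact sl_eq_zero (homogeneousComponent_isHomogeneous _ _) h
  · rw [show α.degree + e = β.degree + (α.degree + e - β.degree) by omega, ← hcomp_sl,
      hp' β hβ, map_zero]

lemma slice_mono (I : Ideal (MvPolynomial (Fin m ⊕ Fin c) K)) (α : Fin m →₀ ℕ) (i : Fin m) :
    slice I α ≤ slice I (α + Finsupp.single i 1) := by
  rintro g ⟨p, hp, hp', rfl⟩
  have key : ∀ β, sl β (p * X (Sum.inl i)) =
      if i ∈ β.support then sl (β - Finsupp.single i 1) p else 0 := fun β => by
    rw [sl_apply, map_mul, sumAlgEquiv_X_inl, coeff_mul_X', sl_apply]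
  refine ⟨p * X (Sum.inl i), I.mul_mem_right _ hp, fun β hβ => ?_, ?_⟩
  · rw [key]
    split_ifs with h
    · refine hp' _ ?_
      have hle : Finsupp.single i 1 ≤ β := by
        rw [Finsupp.single_le_iff]
        have := Finsupp.mem_support_iff.1 h
        omega
      rw [← tsub_add_cancel_of_le hle] at hβ
      exact (add_lt_add_iff_right (toLex (Finsupp.single i 1))).1 hβ
    · rfl
  · rw [key, if_pos (by simp), add_tsub_cancel_right]

lemma finite_grade (I : Ideal (MvPolynomial (Fin c) K)) (d : ℕ) :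
    Module.Finite K ↥(grade I d) := by
  have : Module.Finite K (homogeneousSubmodule (Fin c) K d) :=
    Module.Finite.of_fg (homogeneousSubmodule_fg _ _ d)
  exact Submodule.finiteDimensional_of_le inf_le_right

/-- The elements of `grade I d` whose slices outside `s` vanish. -/
noncomputable def part' (I : Ideal (MvPolynomial (Fin m ⊕ Fin c) K)) (d : ℕ)
    (s : Finset (Fin m →₀ ℕ)) : Submodule K (MvPolynomial (Fin m ⊕ Fin c) K) :=
  grade I d ⊓ ⨅ (β) (_ : β ∉ s), LinearMap.ker (sl β)

lemma mem_part' {I : Ideal (MvPolynomial (Fin m ⊕ Fin c) K)} {d : ℕ}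
    {s : Finset (Fin m →₀ ℕ)} {p : MvPolynomial (Fin m ⊕ Fin c) K} :
    p ∈ part' I d s ↔ (p ∈ I ∧ p.IsHomogeneous d) ∧ ∀ β, β ∉ s → sl β p = 0 := by
  simp [part', grade]

lemma mem_expLE {d : ℕ} {α : Fin m →₀ ℕ} : α ∈ expLE m d ↔ α.degree ≤ d := by
  simp [expLE, Finsupp.degree_eq_sum]

lemma finrank_part' {I : Ideal (MvPolynomial (Fin m ⊕ Fin c) K)} (hI : Closed I) (d : ℕ) :
    ∀ s : Finset (Fin m →₀ ℕ), s ⊆ expLE m d →
      (∀ α ∈ s, ∀ β ∈ expLE m d, toLex α ≤ toLex β → β ∈ s) →
      finrank K ↥(part' I d s) = ∑ α ∈ s, finrank K ↥(grade (slice I α) (d - α.degree)) := by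
  intro s
  induction s using Finset.strongInduction with
  | H s ih =>
    intro hsub hup
    have : Module.Finite K ↥(part' I d s) := by
      have : Module.Finite K (homogeneousSubmodule (Fin m ⊕ Fin c) K d) :=
        Module.Finite.of_fg (homogeneousSubmodule_fg _ _ d)
      exact Submodule.finiteDimensional_of_le (inf_le_left.trans inf_le_right)
    rcases s.eq_empty_or_nonempty with rfl | hne
    · rw [Finset.sum_empty, Submodule.finrank_eq_zero, Submodule.eq_bot_iff]
      intro p hp
      obtain ⟨-, hp2⟩ := mem_part'.1 hp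
      ext δ
      obtain ⟨⟨α, γ⟩, rfl⟩ := Finsupp.sumFinsuppAddEquivProdFinsupp.symm.surjective δ
      rw [← coeff_sl, hp2 α (Finset.notMem_empty α), coeff_zero, coeff_zero]
    · obtain ⟨a, ha, hmin⟩ := s.exists_min_image toLex hne
      let f : ↥(part' I d s) →ₗ[K] MvPolynomial (Fin c) K := (sl a).domRestrict _
      have hrange : LinearMap.range f = grade (slice I a) (d - a.degree) := by
        apply le_antisymm
        · rintro _ ⟨⟨p, hp⟩, rfl⟩
          obtain ⟨⟨hpI, hpd⟩, hp2⟩ := mem_part'.1 hp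
          exact ⟨⟨p, hpI, fun β hβ => hp2 β fun hb => (hmin β hb).not_gt hβ, rfl⟩,
            sl_homogeneous hpd⟩
        · rintro g ⟨⟨p, hpI, hp', rfl⟩, hg⟩
          have had : a.degree + (d - a.degree) = d := by
            have := mem_expLE.1 (hsub ha)
            omega
          refine ⟨⟨homogeneousComponent d p, mem_part'.2
            ⟨⟨hI p hpI d, homogeneousComponent_isHomogeneous _ _⟩, fun β hβ => ?_⟩⟩, ?_⟩
          · rcases lt_or_ge d β.degree with h | h
            · exact sl_eq_zero (homogeneousComponent_isHomogeneous _ _) h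
            · rw [show d = β.degree + (d - β.degree) by omega, ← hcomp_sl,
                hp' β (lt_of_not_ge fun hle => hβ (hup a ha β (mem_expLE.2 h) hle)), map_zero]
          · show sl a (homogeneousComponent d p) = sl a p
            conv_lhs => rw [← had, ← hcomp_sl]
            exact homogeneousComponent_eq_self hg
      have hker : LinearMap.ker f = Submodule.comap (part' I d s).subtype (part' I d (s.erase a)) := by
        ext ⟨p, hp⟩
        obtain ⟨hp1, hp2⟩ := mem_part'.1 hp
        show sl a p = 0 ↔ p ∈ part' I d (s.erase a)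
        rw [mem_part', and_iff_right hp1]
        constructor
        · intro h β hβ
          by_cases hb : β = a
          · rw [hb, h]
          · exact hp2 β fun hs => hβ (Finset.mem_erase.2 ⟨hb, hs⟩)
        · exact fun h => h a (Finset.notMem_erase a s)
      have hle : part' I d (s.erase a) ≤ part' I d s := fun p hp => by
        obtain ⟨hp1, hp2⟩ := mem_part'.1 hp
        exact mem_part'.2 ⟨hp1, fun β hβ => hp2 β fun hb => hβ (Finset.mem_of_mem_erase hb)⟩
      have hupe : ∀ α ∈ s.erase a, ∀ β ∈ expLE m d, toLex α ≤ toLex β → β ∈ s.erase a := by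
        intro α hα β hβ hαβ
        obtain ⟨hne', hαs⟩ := Finset.mem_erase.1 hα
        refine Finset.mem_erase.2 ⟨?_, hup α hαs β hβ hαβ⟩
        rintro rfl
        exact hne' (toLex.injective (le_antisymm hαβ (hmin α hαs)))
      rw [← LinearMap.finrank_range_add_finrank_ker f, hrange, hker,
        (Submodule.comapSubtypeEquivOfLe hle).finrank_eq,
        ih _ (Finset.erase_ssubset ha) ((Finset.erase_subset _ _).trans hsub) hupe,
        ← Finset.add_sum_erase s _ ha]

end Slice

/-- A homogeneous ideal splits into an increasing family of ideals in the last `c` variables. -/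
theorem exists_slices {m c : ℕ} {I : Ideal (MvPolynomial (Fin m ⊕ Fin c) K)} (hI : Closed I) :
    ∃ J : (Fin m →₀ ℕ) → Ideal (MvPolynomial (Fin c) K),
      (∀ α, Closed (J α)) ∧
      (∀ α i, J α ≤ J (α + Finsupp.single i 1)) ∧
      (∀ p ∈ I, killFirst p ∈ J 0) ∧
      ∀ d, finrank K ↥(grade I d) =
        ∑ α ∈ expLE m d, finrank K ↥(grade (J α) (d - α.degree)) := by
  refine ⟨slice I, closed_slice hI, slice_mono I, fun p hp => ?_, fun d => ?_⟩
  · exact ⟨p, hp, fun β hβ => absurd hβ (not_lt_of_ge (Finsupp.toLex_monotone bot_le)),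
      sl_zero_eq_killFirst p⟩
  · rw [← finrank_part' hI d (expLE m d) (Finset.Subset.refl _) fun _ _ β hβ _ => hβ]
    have : part' I d (expLE m d) = grade I d := by
      refine inf_eq_left.2 fun p hp => ?_
      simp only [Submodule.mem_iInf, LinearMap.mem_ker]
      intro β hβ
      exact sl_eq_zero hp.2 (by rw [mem_expLE] at hβ; omega)
    rw [this]

end Vale.P200.Ext
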