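import Vale.Agent.P200.Ext.Seq
import Vale.Agent.P200.Ext.Slices

/-!
P200, any number of variables: no socle below the number of variables, projection to three
variables.
-/

namespace Vale.P200.Ext

open MvPolynomial

variable {K : Type*} [Field K]

/-- Three forms forming a regular sequence, unfolded. -/
lemma regMod_of_isRegular {σ : Type*} {f₁ f₂ f₃ : MvPolynomial σ K}
    (h : RingTheory.Sequence.IsRegular (MvPolynomial σ K) [f₁, f₂, f₃]) :
    RegMod ⊥ [f₁, f₂, f₃] := by
  have h0 := h.toIsWeaklyRegular.regular_mod_prev 0 (by simp)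
  have h1 := h.toIsWeaklyRegular.regular_mod_prev 1 (by simp)
  have h2 := h.toIsWeaklyRegular.regular_mod_prev 2 (by simp)
  rw [isSMulRegular_quotient_iff_mem_of_smul_mem] at h0 h1 h2
  simp only [List.take_zero, List.take_succ_cons, Ideal.ofList_cons, Ideal.ofList_nil,
    sup_bot_eq, Submodule.bot_smul, smul_eq_mul, Ideal.mul_top,
    List.getElem_cons_zero, List.getElem_cons_succ] at h0 h1 h2
  exact ⟨h0, by rw [bot_sup_eq]; exact h1, by rw [bot_sup_eq]; exact h2, trivial⟩

lemma mem_map_equiv {A B : Type*} [CommRing A] [CommRing B] [Algebra K A] [Algebra K B]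
    (e : A ≃ₐ[K] B) {I : Ideal A} {p : A} : e p ∈ I.map e ↔ p ∈ I := by
  refine ⟨fun h => ?_, Ideal.mem_map_of_mem _⟩
  obtain ⟨q, hq, hqe⟩ := (Ideal.mem_map_iff_of_surjective e e.surjective).1 h
  rwa [← e.injective hqe]

/-- Regular sequences pass to quotients by ideals contained in the base ideal. -/
lemma RegMod.map {σ τ : Type*} (f : MvPolynomial σ K →ₐ[K] MvPolynomial τ K)
    (hf : Function.Surjective f) :
    ∀ (l : List (MvPolynomial σ K)) (Q : Ideal (MvPolynomial σ K)),
      (∀ p, f p = 0 → p ∈ Q) → RegMod Q l → RegMod (Q.map f) (l.map f) := by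
  intro l
  induction l with
  | nil => intros; trivial
  | cons g t ih =>
    rintro Q hker ⟨hg, ht⟩
    refine ⟨fun p hp => ?_, ?_⟩
    · obtain ⟨p, rfl⟩ := hf p
      rw [← map_mul] at hp
      obtain ⟨q, hq, hqe⟩ := (Ideal.mem_map_iff_of_surjective f hf).1 hp
      have : g * p ∈ Q := by
        have h1 := hker (g * p - q) (by rw [map_sub, hqe, sub_self])
        have := add_mem h1 hq
        rwa [sub_add_cancel] at this
      exact Ideal.mem_map_of_mem _ (hg p this)
    · have h := ih (Q ⊔ Ideal.span {g}) (fun p hp => Submodule.mem_sup_left (hker p hp)) ht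
      rwa [Ideal.map_sup, Ideal.map_span, Set.image_singleton] at h

section Coord

variable {m c : ℕ} {T : Fin m → MvPolynomial (Fin (m + c)) K}

lemma aeval_above {A : Type*} [CommRing A] [Algebra K A] {n : ℕ} {u v : Fin n → A} {j : Fin n}
    (h : ∀ i, j < i → u i = v i) {r : MvPolynomial (Fin n) K} (hr : r ∈ above (K := K) j) :
    aeval u r = aeval v r := by
  induction hr using Submodule.span_induction with
  | mem x hx => obtain ⟨i, hi, rfl⟩ := hx; simp [h i hi]
  | zero => simp
  | add x y _ _ hx hy => simp [hx, hy]
  | smul a x _ hx => simp [map_smul, hx]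

lemma above_mono {n : ℕ} {i j : Fin n} (h : j ≤ i) : above (K := K) i ≤ above j :=
  Submodule.span_mono (Set.image_mono fun _ hl => lt_of_le_of_lt h hl)

lemma exists_vals {τ : Type*} (hT : ∀ k, IsTri (Fin.castAdd c k) (T k))
    (low : Fin m → MvPolynomial τ K) (high : Fin c → MvPolynomial τ K)
    (hl : ∀ k, (low k).IsHomogeneous 1) (hh : ∀ k, (high k).IsHomogeneous 1) :
    ∃ v : Fin (m + c) → MvPolynomial τ K, (∀ i, (v i).IsHomogeneous 1) ∧
      (∀ k, v (Fin.natAdd m k) = high k) ∧ ∀ k, aeval v (T k) = low k := by
  suffices ∀ d, d ≤ m → ∃ v : Fin (m + c) → MvPolynomial τ K, (∀ i, (v i).IsHomogeneous 1) ∧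
      (∀ k, v (Fin.natAdd m k) = high k) ∧ ∀ k : Fin m, m ≤ k.val + d → aeval v (T k) = low k by
    obtain ⟨v, h1, h2, h3⟩ := this m le_rfl
    exact ⟨v, h1, h2, fun k => h3 k (by omega)⟩
  intro d
  induction d with
  | zero =>
    intro _
    refine ⟨Fin.addCases low high, fun i => ?_, fun k => Fin.addCases_right k,
      fun k hk => absurd hk (by omega)⟩
    induction i using Fin.addCases with
    | left k => simp only [Fin.addCases_left]; exact hl k
    | right k => simp only [Fin.addCases_right]; exact hh k
  | succ d ih =>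
    intro hd
    obtain ⟨v, h1, h2, h3⟩ := ih (by omega)
    let j : Fin m := ⟨m - (d + 1), by omega⟩
    let J : Fin (m + c) := Fin.castAdd c j
    let r := T j - X J
    have hr : r ∈ above (K := K) J := hT j
    have hrh : (aeval v r).IsHomogeneous 1 := by
      have := (above_homogeneous hr).aeval (m := 1) v (n := 1) h1
      rwa [one_mul] at this
    refine ⟨Function.update v J (low j - aeval v r), fun i => ?_, fun k => ?_, fun k hk => ?_⟩
    · by_cases hi : i = J
      · subst hi; rw [Function.update_self]; exact (hl j).sub hrh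
      · rw [Function.update_of_ne hi]; exact h1 i
    · rw [Function.update_of_ne, h2]
      intro he
      have := congrArg Fin.val he
      simp only [Fin.val_natAdd, J, Fin.val_castAdd] at this
      omega
    · have hag : ∀ i, J < i → Function.update v J (low j - aeval v r) i = v i := fun i hi =>
        Function.update_of_ne hi.ne' _ _
      rcases eq_or_ne k j with hkj | hne
      · rw [hkj, show T j = X J + r from (add_sub_cancel _ _).symm, map_add, aeval_X,
          Function.update_self, aeval_above hag hr, sub_add_cancel]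
      · have hkj : j.val < k.val := by
          have : k.val ≠ j.val := fun he => hne (Fin.ext he)
          show m - (d + 1) < k.val
          simp only [j] at this
          omega
        have hJk : J < Fin.castAdd c k := by
          show J.val < (Fin.castAdd c k).val
          simpa [J] using hkj
        rw [← h3 k (by simp only [j] at hkj; omega),
          show T k = X (Fin.castAdd c k) + (T k - X (Fin.castAdd c k)) from
            (add_sub_cancel _ _).symm, map_add, map_add, aeval_X, aeval_X, hag _ hJk,
          aeval_above hag (above_mono hJk.le (hT k))]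

/-- Triangular forms and the remaining variables are coordinates. -/
lemma exists_coordEquiv (hT : ∀ k, IsTri (Fin.castAdd c k) (T k)) :
    ∃ A : MvPolynomial (Fin (m + c)) K ≃ₐ[K] MvPolynomial (Fin m ⊕ Fin c) K,
      (∀ k, A (T k) = X (Sum.inl k)) ∧
      ∀ d p, (A p).IsHomogeneous d ↔ p.IsHomogeneous d := by
  obtain ⟨v, h1, h2, h3⟩ := exists_vals hT (fun k => X (Sum.inl k)) (fun k => X (Sum.inr k))
    (fun k => isHomogeneous_X K _) (fun k => isHomogeneous_X K _)
  let w : Fin m ⊕ Fin c → MvPolynomial (Fin (m + c)) K :=
    Sum.elim T fun k => X (Fin.natAdd m k)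
  have hw : ∀ i, (w i).IsHomogeneous 1 := by
    rintro (k | k)
    · exact (hT k).homogeneous
    · exact isHomogeneous_X K _
  have hback : ∀ i : Fin (m + c), aeval w (v i) = X i := by
    suffices ∀ d (i : Fin (m + c)), m + c - i.val = d → aeval w (v i) = X i from
      fun i => this _ i rfl
    intro d
    induction d using Nat.strong_induction_on with
    | h d ih =>
      intro i hid
      induction i using Fin.addCases with
      | right k => rw [h2, aeval_X]; rfl
      | left k =>
        have hr : T k - X (Fin.castAdd c k) ∈ above (K := K) (Fin.castAdd c k) := hT k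
        have key : aeval w (aeval v (T k - X (Fin.castAdd c k))) =
            T k - X (Fin.castAdd c k) := by
          have he : ∀ r, r ∈ above (K := K) (Fin.castAdd c k) → aeval w (aeval v r) = r := by
            intro r hr
            induction hr using Submodule.span_induction with
            | mem x hx =>
              obtain ⟨l, hl, rfl⟩ := hx
              rw [aeval_X]
              have hlt : (Fin.castAdd c k).val < l.val := hl
              exact ih (m + c - l.val) (by omega) l rfl
            | zero => simp
            | add x y _ _ hx hy => rw [map_add, map_add, hx, hy]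
            | smul a x _ hx => rw [map_smul, map_smul, hx]
          exact he _ hr
        rw [map_sub, map_sub, h3, aeval_X, aeval_X] at key
        exact sub_right_injective key
  refine ⟨AlgEquiv.ofAlgHom (aeval v) (aeval w) ?_ ?_, h3, fun d p => ⟨fun h => ?_, fun h => ?_⟩⟩
  · apply MvPolynomial.algHom_ext
    rintro (k | k)
    · simp only [AlgHom.comp_apply, aeval_X, AlgHom.id_apply, w, Sum.elim_inl, h3]
    · simp only [AlgHom.comp_apply, aeval_X, AlgHom.id_apply, w, Sum.elim_inr, h2]
  · apply MvPolynomial.algHom_ext
    intro i; simp only [AlgHom.comp_apply, aeval_X, AlgHom.id_apply, hback]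
  · have hcomp : aeval w (aeval v p) = p := by
      have : (aeval w).comp (aeval v) = AlgHom.id K _ := by
        apply MvPolynomial.algHom_ext
        intro i; simp only [AlgHom.comp_apply, aeval_X, AlgHom.id_apply, hback]
      exact DFunLike.congr_fun this p
    have := IsHomogeneous.aeval (m := d) (φ := aeval v p) h w (n := 1) hw
    rwa [one_mul, hcomp] at this
  · have := h.aeval (m := d) v (n := 1) h1
    rw [one_mul] at this
    exact this

lemma killFirst_rename (q : MvPolynomial (Fin c) K) :
    killFirst (m := m) (rename Sum.inr q) = q := by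
  have : (killFirst (K := K) (m := m) (c := c)).comp (rename Sum.inr) = AlgHom.id K _ := by
    apply MvPolynomial.algHom_ext; intro i; simp [killFirst]
  exact DFunLike.congr_fun this q

lemma killFirst_surjective : Function.Surjective (killFirst (K := K) (m := m) (c := c)) :=
  fun q => ⟨rename Sum.inr q, killFirst_rename q⟩

lemma killFirst_eq_zero {p : MvPolynomial (Fin m ⊕ Fin c) K} (h : killFirst p = 0) :
    p ∈ Ideal.span (Set.range fun k : Fin m => (X (Sum.inl k) : MvPolynomial (Fin m ⊕ Fin c) K)) := by
  set W := Ideal.span (Set.range fun k : Fin m => (X (Sum.inl k) : MvPolynomial (Fin m ⊕ Fin c) K))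
  have hc : (Ideal.Quotient.mkₐ K W).comp ((rename Sum.inr).comp killFirst) =
      Ideal.Quotient.mkₐ K W := by
    apply MvPolynomial.algHom_ext
    rintro (k | k)
    · simp only [AlgHom.coe_comp, Function.comp_apply, killFirst, aeval_X, Sum.elim_inl,
        Pi.zero_apply, map_zero]
      exact (Ideal.Quotient.eq_zero_iff_mem.2 (Ideal.subset_span (Set.mem_range_self k))).symm
    · simp [killFirst]
  have := DFunLike.congr_fun hc p
  simp only [AlgHom.coe_comp, Function.comp_apply, h, map_zero] at this
  exact Ideal.Quotient.eq_zero_iff_mem.1 this.symm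

/-- The composite of coordinates and projection to the last `c` variables. -/
lemma exists_projection (hT : ∀ k, IsTri (Fin.castAdd c k) (T k)) :
    ∃ A : MvPolynomial (Fin (m + c)) K ≃ₐ[K] MvPolynomial (Fin m ⊕ Fin c) K,
      (∀ d p, (A p).IsHomogeneous d ↔ p.IsHomogeneous d) ∧
      (∀ k, killFirst (A (T k)) = 0) ∧
      ∀ p, killFirst (A p) = 0 → p ∈ Ideal.span (Set.range T) := by
  obtain ⟨A, hA, hhom⟩ := exists_coordEquiv hT
  refine ⟨A, hhom, fun k => by simp [hA, killFirst], fun p hp => ?_⟩
  have h1 := killFirst_eq_zero hp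
  have h2 : Ideal.span (Set.range fun k : Fin m => (X (Sum.inl k) : MvPolynomial (Fin m ⊕ Fin c) K))
      = (Ideal.span (Set.range T)).map A := by
    rw [Ideal.map_span, ← Set.range_comp]
    congr 1
    ext x
    simp [Function.comp_def, hA]
  rw [h2, mem_map_equiv] at h1
  exact h1

lemma noSocle_tri (hT : ∀ k, IsTri (Fin.castAdd c k) (T k)) (hc : 0 < c) :
    NoSocle (Ideal.span (Set.range T)) := by
  obtain ⟨A, -, hT0, hker⟩ := exists_projection hT
  intro h hX
  refine hker h ?_
  obtain ⟨p, hp⟩ : ∃ p, killFirst (A p) = (X (⟨0, hc⟩ : Fin c) : MvPolynomial (Fin c) K) :=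
    ⟨A.symm (rename Sum.inr (X (⟨0, hc⟩ : Fin c))), by rw [A.apply_symm_apply, killFirst_rename]⟩
  have hall : ∀ q ∈ Ideal.span (Set.range T), killFirst (A q) = 0 := by
    intro q hq
    induction hq using Submodule.span_induction with
    | mem x hx => obtain ⟨k, rfl⟩ := hx; exact hT0 k
    | zero => simp
    | add x y _ _ hx hy => simp [hx, hy]
    | smul a x _ hx => rw [smul_eq_mul, map_mul, map_mul, hx, mul_zero]
  have hcc : constantCoeff (p - C (constantCoeff p)) = 0 := by simp
  have h1 : (p - C (constantCoeff p)) * h ∈ Ideal.span (Set.range T) := by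
    have : p - C (constantCoeff p) ∈ (Ideal.span (Set.range T)).colon {h} :=
      mem_ideal_of_X (fun i => Submodule.mem_colon_singleton.2 (hX i)) hcc
    exact Submodule.mem_colon_singleton.1 this
  have h2 := hall _ h1
  rw [map_mul, map_mul, map_sub, map_sub, hp] at h2
  refine (mul_eq_zero.1 h2).resolve_left (sub_ne_zero.2 fun he => ?_)
  have hC : killFirst (A (C (constantCoeff p))) = C (constantCoeff p) := by
    rw [show (C (constantCoeff p) : MvPolynomial (Fin (m + c)) K) =
      algebraMap K _ (constantCoeff p) from rfl, AlgEquiv.commutes, AlgHom.commutes]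
    rfl
  rw [hC] at he
  have := congrArg (fun q : MvPolynomial (Fin c) K => q.totalDegree) he
  simp at this

end Coord

section List

variable {n : ℕ}

/-- A list whose `k`th entry is triangular at `k`. -/
def TriList (T : List (MvPolynomial (Fin n) K)) : Prop :=
  ∀ k (hk : k < T.length), ∃ hn : k < n, IsTri ⟨k, hn⟩ T[k]

lemma TriList.posForm {T : List (MvPolynomial (Fin n) K)} (hT : TriList T) :
    ∀ g ∈ T, PosForm g := by
  intro g hg
  obtain ⟨k, hk, rfl⟩ := List.getElem_of_mem hg
  obtain ⟨hn, h⟩ := hT k hk
  exact h.posForm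

lemma TriList.snoc {T : List (MvPolynomial (Fin n) K)} (hT : TriList T) (hn : T.length < n)
    {g : MvPolynomial (Fin n) K} (hg : IsTri ⟨T.length, hn⟩ g) : TriList (T ++ [g]) := by
  intro k hk
  rw [List.length_append, List.length_singleton] at hk
  rcases Nat.lt_or_ge k T.length with h | h
  · rw [List.getElem_append_left h]; exact hT k h
  · have : k = T.length := by omega
    subst this
    rw [List.getElem_append_right le_rfl]
    exact ⟨hn, by simpa using hg⟩

lemma TriList.low {T : List (MvPolynomial (Fin n) K)} (hT : TriList T) {Q : Ideal (MvPolynomial (Fin n) K)}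
    (hQ : ∀ g ∈ T, g ∈ Q) (hn : T.length < n) :
    ∀ i : Fin n, i < ⟨T.length, hn⟩ → ∃ g, IsTri i g ∧ g ∈ Q := by
  intro i hi
  obtain ⟨_, h⟩ := hT i.val hi
  exact ⟨_, h, hQ _ (List.getElem_mem _)⟩

lemma mem_ofList {g : MvPolynomial (Fin n) K} {l : List (MvPolynomial (Fin n) K)} (h : g ∈ l) :
    g ∈ Ideal.ofList l := Ideal.subset_span h

lemma noSocle_tri_list {T : List (MvPolynomial (Fin n) K)} (hT : TriList T) (h : T.length < n) :
    NoSocle (Ideal.ofList T) := by
  obtain ⟨m, hm⟩ : ∃ m, T.length = m := ⟨_, rfl⟩
  obtain ⟨c, rfl⟩ : ∃ c, n = m + c := ⟨n - m, by omega⟩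
  have h1 := noSocle_tri (T := fun k : Fin m => T[k.val]'(by omega))
    (fun k => (hT k.val (by omega)).2) (by omega)
  have : Set.range (fun k : Fin m => T[k.val]'(by omega)) = {r | r ∈ T} := by
    ext x
    simp only [Set.mem_range, Set.mem_ofPred_eq]
    constructor
    · rintro ⟨k, rfl⟩; exact List.getElem_mem _
    · intro hx
      obtain ⟨k, hk, rfl⟩ := List.getElem_of_mem hx
      exact ⟨⟨k, by omega⟩, rfl⟩
  rw [this] at h1
  exact h1

variable [Infinite K]

/-- Forms of a regular sequence shorter than the number of variables leave no socle. -/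
theorem noSocle_of_regMod : ∀ (r : ℕ) (fs T : List (MvPolynomial (Fin n) K)), fs.length = r →
    T.length + r < n → TriList T → (∀ g ∈ fs, PosForm g) → RegMod ⊥ (T ++ fs) →
    NoSocle (Ideal.ofList (T ++ fs)) := by
  intro r
  induction r with
  | zero =>
    intro fs T hfs hlen hT _ _
    rw [List.length_eq_zero_iff.1 hfs, List.append_nil]
    exact noSocle_tri_list hT (by omega)
  | succ r ih =>
    intro fs T hfs hlen hT hpos hreg
    cases fs with
    | nil => simp at hfs
    | cons f fs' =>
      rw [List.length_cons] at hfs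
      have hposT : ∀ g ∈ T ++ f :: fs', PosForm g := fun g hg =>
        (List.mem_append.1 hg).elim (hT.posForm g) (hpos g)
      have hp1 : (T ++ f :: fs').Perm ((T ++ fs') ++ [f]) := by
        rw [List.append_assoc]
        exact List.Perm.append_left T (List.perm_append_singleton f fs').symm
      have h1 := regMod_append.1 (regMod_perm hp1 ⊥ closed_bot hposT hreg)
      rw [bot_sup_eq] at h1
      have hf : NZD (Ideal.ofList (T ++ fs')) f := h1.2.1
      have hn : T.length < n := by omega
      obtain ⟨g, hg, hgn⟩ := exists_tri ⟨T.length, hn⟩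
        (hT.low (fun x hx => mem_ofList (List.mem_append_left _ hx)) hn)
        (noSocle_of_nzd (hpos f List.mem_cons_self).constantCoeff_eq_zero hf)
      have hreg' : RegMod ⊥ ((T ++ fs') ++ [g]) :=
        regMod_append.2 ⟨h1.1, by rw [bot_sup_eq]; exact ⟨hgn, trivial⟩⟩
      have hp2 : ((T ++ fs') ++ [g]).Perm ((T ++ [g]) ++ fs') := by
        rw [List.append_assoc, List.append_assoc]
        exact List.Perm.append_left T List.perm_append_comm
      have hs := ih fs' (T ++ [g]) (by omega) (by rw [List.length_append, List.length_singleton]; omega)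
        (hT.snoc hn hg) (fun x hx => hpos x (List.mem_cons_of_mem _ hx))
        (regMod_perm hp2 ⊥ closed_bot (fun x hx => by
          rcases List.mem_append.1 hx with hx | hx
          · rcases List.mem_append.1 hx with hx | hx
            · exact hT.posForm x hx
            · exact hpos x (List.mem_cons_of_mem _ hx)
          · rw [List.mem_singleton.1 hx]; exact hg.posForm) hreg')
      rw [← ofList_perm hp2, Ideal.ofList_append, Ideal.ofList_singleton] at hs
      rw [ofList_perm hp1, Ideal.ofList_append, Ideal.ofList_singleton]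
      exact noSocle_exchange (PosForm.constantCoeff_eq_zero hg.posForm) hgn hf hs

end List

/-- Generic coordinates: the forms stay regular after setting the first `m` variables to zero. -/
theorem exists_good_coords [Infinite K] {m c : ℕ} {fs : List (MvPolynomial (Fin (m + c)) K)}
    (hlc : fs.length = c) (hpos : ∀ g ∈ fs, PosForm g) (h : RegMod ⊥ fs) :
    ∃ A : MvPolynomial (Fin (m + c)) K ≃ₐ[K] MvPolynomial (Fin m ⊕ Fin c) K,
      (∀ d p, (A p).IsHomogeneous d ↔ p.IsHomogeneous d) ∧
      RegMod ⊥ (fs.map fun f => killFirst (A f)) := by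
  have build : ∀ k ≤ m, ∃ T : List (MvPolynomial (Fin (m + c)) K),
      T.length = k ∧ TriList T ∧ RegMod ⊥ (T ++ fs) := by
    intro k
    induction k with
    | zero => intro _; exact ⟨[], rfl, fun k hk => absurd hk (by simp), h⟩
    | succ k ih =>
      intro hk
      obtain ⟨T, hlen, hT, hreg⟩ := ih (by omega)
      have hns := noSocle_of_regMod c fs T hlc (by omega) hT hpos hreg
      have hn : T.length < m + c := by omega
      obtain ⟨g, hg, hgn⟩ := exists_tri ⟨T.length, hn⟩
        (hT.low (fun x hx => mem_ofList (List.mem_append_left _ hx)) hn) hns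
      refine ⟨T ++ [g], by simp [hlen], hT.snoc hn hg, ?_⟩
      have hreg' : RegMod ⊥ ((T ++ fs) ++ [g]) :=
        regMod_append.2 ⟨hreg, by rw [bot_sup_eq]; exact ⟨hgn, trivial⟩⟩
      refine regMod_perm ?_ ⊥ closed_bot (fun x hx => ?_) hreg'
      · rw [List.append_assoc, List.append_assoc]
        exact List.Perm.append_left T List.perm_append_comm
      · rcases List.mem_append.1 hx with hx | hx
        · exact (List.mem_append.1 hx).elim (hT.posForm x) (hpos x)
        · rw [List.mem_singleton.1 hx]; exact hg.posForm
  obtain ⟨T, hlen, hT, hreg⟩ := build m le_rfl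
  obtain ⟨A, hhom, hT0, hker⟩ := exists_projection (T := fun k : Fin m => T[k.val]'(by omega))
    (fun k => (hT k.val (by omega)).2)
  refine ⟨A, hhom, ?_⟩
  have h1 := (regMod_append.1 hreg).2
  rw [bot_sup_eq] at h1
  have hran : Ideal.span (Set.range fun k : Fin m => T[k.val]'(by omega)) ≤ Ideal.ofList T := by
    refine Ideal.span_le.2 ?_
    rintro _ ⟨k, rfl⟩
    exact mem_ofList (List.getElem_mem _)
  let F := killFirst.comp A.toAlgHom
  have h2 := RegMod.map F (killFirst_surjective.comp A.surjective) _ _
    (fun p hp => hran (hker p hp)) h1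
  have hmap : (Ideal.ofList T).map F = ⊥ := by
    rw [eq_bot_iff, Ideal.map_le_iff_le_comap, Ideal.span_le]
    intro x hx
    obtain ⟨k, hk, rfl⟩ := List.getElem_of_mem hx
    exact hT0 ⟨k, by omega⟩
  rw [hmap] at h2
  exact h2

end Vale.P200.Ext
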