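import Vale.Agent.P200.Ext.Input
import Vale.Agent.P200.Ext.Slices
import Vale.Agent.P200.Ext.Proj

/-!
P200, any number of variables: complete intersections (Hilbert function, one-dimensional socle)
and the Hilbert function of a linked ideal.
-/

namespace Vale.P200.Ext

open MvPolynomial Module

universe u

variable {K : Type u} [Field K] {n : ℕ}

/-- Fewer forms than variables leave no socle. -/
def NoSocleHyp (K : Type u) [Field K] (n : ℕ) : Prop :=
  ∀ l : List (MvPolynomial (Fin n) K), l.length < n → (∀ g ∈ l, PosForm g) → RegMod ⊥ l →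
    NoSocle (Ideal.ofList l)

lemma noSocleHyp [Infinite K] : NoSocleHyp K n := fun l hl hpos hreg => by
  simpa using noSocle_of_regMod l.length l [] rfl (by simpa using hl)
    (fun k hk => absurd hk (by simp)) hpos (by simpa using hreg)

lemma finite_hom (d : ℕ) : Module.Finite K ↥(homogeneousSubmodule (Fin n) K d) :=
  Module.Finite.of_fg (homogeneousSubmodule_fg _ _ d)

lemma finrank_grade_le_hom (I : Ideal (MvPolynomial (Fin n) K)) (d : ℕ) :
    finrank K ↥(grade I d) ≤ finrank K ↥(homogeneousSubmodule (Fin n) K d) :=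
  have := finite_hom (K := K) (n := n) d
  Submodule.finrank_mono inf_le_right

lemma hq_antitone {I J : Ideal (MvPolynomial (Fin n) K)} (h : I ≤ J) (d : ℕ) : hq J d ≤ hq I d := by
  have := finite_grade J d
  have := Submodule.finrank_mono (show grade I d ≤ grade J d from inf_le_inf_right _ h)
  simp only [hq]
  omega

lemma closed_sup_ofList {l : List (MvPolynomial (Fin n) K)} :
    ∀ {Q : Ideal (MvPolynomial (Fin n) K)}, Closed Q → (∀ g ∈ l, ∃ a, g.IsHomogeneous a) →
      Closed (Q ⊔ Ideal.ofList l) := by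
  induction l with
  | nil => intro Q hQ _; simpa using hQ
  | cons g t ih =>
    intro Q hQ h
    obtain ⟨a, ha⟩ := h g List.mem_cons_self
    rw [Ideal.ofList_cons, ← sup_assoc]
    exact ih (hQ.sup_span ha) fun x hx => h x (List.mem_cons_of_mem _ hx)

lemma closed_ofList {l : List (MvPolynomial (Fin n) K)} (h : ∀ g ∈ l, ∃ a, g.IsHomogeneous a) :
    Closed (Ideal.ofList l) := by
  simpa using closed_sup_ofList closed_bot h

/-- One more regular form of degree `A`. -/
lemma finrank_grade_sup {Q : Ideal (MvPolynomial (Fin n) K)} (hQ : Closed Q)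
    {g : MvPolynomial (Fin n) K} {A : ℕ} (hg : g.IsHomogeneous A) (hnzd : NZD Q g) (d : ℕ) :
    if A ≤ d then
      finrank K ↥(grade (Q ⊔ Ideal.span {g}) d) + finrank K ↥(grade Q (d - A)) =
        finrank K ↥(grade Q d) + finrank K ↥(homogeneousSubmodule (Fin n) K (d - A))
    else grade (Q ⊔ Ideal.span {g}) d = grade Q d := by
  split_ifs with hd
  · have := finite_grade Q d
    have := finite_hom (K := K) (n := n) (d - A)
    have := finite_grade Q (d - A)
    let φ : ↥(grade Q d) × ↥(homogeneousSubmodule (Fin n) K (d - A)) →ₗ[K] MvPolynomial (Fin n) K :=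
      (grade Q d).subtype.coprod
        ((LinearMap.mulRight K g).comp (homogeneousSubmodule (Fin n) K (d - A)).subtype)
    have hφ : ∀ x, φ x = x.1.1 + x.2.1 * g := fun x => rfl
    have hrange : LinearMap.range φ = grade (Q ⊔ Ideal.span {g}) d := by
      apply le_antisymm
      · rintro _ ⟨x, rfl⟩
        rw [hφ]
        refine ⟨Submodule.add_mem_sup x.1.2.1
          (Ideal.mul_mem_left _ _ (Ideal.subset_span rfl)), ?_⟩
        refine IsHomogeneous.add x.1.2.2 ?_
        have := IsHomogeneous.mul x.2.2 hg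
        rwa [Nat.sub_add_cancel hd] at this
      · rintro p ⟨hp, hpd⟩
        obtain ⟨q, hq, v, hv⟩ := mem_sup_span.1 hp
        have h := congrArg (homogeneousComponent d) hv
        rw [homogeneousComponent_eq_self hpd, map_add, hcomp_mul hg, if_pos hd] at h
        exact ⟨(⟨_, hQ q hq d, homogeneousComponent_isHomogeneous _ _⟩,
          ⟨_, homogeneousComponent_isHomogeneous _ _⟩), h⟩
    let ψ : ↥(grade Q (d - A)) →ₗ[K] ↥(LinearMap.ker φ) :=
      LinearMap.codRestrict _
        (LinearMap.prod
          (LinearMap.codRestrict _ (-(LinearMap.mulRight K g).comp (grade Q (d - A)).subtype)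
            fun u => by
              refine ⟨Q.neg_mem (Q.mul_mem_right _ u.2.1), ?_⟩
              have := IsHomogeneous.mul u.2.2 hg
              rw [Nat.sub_add_cancel hd] at this
              exact Submodule.neg_mem _ this)
          (Submodule.inclusion inf_le_right))
        fun u => by
          rw [LinearMap.mem_ker, hφ]
          exact neg_add_cancel _
    have hψ : Function.Bijective ψ := by
      refine ⟨fun u v h => ?_, fun x => ?_⟩
      · exact Subtype.ext (congrArg (fun y => ((Prod.snd (Subtype.val y)).1)) h :)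
      · obtain ⟨⟨q, u⟩, hx⟩ := x
        rw [LinearMap.mem_ker, hφ] at hx
        have hu : (u : MvPolynomial (Fin n) K) ∈ Q := hnzd _ (by
          rw [mul_comm, eq_neg_of_add_eq_zero_right hx]
          exact Q.neg_mem q.2.1)
        refine ⟨⟨u, hu, u.2⟩, Subtype.ext (Prod.ext (Subtype.ext ?_) rfl)⟩
        exact (eq_neg_of_add_eq_zero_left hx).symm
    have h1 := LinearMap.finrank_range_add_finrank_ker φ
    rw [hrange, Module.finrank_prod, ← (LinearEquiv.ofBijective ψ hψ).finrank_eq] at h1
    exact h1
  · refine le_antisymm ?_ (inf_le_inf_right _ (le_sup_left (a := Q)))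
    rintro p ⟨hp, hpd⟩
    obtain ⟨q, hq, v, hv⟩ := mem_sup_span.1 hp
    have h := congrArg (homogeneousComponent d) hv
    rw [homogeneousComponent_eq_self hpd, map_add, hcomp_mul hg, if_neg hd, add_zero] at h
    exact ⟨h ▸ hQ q hq d, hpd⟩

lemma hq_sup {Q : Ideal (MvPolynomial (Fin n) K)} (hQ : Closed Q)
    {g : MvPolynomial (Fin n) K} {A : ℕ} (hg : g.IsHomogeneous A) (hnzd : NZD Q g) (d : ℕ) :
    hq (Q ⊔ Ideal.span {g}) d + (if A ≤ d then hq Q (d - A) else 0) = hq Q d := by
  have h := finrank_grade_sup hQ hg hnzd d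
  have := finrank_grade_le_hom (K := K) (Q ⊔ Ideal.span {g}) d
  have := finrank_grade_le_hom (K := K) Q d
  have := finrank_grade_le_hom (K := K) Q (d - A)
  simp only [hq]
  by_cases hd : A ≤ d
  · rw [if_pos hd] at h ⊢
    omega
  · rw [if_neg hd] at h ⊢
    rw [h]; omega

/-- The box after `k` forms. -/
def partBox (a : Fin n → ℕ) (D k : ℕ) : Fin n → ℕ := fun i => if i.val < k then a i else D

open Finset in
lemma card_partBox_succ (a : Fin n → ℕ) {D d k : ℕ} (hk : k < n) (hd : d < D) :
    (lev (partBox a D (k + 1)) d).card +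
        (if a ⟨k, hk⟩ ≤ d then (lev (partBox a D k) (d - a ⟨k, hk⟩)).card else 0) =
      (lev (partBox a D k) d).card := by
  classical
  set j : Fin n := ⟨k, hk⟩
  have hbox : ∀ (e : ℕ) (m : Fin n → ℕ), e < D → (∑ i, m i = e) →
      ((∀ i, m i < partBox a D k i) ↔ ∀ i, i.val < k → m i < a i) := by
    intro e m he hm
    refine ⟨fun h i hi => by simpa [partBox, hi] using h i, fun h i => ?_⟩
    by_cases hi : i.val < k
    · simpa [partBox, hi] using h i hi
    · have := single_le_sum (f := m) (fun l _ => Nat.zero_le _) (mem_univ i)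
      simp [partBox, hi]; omega
  have h1 : (lev (partBox a D k) d).filter (fun m => m j < a j) = lev (partBox a D (k + 1)) d := by
    ext m
    simp only [mem_filter, mem_lev]
    constructor
    · rintro ⟨⟨hb, hs⟩, hj⟩
      refine ⟨fun i => ?_, hs⟩
      rcases eq_or_ne i j with rfl | hij
      · simpa [partBox, j] using hj
      · have := hb i
        have hne : i.val ≠ k := fun h => hij (Fin.ext h)
        simp only [partBox] at this ⊢
        split_ifs at this ⊢ <;> omega
    · rintro ⟨hb, hs⟩
      refine ⟨⟨(hbox d m hd hs).2 fun i hi => ?_, hs⟩, by simpa [partBox, j] using hb j⟩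
      simpa [partBox, Nat.lt_succ_of_lt hi] using hb i
  have h2 : ((lev (partBox a D k) d).filter fun m => ¬ m j < a j).card =
      if a j ≤ d then (lev (partBox a D k) (d - a j)).card else 0 := by
    split_ifs with haj
    · refine card_nbij' (fun m => Function.update m j (m j - a j))
        (fun m => Function.update m j (m j + a j)) ?_ ?_ ?_ ?_
      · intro m hm
        simp only [coe_filter, Set.mem_ofPred_eq, mem_lev, not_lt] at hm
        simp only [mem_coe, mem_lev]
        have hs : ∑ i, Function.update m j (m j - a j) i + a j = d := by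
          rw [sum_update_of_mem (mem_univ j), ← hm.1.2, ← add_sum_erase _ _ (mem_univ j),
            sdiff_singleton_eq_erase]
          omega
        refine ⟨(hbox _ _ (by omega) rfl).2 (fun i hi => ?_), by omega⟩
        have : i ≠ j := fun h => by simp [h, j] at hi
        simpa [this, partBox, hi] using hm.1.1 i
      · intro m hm
        simp only [mem_coe, mem_lev] at hm
        simp only [coe_filter, Set.mem_ofPred_eq, mem_lev, not_lt]
        have hs : ∑ i, Function.update m j (m j + a j) i = d := by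
          rw [sum_update_of_mem (mem_univ j), sdiff_singleton_eq_erase]
          have := add_sum_erase univ m (mem_univ j)
          omega
        refine ⟨⟨(hbox _ _ hd hs).2 (fun i hi => ?_), hs⟩, by simp⟩
        have : i ≠ j := fun h => by simp [h, j] at hi
        simpa [this, partBox, hi] using hm.1 i
      · intro m hm
        simp only [coe_filter, Set.mem_ofPred_eq, not_lt] at hm
        simp [Nat.sub_add_cancel hm.2]
      · intro m _
        simp
    · rw [card_eq_zero, filter_eq_empty_iff]
      intro m hm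
      have := single_le_sum (f := m) (fun l _ => Nat.zero_le _) (mem_univ j)
      have := (mem_lev.1 hm).2
      omega
  rw [← h1, ← h2, card_filter_add_card_filter_not]

lemma finrank_hom_eq_card (d D : ℕ) (hd : d < D) :
    finrank K ↥(homogeneousSubmodule (Fin n) K d) = (lev (fun _ : Fin n => D) d).card := by
  classical
  rw [homogeneousSubmodule_eq_finsupp_supported,
    ← Set.ncard_coe_finset]
  refine (finrank_eq_nat_card_basis (basisRestrictSupport K {m : Fin n →₀ ℕ | m.degree = d})).trans ?_
  rw [Nat.card_coe_set_eq, ← Set.ncard_image_of_injective _ DFunLike.coe_injective]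
  congr 1
  ext m
  simp only [Set.mem_image, Set.mem_ofPred_eq, Finset.mem_coe, mem_lev]
  constructor
  · rintro ⟨x, hx, rfl⟩
    rw [Finsupp.degree_eq_sum] at hx
    exact ⟨fun i => lt_of_le_of_lt
      (Finset.single_le_sum (fun l _ => Nat.zero_le _) (Finset.mem_univ i)) (hx.trans_lt hd), hx⟩
  · rintro ⟨-, hs⟩
    exact ⟨Finsupp.equivFunOnFinite.symm m, by simpa [Finsupp.degree_eq_sum] using hs, rfl⟩

lemma hq_bot (d : ℕ) : hq (⊥ : Ideal (MvPolynomial (Fin n) K)) d =
    finrank K ↥(homogeneousSubmodule (Fin n) K d) := by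
  have : grade (⊥ : Ideal (MvPolynomial (Fin n) K)) d = ⊥ := by
    simp [grade]
  rw [hq, this, finrank_bot, Nat.sub_zero]

/-- The Hilbert function of a complete intersection. -/
theorem hq_ofList {a : Fin n → ℕ} {f : Fin n → MvPolynomial (Fin n) K}
    (hf : ∀ i, (f i).IsHomogeneous (a i)) (hreg : RegMod ⊥ (List.ofFn f)) (d : ℕ) :
    hq (Ideal.ofList (List.ofFn f)) d = (lev a d).card := by
  suffices ∀ k ≤ n, ∀ e < d + 1,
      hq (Ideal.ofList ((List.ofFn f).take k)) e = (lev (partBox a (d + 1) k) e).card by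
    have h := this n le_rfl d (by omega)
    rw [List.take_of_length_le (by simp)] at h
    rw [h]
    congr 2
    funext i
    simp [partBox]
  intro k
  induction k with
  | zero =>
    intro _ e he
    have hbox : partBox a (d + 1) 0 = fun _ => d + 1 := by funext i; simp [partBox]
    simpa [hq_bot, hbox] using finrank_hom_eq_card e (d + 1) he
  | succ k ih =>
    intro hk e he
    have hk' : k < n := hk
    have htake : (List.ofFn f).take (k + 1) = (List.ofFn f).take k ++ [f ⟨k, hk'⟩] := by
      rw [List.take_succ_eq_append_getElem (by simpa using hk'), List.getElem_ofFn]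
    have hclosed : Closed (Ideal.ofList ((List.ofFn f).take k)) := closed_ofList fun g hg => by
      obtain ⟨i, rfl⟩ := List.mem_ofFn.1 (List.mem_of_mem_take hg)
      exact ⟨_, hf i⟩
    have hn : NZD (Ideal.ofList ((List.ofFn f).take k)) (f ⟨k, hk'⟩) := by
      rw [← List.take_append_drop (k + 1) (List.ofFn f), regMod_append] at hreg
      have h1 := hreg.1
      rw [htake, regMod_append] at h1
      simpa [RegMod] using h1.2
    have h := hq_sup hclosed (hf ⟨k, hk'⟩) hn e
    rw [htake, Ideal.ofList_append, Ideal.ofList_cons, Ideal.ofList_nil, sup_bot_eq]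
    have hc := card_partBox_succ a (D := d + 1) hk' he
    rw [ih (by omega) e he] at h
    by_cases hae : a ⟨k, hk'⟩ ≤ e
    · rw [if_pos hae] at h hc
      rw [ih (by omega) (e - a ⟨k, hk'⟩) (by omega)] at h
      omega
    · rw [if_neg hae] at h hc
      omega

/-- The socle modulo `Q` is one-dimensional, in degree `s`. -/
def Soc1 (Q : Ideal (MvPolynomial (Fin n) K)) (s : ℕ) : Prop :=
  (∀ d h, h.IsHomogeneous d → (∀ i, X i * h ∈ Q) → d ≠ s → h ∈ Q) ∧
    ∃ u : MvPolynomial (Fin n) K, u.IsHomogeneous s ∧ (∀ i, X i * u ∈ Q) ∧ u ∉ Q ∧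
      ∀ h : MvPolynomial (Fin n) K, h.IsHomogeneous s → (∀ i, X i * h ∈ Q) →
        ∃ r : K, h - C r * u ∈ Q

section Exchange

variable {Q : Ideal (MvPolynomial (Fin n) K)} {a b : MvPolynomial (Fin n) K} {A B : ℕ}

lemma exchange_rel (ha : NZD Q a) {h k : MvPolynomial (Fin n) K} (hrel : a * h - b * k ∈ Q)
    (hk : k ∈ Q ⊔ Ideal.span {a}) : h ∈ Q ⊔ Ideal.span {b} := by
  obtain ⟨q', hq', v, hv⟩ := mem_sup_span.1 hk
  have : a * (h - v * b) ∈ Q := by
    rw [show a * (h - v * b) = (a * h - b * k) + b * q' by linear_combination -b * hv]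
    exact add_mem hrel (Ideal.mul_mem_left _ _ hq')
  exact mem_sup_span.2 ⟨h - v * b, ha _ this, v, by ring⟩

lemma exchange_socle (hb : NZD Q b) {h k : MvPolynomial (Fin n) K} (hrel : a * h - b * k ∈ Q)
    (hX : ∀ i, X i * h ∈ Q ⊔ Ideal.span {b}) (i : Fin n) : X i * k ∈ Q ⊔ Ideal.span {a} := by
  obtain ⟨qi, hqi, u, hu⟩ := mem_sup_span.1 (hX i)
  have : b * (a * u - X i * k) ∈ Q := by
    rw [show b * (a * u - X i * k) = X i * (a * h - b * k) - a * qi by
      linear_combination a * hu]
    exact sub_mem (Ideal.mul_mem_left _ _ hrel) (Ideal.mul_mem_left _ _ hqi)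
  exact mem_sup_span.2 ⟨-(a * u - X i * k), Q.neg_mem (hb _ this), u, by ring⟩

lemma exchange_partner (hQ : Closed Q) (hgb : b.IsHomogeneous B) (ha : NZD Q a)
    (hga : a.IsHomogeneous A) (hA : 1 ≤ A) {d : ℕ} {h : MvPolynomial (Fin n) K}
    (hd : h.IsHomogeneous d) (hX : ∀ i, X i * h ∈ Q ⊔ Ideal.span {b})
    (hh : h ∉ Q ⊔ Ideal.span {b}) :
    B ≤ d + A ∧ ∃ k : MvPolynomial (Fin n) K, k.IsHomogeneous (d + A - B) ∧
      a * h - b * k ∈ Q := by
  have hah : a * h ∈ Q ⊔ Ideal.span {b} := by
    have : a ∈ (Q ⊔ Ideal.span {b}).colon {h} :=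
      mem_ideal_of_X (fun i => Submodule.mem_colon_singleton.2 (hX i))
        (PosForm.constantCoeff_eq_zero ⟨A, hA, hga⟩)
    exact Submodule.mem_colon_singleton.1 this
  obtain ⟨q, hq, k, hk⟩ := mem_sup_span.1 hah
  have he := congrArg (homogeneousComponent (d + A)) hk
  have hahd : (a * h).IsHomogeneous (d + A) := by rw [mul_comm]; exact hd.mul hga
  rw [homogeneousComponent_eq_self hahd, map_add, hcomp_mul hgb] at he
  by_cases hB : B ≤ d + A
  · rw [if_pos hB] at he
    refine ⟨hB, _, homogeneousComponent_isHomogeneous _ k, ?_⟩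
    rw [← he, mul_comm b, add_sub_cancel_right]
    exact hQ q hq _
  · rw [if_neg hB, add_zero] at he
    exact absurd (Submodule.mem_sup_left (ha h (he ▸ hQ q hq _))) hh

/-- Exchanging the last form shifts the degree of the socle. -/
lemma soc1_exchange (hQ : Closed Q) (hga : a.IsHomogeneous A) (hgb : b.IsHomogeneous B)
    (hA : 1 ≤ A) (hB : 1 ≤ B) (ha : NZD Q a) (hb : NZD Q b) {s : ℕ}
    (hs : Soc1 (Q ⊔ Ideal.span {a}) s) :
    A ≤ s + B ∧ Soc1 (Q ⊔ Ideal.span {b}) (s + B - A) := by
  obtain ⟨hne, u, hud, huX, hu, huniq⟩ := hs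
  obtain ⟨hAB, u', hu'd, hrel⟩ := exchange_partner (a := b) (b := a) hQ hga hb hgb hB hud huX hu
  have hrel' : a * u' - b * u ∈ Q := by
    rw [show a * u' - b * u = -(b * u - a * u') by ring]
    exact Q.neg_mem hrel
  refine ⟨hAB, fun d h hd hX hds => ?_, u', hu'd, exchange_socle ha hrel huX,
    fun hmem => hu (exchange_rel hb hrel hmem), fun h hd hX => ?_⟩
  · by_contra hh
    obtain ⟨hBd, k, hkd, hk⟩ := exchange_partner hQ hgb ha hga hA hd hX hh
    exact hh (exchange_rel ha hk (hne _ k hkd (exchange_socle hb hk hX) (by omega)))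
  · by_cases hh : h ∈ Q ⊔ Ideal.span {b}
    · exact ⟨0, by simpa using hh⟩
    obtain ⟨hBd, k, hkd, hk⟩ := exchange_partner hQ hgb ha hga hA hd hX hh
    obtain ⟨r, hr⟩ := huniq k (by convert hkd using 1; omega) (exchange_socle hb hk hX)
    refine ⟨r, exchange_rel ha (k := k - C r * u) ?_ hr⟩
    rw [show a * (h - C r * u') - b * (k - C r * u) = (a * h - b * k) - C r * (a * u' - b * u) by
      ring]
    exact sub_mem hk (Ideal.mul_mem_left _ _ hrel')

end Exchange

lemma regMod_snoc {l : List (MvPolynomial (Fin n) K)} {g : MvPolynomial (Fin n) K} :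
    RegMod ⊥ (l ++ [g]) ↔ RegMod ⊥ l ∧ NZD (Ideal.ofList l) g := by
  simp [regMod_append, RegMod]

lemma soc1_tri (g : Fin n → MvPolynomial (Fin n) K) (hg : ∀ i, IsTri i (g i)) :
    Soc1 (Ideal.ofList (List.ofFn g)) 0 := by
  have hX : ∀ i, X i ∈ Ideal.ofList (List.ofFn g) := by
    intro i
    refine X_mem_of_tri i (fun l _ => ⟨g l, hg l, Ideal.subset_span (by simp)⟩) ?_ i
    intro l hl
    suffices ∀ k (l : Fin n), n - l.val = k → (X l : MvPolynomial (Fin n) K) ∈
        Ideal.ofList (List.ofFn g) from this _ l rfl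
    intro k
    induction k using Nat.strong_induction_on with
    | h k ih =>
      intro l hlk
      have hle : above (K := K) l ≤ (Ideal.ofList (List.ofFn g)).restrictScalars K := by
        refine Submodule.span_le.2 ?_
        rintro _ ⟨j, hj, rfl⟩
        have : l.val < j.val := hj
        exact ih (n - j.val) (by omega) j rfl
      have h1 : g l ∈ Ideal.ofList (List.ofFn g) := Ideal.subset_span (by simp)
      simpa using sub_mem h1 (hle (hg l))
  refine ⟨fun d h hd _ hd0 => mem_ideal_of_X hX (PosForm.constantCoeff_eq_zero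
    ⟨d, Nat.pos_of_ne_zero hd0, hd⟩), 1, isHomogeneous_one _ _,
    fun i => by rw [mul_one]; exact hX i, fun h1 => ?_, fun h hd _ => ⟨constantCoeff h, ?_⟩⟩
  · have hle : Ideal.ofList (List.ofFn g) ≤
        RingHom.ker (constantCoeff : MvPolynomial (Fin n) K →+* K) := by
      refine Ideal.span_le.2 fun x hx => ?_
      obtain ⟨i, rfl⟩ := List.mem_ofFn.1 hx
      exact (hg i).posForm.constantCoeff_eq_zero
    simpa using hle h1
  · rw [mul_one]
    exact mem_ideal_of_X hX (by simp)

/-- A complete intersection has a one-dimensional socle, in degree `∑ (a i - 1)`. -/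
theorem soc1_ofList [Infinite K] (hns : NoSocleHyp K n) {a : Fin n → ℕ} (ha : ∀ i, 1 ≤ a i)
    {f : Fin n → MvPolynomial (Fin n) K} (hf : ∀ i, (f i).IsHomogeneous (a i))
    (hreg : RegMod ⊥ (List.ofFn f)) :
    Soc1 (Ideal.ofList (List.ofFn f)) (∑ i, (a i - 1)) := by
  suffices ∀ (r k : ℕ) (g : Fin k → MvPolynomial (Fin n) K) (rest : List (MvPolynomial (Fin n) K × ℕ))
      (hk : k + r = n), rest.length = r → (∀ i, IsTri (Fin.castLE (by omega) i) (g i)) →
      (∀ p ∈ rest, 1 ≤ p.2 ∧ p.1.IsHomogeneous p.2) →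
      RegMod ⊥ (List.ofFn g ++ rest.map Prod.fst) →
      Soc1 (Ideal.ofList (List.ofFn g ++ rest.map Prod.fst)) (rest.map fun p => p.2 - 1).sum by
    have h := this n 0 Fin.elim0 (List.ofFn fun i => (f i, a i)) (Nat.zero_add n) (by simp)
      (fun i => i.elim0) (fun p hp => by
        obtain ⟨i, rfl⟩ := List.mem_ofFn.1 hp
        exact ⟨ha i, hf i⟩)
      (by simpa [List.map_ofFn, Function.comp_def] using hreg)
    simpa [List.map_ofFn, Function.comp_def, List.sum_ofFn] using h
  intro r
  induction r with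
  | zero =>
    intro k g rest hk hlen hg _ _
    obtain rfl := List.length_eq_zero_iff.1 hlen
    obtain rfl : k = n := by omega
    simpa using soc1_tri g fun i => by simpa using hg i
  | succ r ih =>
    intro k g rest hk hlen hg hrest hreg
    obtain ⟨rest', ⟨b, B⟩, rfl⟩ : ∃ r' p, rest = r' ++ [p] :=
      ⟨rest.dropLast, rest.getLast (by intro h; simp [h] at hlen),
        (List.dropLast_concat_getLast _).symm⟩
    obtain ⟨hB, hbB⟩ := hrest (b, B) (by simp)
    simp only [List.map_append, List.map_cons, List.map_nil, ← List.append_assoc] at hreg ⊢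
    set others := List.ofFn g ++ rest'.map Prod.fst with hothers
    obtain ⟨hregO, hb⟩ := regMod_snoc.1 hreg
    have hposO : ∀ x ∈ others, PosForm x := by
      intro x hx
      rcases List.mem_append.1 hx with hx | hx
      · obtain ⟨i, rfl⟩ := List.mem_ofFn.1 hx
        exact (hg i).posForm
      · obtain ⟨p, hp, rfl⟩ := List.mem_map.1 hx
        exact ⟨p.2, hrest p (List.mem_append_left _ hp)⟩
    have hlen' : rest'.length = r := by simpa using hlen
    have hns' := hns others (by simp [hothers, hlen']; omega) hposO hregO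
    let j : Fin n := ⟨k, by omega⟩
    obtain ⟨l, hl, hlnzd⟩ := exists_tri (Q := Ideal.ofList others) j (fun i hi => by
      refine ⟨g ⟨i.val, hi⟩, ?_, Ideal.subset_span (List.mem_append_left _ (by simp))⟩
      simpa using hg ⟨i.val, hi⟩) hns'
    have hperm : (others ++ [l]).Perm (List.ofFn (Fin.snoc g l) ++ rest'.map Prod.fst) := by
      rw [List.ofFn_succ', List.concat_eq_append]
      simp only [Fin.snoc_castSucc, Fin.snoc_last, hothers, List.append_assoc]
      exact List.Perm.append_left _ List.perm_append_comm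
    have hpos : ∀ x ∈ others ++ [l], PosForm x := by
      intro x hx
      rcases List.mem_append.1 hx with hx | hx
      · exact hposO x hx
      · rw [List.mem_singleton.1 hx]; exact hl.posForm
    have hsoc := ih (k + 1) (Fin.snoc g l) rest' (by omega) hlen' (fun i => by
        cases i using Fin.lastCases with
        | last => simpa [j, Fin.castLE] using hl
        | cast i => simpa using hg i)
      (fun p hp => hrest p (List.mem_append_left _ hp))
      (regMod_perm hperm _ closed_bot hpos (regMod_snoc.2 ⟨hregO, hlnzd⟩))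
    rw [← ofList_perm hperm, Ideal.ofList_append, Ideal.ofList_singleton] at hsoc
    obtain ⟨-, h⟩ := soc1_exchange (closed_ofList fun x hx => by
      obtain ⟨d, -, hd⟩ := hposO x hx; exact ⟨d, hd⟩) hl.homogeneous hbB le_rfl hB hlnzd hb hsoc
    rw [Ideal.ofList_append, Ideal.ofList_singleton]
    convert h using 1
    simp
    omega

/-- The colon ideal of a closed ideal by another is closed. -/
lemma closed_colon {Q I : Ideal (MvPolynomial (Fin n) K)} (hQ : Closed Q) (hI : Closed I) :
    Closed (Q.colon (I : Set (MvPolynomial (Fin n) K))) := by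
  intro p hp d
  rw [Submodule.mem_colon] at hp ⊢
  intro h hh
  rw [smul_eq_mul, ← sum_homogeneousComponent h, Finset.mul_sum]
  refine Q.sum_mem fun e _ => ?_
  rw [← hcomp_mul_add (homogeneousComponent_isHomogeneous e h)]
  exact hQ _ (hp _ (hI h hh e)) _

lemma le_colon {Q I : Ideal (MvPolynomial (Fin n) K)} :
    Q ≤ Q.colon (I : Set (MvPolynomial (Fin n) K)) := fun p hp => by
  rw [Submodule.mem_colon]
  exact fun h _ => Q.mul_mem_right _ hp

/-- Nondegeneracy of the pairing into the socle. -/
lemma mem_of_pairing {Q : Ideal (MvPolynomial (Fin n) K)} {s : ℕ} (hs : Soc1 Q s) :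
    ∀ (e d : ℕ) (h : MvPolynomial (Fin n) K), h.IsHomogeneous d → d + e = s →
      (∀ g : MvPolynomial (Fin n) K, g.IsHomogeneous e → g * h ∈ Q) → h ∈ Q := by
  intro e
  induction e with
  | zero => intro d h _ _ hg; simpa using hg 1 (isHomogeneous_one _ _)
  | succ e ih =>
    intro d h hd hde hg
    refine hs.1 d h hd (fun i => ?_) (by omega)
    refine ih (1 + d) (X i * h) ((isHomogeneous_X K i).mul hd) (by omega) fun g hge => ?_
    rw [← mul_assoc]
    exact hg _ (hge.mul (isHomogeneous_X K i))

/-- Linkage: the Hilbert function of `(f) : I`. -/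
theorem hq_colon {Q I : Ideal (MvPolynomial (Fin n) K)} (hI : Closed I) (hle : Q ≤ I)
    {s : ℕ} (hs : Soc1 Q s)
    (hz : ∀ (d : ℕ) (p : MvPolynomial (Fin n) K), s < d → p.IsHomogeneous d → p ∈ Q)
    {e : ℕ} (he : e ≤ s) :
    hq (Q.colon (I : Set (MvPolynomial (Fin n) K))) e + hq I (s - e) = hq Q (s - e) := by
  obtain ⟨u, hud, huX, hu, huniq⟩ := hs.2
  obtain ⟨lam, hlamu, hlam⟩ :=
    Submodule.exists_dual_map_eq_bot_of_notMem (p := Q.restrictScalars K) hu inferInstance
  have hlamQ : ∀ p ∈ Q, lam p = 0 := fun p hp => by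
    have : lam p ∈ (Q.restrictScalars K).map lam := ⟨p, hp, rfl⟩
    rwa [hlam, Submodule.mem_bot] at this
  have hiff : ∀ p : MvPolynomial (Fin n) K, p.IsHomogeneous s → lam p = 0 → p ∈ Q := by
    intro p hp h0
    obtain ⟨r, hr⟩ := huniq p hp fun i => hz (1 + s) _ (by omega) ((isHomogeneous_X K i).mul hp)
    have h1 := hlamQ _ hr
    rw [map_sub, h0, ← smul_eq_C_mul, map_smul, smul_eq_mul, zero_sub, neg_eq_zero] at h1
    rcases mul_eq_zero.1 h1 with h2 | h2
    · simpa [h2] using hr
    · exact absurd h2 hlamu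
  set L := Q.colon (I : Set (MvPolynomial (Fin n) K)) with hL
  have := finite_grade I (s - e)
  have := finite_hom (K := K) (n := n) e
  let ψ : ↥(grade I (s - e)) →ₗ[K] Module.Dual K ↥(homogeneousSubmodule (Fin n) K e) :=
    LinearMap.mk₂ K (fun h g => lam (g.1 * h.1))
      (fun h h' g => by simp [mul_add]) (fun r h g => by simp)
      (fun h g g' => by simp [add_mul]) (fun r h g => by simp)
  have hψ : ∀ h g, ψ h g = lam (g.1 * h.1) := fun h g => rfl
  let φ := ψ.dualMap.comp (Module.evalEquiv K ↥(homogeneousSubmodule (Fin n) K e)).toLinearMap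
  have hrank : finrank K ↥(LinearMap.range φ) = finrank K ↥(LinearMap.range ψ) := by
    rw [LinearMap.range_comp_of_range_eq_top _ (LinearEquiv.range _)]
    exact LinearMap.finrank_range_dualMap_eq_finrank_range ψ
  have hkψ : LinearMap.ker ψ = Submodule.comap (grade I (s - e)).subtype (grade Q (s - e)) := by
    ext ⟨h, hh⟩
    show ψ ⟨h, hh⟩ = 0 ↔ h ∈ grade Q (s - e)
    constructor
    · intro h0
      refine ⟨mem_of_pairing hs e (s - e) h hh.2 (by omega) fun g hg => ?_, hh.2⟩
      refine hiff _ ?_ ((hψ ⟨h, hh⟩ ⟨g, hg⟩).symm.trans (by rw [h0]; rfl))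
      have := hg.mul hh.2
      rwa [show e + (s - e) = s by omega] at this
    · intro hq'
      refine LinearMap.ext fun g => ?_
      rw [hψ, LinearMap.zero_apply]
      exact hlamQ _ (Q.mul_mem_left _ hq'.1)
  have hkφ : LinearMap.ker φ =
      Submodule.comap (homogeneousSubmodule (Fin n) K e).subtype (grade L e) := by
    ext ⟨g, hg⟩
    show φ ⟨g, hg⟩ = 0 ↔ g ∈ grade L e
    constructor
    · intro h0
      refine ⟨?_, hg⟩
      show g ∈ L
      rw [hL, Submodule.mem_colon]
      intro h hh
      rw [smul_eq_mul, ← sum_homogeneousComponent h, Finset.mul_sum]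
      refine Q.sum_mem fun j _ => ?_
      set hj := homogeneousComponent j h
      have hjd : hj.IsHomogeneous j := homogeneousComponent_isHomogeneous j h
      have hjI : hj ∈ I := hI h hh j
      rcases lt_or_ge s (e + j) with hlt | hge
      · exact hz _ _ hlt (hg.mul hjd)
      · refine mem_of_pairing hs (s - (e + j)) (e + j) _ (hg.mul hjd) (by omega) fun g' hg' => ?_
        have hI' : g' * hj ∈ grade I (s - e) := by
          refine ⟨I.mul_mem_left _ hjI, ?_⟩
          have := hg'.mul hjd
          rwa [show s - (e + j) + j = s - e by omega] at this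
        rw [mul_left_comm]
        refine hiff _ ?_ ((hψ ⟨_, hI'⟩ ⟨g, hg⟩).symm.trans (LinearMap.congr_fun h0 ⟨_, hI'⟩))
        have := hg.mul hI'.2
        rwa [show e + (s - e) = s by omega] at this
    · rintro ⟨hgL, -⟩
      refine LinearMap.ext fun h => ?_
      show ψ h ⟨g, hg⟩ = 0
      rw [hψ]
      exact hlamQ _ (Submodule.mem_colon.1 hgL _ h.2.1)
  have h1 := LinearMap.finrank_range_add_finrank_ker φ
  have h2 := LinearMap.finrank_range_add_finrank_ker ψ
  rw [hkφ, (Submodule.comapSubtypeEquivOfLe (show grade L e ≤ homogeneousSubmodule (Fin n) K e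
    from inf_le_right)).finrank_eq, hrank] at h1
  rw [hkψ, (Submodule.comapSubtypeEquivOfLe (show grade Q (s - e) ≤ grade I (s - e)
    from inf_le_inf_right _ hle)).finrank_eq] at h2
  have := finrank_grade_le_hom (K := K) I (s - e)
  have := finrank_grade_le_hom (K := K) Q (s - e)
  simp only [hq]
  omega

end Vale.P200.Ext
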