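import Mathlib

/-!
P200: the Clements-Lindstrom shadow theorem for a box, by compression.

Exponent vectors live in `Fin n → ℕ`; the order is lexicographic with the first variable greatest.
-/

namespace Vale.P200.Ext

open Finset

variable {n : ℕ}

/-- The exponents of degree `d` in the box `∏ [0, a i)`. -/
def lev (a : Fin n → ℕ) (d : ℕ) : Finset (Fin n → ℕ) :=
  (Fintype.piFinset fun i => range (a i)).filter fun m => ∑ i, m i = d

lemma mem_lev {a : Fin n → ℕ} {d : ℕ} {m : Fin n → ℕ} :
    m ∈ lev a d ↔ (∀ i, m i < a i) ∧ ∑ i, m i = d := by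
  simp [lev]

open scoped Classical in
/-- The number of exponents of the same degree above `m`. -/
noncomputable def rk (a : Fin n → ℕ) (d : ℕ) (m : Fin n → ℕ) : ℕ :=
  ((lev a d).filter fun x => toLex m < toLex x).card

/-- The upper shadow inside the box. -/
def up (a : Fin n → ℕ) (A : Finset (Fin n → ℕ)) : Finset (Fin n → ℕ) :=
  ((A ×ˢ (univ : Finset (Fin n))).image fun p => p.1 + Pi.single p.2 1).filter fun m => ∀ i, m i < a i

lemma mem_up {a : Fin n → ℕ} {A : Finset (Fin n → ℕ)} {x : Fin n → ℕ} :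
    x ∈ up a A ↔ (∀ i, x i < a i) ∧ ∃ m ∈ A, ∃ i, m + Pi.single i 1 = x := by
  simp [up, and_comm, and_assoc]

lemma up_mono {a : Fin n → ℕ} {A B : Finset (Fin n → ℕ)} (h : A ⊆ B) : up a A ⊆ up a B := by
  intro x hx
  obtain ⟨h1, m, hm, i, hi⟩ := mem_up.1 hx
  exact mem_up.2 ⟨h1, m, h hm, i, hi⟩

lemma up_subset_lev {a : Fin n → ℕ} {d : ℕ} {A : Finset (Fin n → ℕ)} (hA : A ⊆ lev a d) :
    up a A ⊆ lev a (d + 1) := by
  intro x hx
  obtain ⟨h1, m, hm, i, rfl⟩ := mem_up.1 hx
  refine mem_lev.2 ⟨h1, ?_⟩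
  simp [Finset.sum_add_distrib, (mem_lev.1 (hA hm)).2]

/-- An initial segment of a level. -/
def IsSeg (a : Fin n → ℕ) (d : ℕ) (A : Finset (Fin n → ℕ)) : Prop :=
  A ⊆ lev a d ∧ ∀ x ∈ lev a d, ∀ y ∈ A, toLex y < toLex x → x ∈ A

/-- The first `q` exponents of a level. -/
noncomputable def seg (a : Fin n → ℕ) (d q : ℕ) : Finset (Fin n → ℕ) :=
  (lev a d).filter fun m => rk a d m < q

lemma rk_lt_card {a : Fin n → ℕ} {d : ℕ} {m : Fin n → ℕ} (hm : m ∈ lev a d) :
    rk a d m < (lev a d).card := by
  classical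
  exact card_lt_card (filter_ssubset.2 ⟨m, hm, lt_irrefl _⟩)

lemma rk_lt_rk {a : Fin n → ℕ} {d : ℕ} {x y : Fin n → ℕ} (hx : x ∈ lev a d)
    (h : toLex y < toLex x) : rk a d x < rk a d y := by
  classical
  refine card_lt_card ⟨fun z hz => ?_, fun hsub => ?_⟩
  · rw [mem_filter] at hz ⊢
    exact ⟨hz.1, h.trans hz.2⟩
  · exact lt_irrefl _ (mem_filter.1 (hsub (mem_filter.2 ⟨hx, h⟩))).2

lemma isSeg_seg (a : Fin n → ℕ) (d q : ℕ) : IsSeg a d (seg a d q) :=
  ⟨filter_subset _ _, fun _ hx _ hy h =>
    mem_filter.2 ⟨hx, (rk_lt_rk hx h).trans (mem_filter.1 hy).2⟩⟩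

lemma rk_injOn (a : Fin n → ℕ) (d : ℕ) : Set.InjOn (rk a d) (lev a d) := by
  intro x hx y hy hxy
  by_contra hne
  rcases lt_trichotomy (toLex x) (toLex y) with h | h | h
  · exact (rk_lt_rk hy h).ne hxy.symm
  · exact hne (toLex.injective h)
  · exact (rk_lt_rk hx h).ne hxy

lemma card_seg {a : Fin n → ℕ} {d q : ℕ} (hq : q ≤ (lev a d).card) : (seg a d q).card = q := by
  have himage : (lev a d).image (rk a d) = range (lev a d).card := by
    refine eq_of_subset_of_card_le (fun r hr => ?_) ?_
    · obtain ⟨m, hm, rfl⟩ := mem_image.1 hr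
      exact mem_range.2 (rk_lt_card hm)
    · rw [card_image_of_injOn (rk_injOn a d), card_range]
  have h2 : (seg a d q).image (rk a d) = range q := by
    have : ((lev a d).image (rk a d)).filter (fun r => r < q) = range q := by
      rw [himage]; ext r; simp only [mem_filter, mem_range]; omega
    rwa [filter_image] at this
  calc (seg a d q).card = ((seg a d q).image (rk a d)).card :=
        (card_image_of_injOn ((rk_injOn a d).mono (coe_subset.2 (filter_subset _ _)))).symm
    _ = q := by rw [h2, card_range]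

lemma IsSeg.total {a : Fin n → ℕ} {d : ℕ} {S T : Finset (Fin n → ℕ)} (hS : IsSeg a d S)
    (hT : IsSeg a d T) : S ⊆ T ∨ T ⊆ S := by
  by_contra h
  simp only [not_or, not_subset] at h
  obtain ⟨⟨x, hxS, hxT⟩, y, hyT, hyS⟩ := h
  rcases lt_trichotomy (toLex x) (toLex y) with hl | he | hg
  · exact hyS (hS.2 y (hT.1 hyT) x hxS hl)
  · exact hxT (toLex.injective he ▸ hyT)
  · exact hxT (hT.2 x (hS.1 hxS) y hyT hg)

lemma IsSeg.eq_seg {a : Fin n → ℕ} {d : ℕ} {A : Finset (Fin n → ℕ)} (h : IsSeg a d A) :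
    A = seg a d A.card := by
  have hc := card_seg (card_le_card h.1)
  rcases h.total (isSeg_seg a d A.card) with h1 | h1
  · exact eq_of_subset_of_card_le h1 hc.le
  · exact (eq_of_subset_of_card_le h1 hc.ge).symm

/-- The shadow of an initial segment is an initial segment. -/
lemma isSeg_up {a : Fin n → ℕ} {d : ℕ} {A : Finset (Fin n → ℕ)} (hA : IsSeg a d A) :
    IsSeg a (d + 1) (up a A) := by
  classical
  refine ⟨up_subset_lev hA.1, fun x hx y hy hlt => ?_⟩
  obtain ⟨hxa, hxd⟩ := mem_lev.1 hx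
  obtain ⟨-, m, hm, l, rfl⟩ := mem_up.1 hy
  obtain ⟨i, hbefore, hi⟩ := hlt
  simp only [Pi.toLex_apply, Pi.add_apply] at hbefore hi
  have hne : (univ.filter fun j => x j ≠ 0).Nonempty := ⟨i, by simp; omega⟩
  set k := (univ.filter fun j => x j ≠ 0).max' hne
  have hk : x k ≠ 0 := (mem_filter.1 (max'_mem _ hne)).2
  have hik : i ≤ k := le_max' _ _ (by simp; omega)
  have hafter : ∀ j, k < j → x j = 0 := fun j hj => by
    by_contra h0
    exact absurd (le_max' _ j (by simpa using h0)) (not_le.2 hj)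
  set z := x - Pi.single k 1 with hz
  have hzk : z + Pi.single k 1 = x := by
    funext j; by_cases hjk : j = k
    · subst hjk; simp [hz]; omega
    · simp [hz, hjk]
  have hzj : ∀ j, z j + (Pi.single k 1 : Fin n → ℕ) j = x j := fun j => congrFun hzk j
  have hzlev : z ∈ lev a d := by
    refine mem_lev.2 ⟨fun j => by have := hzj j; have := hxa j; omega, ?_⟩
    rw [← hzk] at hxd
    simpa [Finset.sum_add_distrib] using hxd
  refine mem_up.2 ⟨hxa, z, ?_, k, hzk⟩
  rcases lt_trichotomy (toLex m) (toLex z) with h | h | h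
  · exact hA.2 z hzlev m hm h
  · exact toLex.injective h ▸ hm
  exfalso
  obtain ⟨j, hzm, hj⟩ := h
  simp only [Pi.toLex_apply] at hzm hj
  rcases lt_trichotomy j i with hji | rfl | hij
  · have h1 := hzj j
    rw [Pi.single_eq_of_ne (ne_of_lt (hji.trans_le hik))] at h1
    have := hbefore j hji
    omega
  · have h1 := hzj j
    have : (Pi.single k 1 : Fin n → ℕ) j ≤ 1 := by
      by_cases h : j = k
      · subst h; simp
      · simp [h]
    omega
  · have h1 := hzm i hij
    have h2 := hzj i
    have hki : k = i := by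
      by_contra hne'
      rw [Pi.single_eq_of_ne (Ne.symm hne')] at h2
      omega
    have hle : ∀ r, z r ≤ m r := fun r => by
      rcases lt_or_ge r j with hr | hr
      · exact (hzm r hr).le
      · have := hzj r
        have := hafter r (hki.symm ▸ lt_of_lt_of_le hij hr)
        omega
    have hsum : ∑ r, z r < ∑ r, m r := sum_lt_sum (fun r _ => hle r) ⟨j, mem_univ _, hj⟩
    rw [(mem_lev.1 hzlev).2, (mem_lev.1 (hA.1 hm)).2] at hsum
    exact lt_irrefl _ hsum

/-- Among sets of one size, an initial segment has the least sum of ranks. -/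
lemma sum_lt_of_seg {a : Fin n → ℕ} {d : ℕ} {S B : Finset (Fin n → ℕ)} (hS : IsSeg a d S)
    (hB : B ⊆ lev a d) (hc : S.card = B.card) (hne : B ≠ S) (f : (Fin n → ℕ) → ℕ)
    (hf : ∀ x ∈ lev a d, ∀ y ∈ lev a d, toLex y < toLex x → f x < f y) :
    ∑ x ∈ S, f x < ∑ x ∈ B, f x := by
  classical
  have h1 : (S \ B).card = (B \ S).card := by
    have := card_sdiff_add_card_inter S B
    have := card_sdiff_add_card_inter B S
    rw [inter_comm B S] at this
    omega
  have h2 : (B \ S).Nonempty := by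
    rw [nonempty_iff_ne_empty, ne_eq, sdiff_eq_empty_iff_subset]
    exact fun h => hne (eq_of_subset_of_card_le h hc.le)
  obtain ⟨b, hb, hbmin⟩ := exists_min_image (B \ S) f h2
  have hlt : ∀ x ∈ S \ B, f x < f b := by
    intro x hx
    obtain ⟨hxS, hxB⟩ := mem_sdiff.1 hx
    obtain ⟨hbB, hbS⟩ := mem_sdiff.1 hb
    rcases lt_trichotomy (toLex b) (toLex x) with h | h | h
    · exact hf x (hS.1 hxS) b (hB hbB) h
    · exact absurd (toLex.injective h ▸ hbB) hxB
    · exact absurd (hS.2 b (hB hbB) x hxS h) hbS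
  have h3 : ∑ x ∈ S \ B, f x < ∑ x ∈ B \ S, f x :=
    calc ∑ x ∈ S \ B, f x < ∑ _x ∈ S \ B, f b :=
          sum_lt_sum_of_nonempty (card_pos.1 (h1 ▸ card_pos.2 h2)) hlt
      _ = ∑ _x ∈ B \ S, f b := by simp [h1]
      _ ≤ ∑ x ∈ B \ S, f x := sum_le_sum fun x hx => hbmin x hx
  rw [← sum_inter_add_sum_sdiff S B, ← sum_inter_add_sum_sdiff B S, inter_comm B S]
  omega

section Slice

variable (p : Fin (n + 1))

/-- The slice of `A` at height `t` in coordinate `p`. -/
def slc (t : ℕ) (A : Finset (Fin (n + 1) → ℕ)) : Finset (Fin n → ℕ) :=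
  (A.filter fun m => m p = t).image p.removeNth

lemma mem_slc {t : ℕ} {A : Finset (Fin (n + 1) → ℕ)} {x : Fin n → ℕ} :
    x ∈ slc p t A ↔ p.insertNth t x ∈ A := by
  simp only [slc, mem_image, mem_filter]
  constructor
  · rintro ⟨m, ⟨hm, rfl⟩, rfl⟩
    rwa [Fin.insertNth_self_removeNth]
  · exact fun h => ⟨_, ⟨h, Fin.insertNth_apply_same _ _ _⟩, Fin.removeNth_insertNth _ _ _⟩

lemma insertNth_lt {t : ℕ} {x y : Fin n → ℕ} (h : toLex x < toLex y) :
    toLex (p.insertNth t x : Fin (n + 1) → ℕ) < toLex (p.insertNth t y) := by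
  obtain ⟨i, hb, hi⟩ := h
  refine ⟨p.succAbove i, fun j hj => ?_, ?_⟩
  · rcases Fin.eq_self_or_eq_succAbove p j with rfl | ⟨r, rfl⟩
    · simp
    · simpa using hb r ((Fin.strictMono_succAbove p).lt_iff_lt.1 hj)
  · simpa using hi

lemma insertNth_mem_lev {a : Fin (n + 1) → ℕ} {d t : ℕ} {x : Fin n → ℕ} :
    (p.insertNth t x : Fin (n + 1) → ℕ) ∈ lev a d ↔
      t < a p ∧ t ≤ d ∧ x ∈ lev (p.removeNth a) (d - t) := by
  simp only [mem_lev, Fin.sum_univ_succAbove _ p, Fin.insertNth_apply_same,
    Fin.insertNth_apply_succAbove, Fin.forall_iff_succAbove p, Fin.removeNth]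
  refine ⟨fun h => ?_, fun h => ?_⟩
  · exact ⟨h.1.1, by omega, h.1.2, by omega⟩
  · exact ⟨⟨h.1, h.2.2.1⟩, by omega⟩

lemma slc_subset_lev {a : Fin (n + 1) → ℕ} {d t : ℕ} {A : Finset (Fin (n + 1) → ℕ)}
    (hA : A ⊆ lev a d) : slc p t A ⊆ lev (p.removeNth a) (d - t) := fun _ hx =>
  ((insertNth_mem_lev p).1 (hA ((mem_slc p).1 hx))).2.2

lemma sum_slc {a : Fin (n + 1) → ℕ} {A : Finset (Fin (n + 1) → ℕ)} (hA : ∀ m ∈ A, m p < a p)
    (f : (Fin (n + 1) → ℕ) → ℕ) :
    ∑ m ∈ A, f m = ∑ t ∈ range (a p), ∑ x ∈ slc p t A, f (p.insertNth t x) := by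
  rw [← sum_fiberwise_of_maps_to (g := fun m => m p) fun m hm => mem_range.2 (hA m hm)]
  refine sum_congr rfl fun t _ => ?_
  rw [slc, sum_image]
  · refine sum_congr rfl fun m hm => ?_
    rw [← (mem_filter.1 hm).2, Fin.insertNth_self_removeNth]
  · intro u hu v hv huv
    simp only [coe_filter, Set.mem_ofPred_eq] at hu hv
    rw [← Fin.insertNth_self_removeNth p u, ← Fin.insertNth_self_removeNth p v, huv, hu.2, hv.2]

lemma card_eq_sum_slc {a : Fin (n + 1) → ℕ} {A : Finset (Fin (n + 1) → ℕ)}
    (hA : ∀ m ∈ A, m p < a p) : A.card = ∑ t ∈ range (a p), (slc p t A).card := by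
  simpa using sum_slc p hA fun _ => 1

/-- Compression in direction `p`: every slice is replaced by an initial segment. -/
noncomputable def comp (a : Fin (n + 1) → ℕ) (d : ℕ) (A : Finset (Fin (n + 1) → ℕ)) :
    Finset (Fin (n + 1) → ℕ) :=
  (lev a d).filter fun m => rk (p.removeNth a) (d - m p) (p.removeNth m) < (slc p (m p) A).card

lemma slc_comp {a : Fin (n + 1) → ℕ} {d t : ℕ} {A : Finset (Fin (n + 1) → ℕ)} (hA : A ⊆ lev a d) :
    slc p t (comp p a d A) = seg (p.removeNth a) (d - t) (slc p t A).card := by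
  ext x
  simp only [mem_slc, comp, mem_filter, Fin.insertNth_apply_same, Fin.removeNth_insertNth, seg]
  constructor
  · exact fun h => ⟨((insertNth_mem_lev p).1 h.1).2.2, h.2⟩
  · rintro ⟨h1, h2⟩
    obtain ⟨y, hy⟩ := card_pos.1 (lt_of_le_of_lt (Nat.zero_le _) h2)
    have := (insertNth_mem_lev p).1 (hA ((mem_slc p).1 hy))
    exact ⟨(insertNth_mem_lev p).2 ⟨this.1, this.2.1, h1⟩, h2⟩

lemma card_comp {a : Fin (n + 1) → ℕ} {d : ℕ} {A : Finset (Fin (n + 1) → ℕ)} (hA : A ⊆ lev a d) :
    (comp p a d A).card = A.card := by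
  rw [card_eq_sum_slc p (A := comp p a d A) fun m hm => (mem_lev.1 (mem_filter.1 hm).1).1 p,
    card_eq_sum_slc p (A := A) fun m hm => (mem_lev.1 (hA hm)).1 p]
  exact sum_congr rfl fun t _ => by rw [slc_comp p hA, card_seg (card_le_card (slc_subset_lev p hA))]

lemma slc_up {a : Fin (n + 1) → ℕ} {d t : ℕ} {A : Finset (Fin (n + 1) → ℕ)} (hA : A ⊆ lev a d)
    (ht : t < a p) : slc p t (up a A) =
      up (p.removeNth a) (slc p t A) ∪ if t = 0 then ∅ else slc p (t - 1) A := by
  ext x
  simp only [mem_union, mem_slc, mem_up, Fin.forall_iff_succAbove p, Fin.insertNth_apply_same,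
    Fin.insertNth_apply_succAbove]
  constructor
  · rintro ⟨⟨-, hxa⟩, m, hm, i, hi⟩
    rcases Fin.eq_self_or_eq_succAbove p i with rfl | ⟨r, rfl⟩
    · right
      have h0 : m i + 1 = t := by simpa using congrFun hi i
      rw [if_neg (by omega)]
      have : i.insertNth (t - 1) x = m := by
        rw [Fin.insertNth_eq_iff]
        refine ⟨by omega, funext fun r => ?_⟩
        have := congrFun hi (i.succAbove r)
        simpa [Fin.removeNth, Fin.succAbove_ne] using this.symm
      rw [mem_slc, this]; exact hm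
    · left
      refine ⟨hxa, p.removeNth m, ?_, r, funext fun s => ?_⟩
      · have h0 : m p = t := by
          simpa [(Fin.succAbove_ne p r).symm] using congrFun hi p
        rw [← h0, Fin.insertNth_self_removeNth]; exact hm
      · simpa [Fin.removeNth, Pi.single_apply, (Fin.succAbove_right_injective).eq_iff] using
          congrFun hi (p.succAbove s)
  · rintro (⟨hxa, y, hy, r, rfl⟩ | h)
    · refine ⟨⟨ht, hxa⟩, _, hy, p.succAbove r, ?_⟩
      rw [Fin.eq_insertNth_iff]
      refine ⟨by simp [(Fin.succAbove_ne p r).symm], funext fun s => ?_⟩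
      simp [Fin.removeNth, Pi.single_apply, (Fin.succAbove_right_injective).eq_iff]
    · by_cases h0 : t = 0
      · simp [h0] at h
      rw [if_neg h0, mem_slc] at h
      refine ⟨⟨ht, fun s => ?_⟩, _, h, p, ?_⟩
      · simpa using (mem_lev.1 (hA h)).1 (p.succAbove s)
      · rw [Fin.eq_insertNth_iff]
        refine ⟨by simp; omega, funext fun s => ?_⟩
        simp [Fin.removeNth, Fin.succAbove_ne]

lemma card_up_comp {a : Fin (n + 1) → ℕ} {d : ℕ} {A : Finset (Fin (n + 1) → ℕ)} (hA : A ⊆ lev a d)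
    (ih : ∀ e, ∀ B ⊆ lev (p.removeNth a) e,
      (up (p.removeNth a) (seg (p.removeNth a) e B.card)).card ≤ (up (p.removeNth a) B).card) :
    (up a (comp p a d A)).card ≤ (up a A).card := by
  have hC : comp p a d A ⊆ lev a d := filter_subset _ _
  rw [card_eq_sum_slc p (A := up a (comp p a d A)) fun m hm => (mem_up.1 hm).1 p,
    card_eq_sum_slc p (A := up a A) fun m hm => (mem_up.1 hm).1 p]
  refine sum_le_sum fun t ht => ?_
  rw [slc_up p hC (mem_range.1 ht), slc_up p hA (mem_range.1 ht), slc_comp p hA]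
  have h1 := ih _ _ (slc_subset_lev p (t := t) hA)
  by_cases h0 : t = 0
  · simpa [h0] using h1
  rw [if_neg h0, if_neg h0, slc_comp p hA]
  rcases le_or_gt t d with htd | htd
  · have he : d - (t - 1) = d - t + 1 := by omega
    rw [he]
    have h2 : (seg (p.removeNth a) (d - t + 1) (slc p (t - 1) A).card).card =
        (slc p (t - 1) A).card :=
      card_seg (he ▸ card_le_card (slc_subset_lev p hA))
    rcases (isSeg_up (isSeg_seg (p.removeNth a) (d - t) (slc p t A).card)).total
        (isSeg_seg (p.removeNth a) (d - t + 1) (slc p (t - 1) A).card) with h | h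
    · rw [union_eq_right.2 h, h2]; exact card_le_card subset_union_right
    · rw [union_eq_left.2 h]; exact h1.trans (card_le_card subset_union_left)
  · have : slc p t A = ∅ := eq_empty_of_forall_notMem fun x hx =>
      absurd ((insertNth_mem_lev p).1 (hA ((mem_slc p).1 hx))).2.1 (by omega)
    have h3 : (seg (p.removeNth a) (d - (t - 1)) (slc p (t - 1) A).card).card =
        (slc p (t - 1) A).card := card_seg (card_le_card (slc_subset_lev p hA))
    simp [this, seg, up] at h3 ⊢
    omega

lemma sum_rk_comp {a : Fin (n + 1) → ℕ} {d : ℕ} {A : Finset (Fin (n + 1) → ℕ)} (hA : A ⊆ lev a d)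
    (hne : comp p a d A ≠ A) : ∑ m ∈ comp p a d A, rk a d m < ∑ m ∈ A, rk a d m := by
  have hC : comp p a d A ⊆ lev a d := filter_subset _ _
  have hslice : ∀ t, slc p t A ≠ slc p t (comp p a d A) →
      ∑ x ∈ slc p t (comp p a d A), rk a d (p.insertNth t x) <
        ∑ x ∈ slc p t A, rk a d (p.insertNth t x) := by
    intro t hne'
    rw [slc_comp p hA] at hne' ⊢
    have hne0 : (slc p t A).Nonempty := by
      by_contra h
      rw [not_nonempty_iff_eq_empty] at h
      simp [h, seg] at hne'
    obtain ⟨y, hy⟩ := hne0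
    have hty := (insertNth_mem_lev p).1 (hA ((mem_slc p).1 hy))
    exact sum_lt_of_seg (isSeg_seg _ _ _) (slc_subset_lev p hA)
      (card_seg (card_le_card (slc_subset_lev p hA))) hne' _ fun x hx z _ hzx =>
        rk_lt_rk ((insertNth_mem_lev p).2 ⟨hty.1, hty.2.1, hx⟩) (insertNth_lt p hzx)
  rw [sum_slc p (a := a) (fun m hm => (mem_lev.1 (hC hm)).1 p),
    sum_slc p (a := a) (fun m hm => (mem_lev.1 (hA hm)).1 p)]
  refine sum_lt_sum (fun t _ => ?_) ?_
  · by_cases h : slc p t A = slc p t (comp p a d A)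
    · rw [h]
    · exact (hslice t h).le
  · by_contra hcon
    simp only [not_exists, not_and] at hcon
    apply hne
    ext m
    by_cases hm : m p < a p
    · have heq : slc p (m p) A = slc p (m p) (comp p a d A) := by
        by_contra h
        exact hcon _ (mem_range.2 hm) (hslice _ h)
      have := congrArg (fun s => p.removeNth m ∈ s) heq
      simpa [mem_slc] using this.symm
    · exact ⟨fun h => absurd ((mem_lev.1 (hC h)).1 p) hm,
        fun h => absurd ((mem_lev.1 (hA h)).1 p) hm⟩

lemma compressed {a : Fin (n + 1) → ℕ} {d : ℕ} {B : Finset (Fin (n + 1) → ℕ)}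
    (hC : comp p a d B = B) {x y : Fin (n + 1) → ℕ} (hx : x ∈ lev a d) (hy : y ∈ B)
    (hp : x p = y p) (hlt : toLex y < toLex x) : x ∈ B := by
  rw [← hC] at hy ⊢
  obtain ⟨hyl, hyr⟩ := mem_filter.1 hy
  refine mem_filter.2 ⟨hx, ?_⟩
  rw [hp]
  refine lt_trans (rk_lt_rk ?_ ?_) hyr
  · rw [← Fin.insertNth_self_removeNth p x, insertNth_mem_lev] at hx
    rw [← hp]; exact hx.2.2
  · obtain ⟨i, hb, hi⟩ := hlt
    simp only [Pi.toLex_apply] at hb hi
    rcases Fin.eq_self_or_eq_succAbove p i with rfl | ⟨r, rfl⟩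
    · omega
    · exact ⟨r, fun j hj => hb _ (Fin.strictMono_succAbove p hj), hi⟩

end Slice

lemma exists_incr {n : ℕ} (s : Finset (Fin n)) (a y : Fin n → ℕ) (hy : ∀ j, y j < a j) :
    ∀ r, r ≤ ∑ j ∈ s, (a j - 1 - y j) → ∃ x : Fin n → ℕ, (∀ j, x j < a j) ∧
      (∀ j ∉ s, x j = y j) ∧ (∀ j, y j ≤ x j) ∧ ∑ j, x j = ∑ j, y j + r := by
  intro r
  induction r with
  | zero => exact fun _ => ⟨y, hy, fun _ _ => rfl, fun _ => le_rfl, rfl⟩
  | succ r ih =>
    intro hr
    obtain ⟨x, hxa, hxs, hyx, hsum⟩ := ih (by omega)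
    have hex : ∃ j ∈ s, x j + 1 < a j := by
      by_contra h
      simp only [not_exists, not_and, not_lt] at h
      have h1 : ∀ j ∈ s, a j - 1 - y j = x j - y j := fun j hj => by
        have := h j hj; have := hxa j; omega
      rw [sum_congr rfl h1, sum_tsub_distrib _ fun j _ => hyx j] at hr
      have := sum_add_sum_compl s x
      have := sum_add_sum_compl s y
      have : ∑ j ∈ sᶜ, x j = ∑ j ∈ sᶜ, y j := sum_congr rfl fun j hj => hxs j (mem_compl.1 hj)
      omega
    obtain ⟨j, hjs, hj⟩ := hex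
    refine ⟨x + Pi.single j 1, fun i => ?_, fun i hi => ?_, fun i => ?_, ?_⟩
    · by_cases h : i = j
      · subst h; simpa using hj
      · simpa [h] using hxa i
    · have : i ≠ j := fun h => hi (h ▸ hjs)
      simp [this, hxs i hi]
    · exact (hyx i).trans (by simp)
    · simp [sum_add_distrib, hsum, add_assoc]

lemma exists_decr {n : ℕ} (s : Finset (Fin n)) (y : Fin n → ℕ) :
    ∀ r, r ≤ ∑ j ∈ s, y j → ∃ x : Fin n → ℕ,
      (∀ j ∉ s, x j = y j) ∧ (∀ j, x j ≤ y j) ∧ ∑ j, x j + r = ∑ j, y j := by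
  intro r
  induction r with
  | zero => exact fun _ => ⟨y, fun _ _ => rfl, fun _ => le_rfl, rfl⟩
  | succ r ih =>
    intro hr
    obtain ⟨x, hxs, hxy, hsum⟩ := ih (by omega)
    have hex : ∃ j ∈ s, 0 < x j := by
      by_contra h
      simp only [not_exists, not_and, not_lt, Nat.le_zero] at h
      have := sum_add_sum_compl s x
      have := sum_add_sum_compl s y
      have : ∑ j ∈ sᶜ, x j = ∑ j ∈ sᶜ, y j := sum_congr rfl fun j hj => hxs j (mem_compl.1 hj)
      have : ∑ j ∈ s, x j = 0 := sum_eq_zero h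
      omega
    obtain ⟨j, hjs, hj⟩ := hex
    refine ⟨Function.update x j (x j - 1), fun i hi => ?_, fun i => ?_, ?_⟩
    · have : i ≠ j := fun h => hi (h ▸ hjs)
      simp [this, hxs i hi]
    · by_cases h : i = j
      · subst h; simpa using (Nat.sub_le _ _).trans (hxy i)
      · simpa [h] using hxy i
    · rw [sum_update_of_mem (mem_univ j), ← hsum, ← add_sum_erase _ _ (mem_univ j),
        sdiff_singleton_eq_erase]
      omega

/-- Replacing `r` by `g` when `g` brings at most one new shadow point and `r` loses one. -/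
lemma exchange_le {a : Fin n → ℕ} {B : Finset (Fin n → ℕ)} {r g w u : Fin n → ℕ}
    (hu : u ∈ up a B) (hu' : u ∉ up a (B.erase r))
    (hg : ∀ i, (∀ j, (g + Pi.single i 1 : Fin n → ℕ) j < a j) →
      g + Pi.single i 1 = w ∨ g + Pi.single i 1 ∈ up a B ∧ g + Pi.single i 1 ≠ u) :
    (up a (insert g (B.erase r))).card ≤ (up a B).card := by
  have hsub : up a (insert g (B.erase r)) ⊆ insert w ((up a B).erase u) := by
    intro x hx
    obtain ⟨hxa, m, hm, i, rfl⟩ := mem_up.1 hx
    rcases mem_insert.1 hm with rfl | hm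
    · rcases hg i hxa with h | ⟨h, h'⟩
      · exact mem_insert.2 (Or.inl h)
      · exact mem_insert_of_mem (mem_erase.2 ⟨h', h⟩)
    · have h := mem_up.2 ⟨hxa, m, hm, i, rfl⟩
      exact mem_insert_of_mem (mem_erase.2 ⟨fun he => hu' (he ▸ h), up_mono (erase_subset _ _) h⟩)
  refine (card_le_card hsub).trans ((card_insert_le _ _).trans ?_)
  rw [card_erase_add_one hu]

/-- In a set minimal for ranks, no improving exchange exists; this produces one (two variables). -/
lemma exists_exchange_two {a : Fin 2 → ℕ} (ha : a 0 ≤ a 1) {d : ℕ} {B : Finset (Fin 2 → ℕ)}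
    (hB : B ⊆ lev a d) (hns : ¬ IsSeg a d B) :
    ∃ B' ⊆ lev a d, B'.card = B.card ∧ (up a B').card ≤ (up a B).card ∧
      ∑ m ∈ B', rk a d m < ∑ m ∈ B, rk a d m := by
  have hlt : ∀ x ∈ lev a d, ∀ y ∈ lev a d, (toLex y < toLex x ↔ y 0 < x 0) := by
    intro x hx y hy
    simp only [mem_lev, Fin.sum_univ_two] at hx hy
    constructor
    · rintro ⟨i, hb, hi⟩
      fin_cases i
      · exact hi
      · have := hb 0 (by decide); simp only [Pi.toLex_apply] at this hi ⊢
        have h' : x 1 = y 1 := by omega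
        exact absurd hi (by simp [h'])
    · exact fun h => ⟨0, fun j hj => absurd hj (by simp), h⟩
  have hext : ∀ x y : Fin 2 → ℕ, x ∈ lev a d → y ∈ lev a d → x 0 = y 0 → x = y := by
    intro x y hx hy h
    simp only [mem_lev, Fin.sum_univ_two] at hx hy
    funext i; fin_cases i
    · exact h
    · show x 1 = y 1; omega
  simp only [IsSeg, hB, true_and, not_forall] at hns
  obtain ⟨x, hx, y, hy, hyx, hxB⟩ := hns
  rw [hlt x hx y (hB hy)] at hyx
  obtain ⟨g, hg, hgmax⟩ := exists_max_image (lev a d \ B) (fun m => m 0) ⟨x, mem_sdiff.2 ⟨hx, hxB⟩⟩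
  obtain ⟨hgl, hgB⟩ := mem_sdiff.1 hg
  obtain ⟨r, hr, hrmax⟩ := exists_max_image (B.filter fun m => m 0 < g 0) (fun m => m 0)
    ⟨y, mem_filter.2 ⟨hy, lt_of_lt_of_le hyx (hgmax x (mem_sdiff.2 ⟨hx, hxB⟩))⟩⟩
  obtain ⟨hrB, hrg⟩ := mem_filter.1 hr
  obtain ⟨l, hl, hlmin⟩ := exists_min_image B (fun m => m 0) ⟨r, hrB⟩
  have hgl' := mem_lev.1 hgl
  have hrl := mem_lev.1 (hB hrB)
  have hll := mem_lev.1 (hB hl)
  simp only [Fin.sum_univ_two, Fin.forall_fin_two] at hgl' hrl hll
  have step : ∀ g' ∈ lev a d, g' ∉ B → ∀ r' ∈ B, r' 0 < g' 0 →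
      (up a (insert g' (B.erase r'))).card ≤ (up a B).card →
      ∃ B' ⊆ lev a d, B'.card = B.card ∧ (up a B').card ≤ (up a B).card ∧
        ∑ m ∈ B', rk a d m < ∑ m ∈ B, rk a d m := by
    intro g' hg' hg'B r' hr' hlt' hup
    refine ⟨_, insert_subset hg' ((erase_subset _ _).trans hB), ?_, hup, ?_⟩
    · rw [card_insert_of_notMem (by simp [hg'B]), card_erase_add_one hr']
    · rw [sum_insert (by simp [hg'B]), ← add_sum_erase B _ hr']
      exact Nat.add_lt_add_right (rk_lt_rk hg' ((hlt g' hg' r' (hB hr')).2 hlt')) _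
  by_cases hcap : l 1 + 1 < a 1
  · set g' : Fin 2 → ℕ := ![r 0 + 1, r 1 - 1] with hg'
    have hr1 : 0 < r 1 := by omega
    have hg'l : g' ∈ lev a d := by
      simp only [hg', mem_lev, Fin.sum_univ_two, Fin.forall_fin_two, Matrix.cons_val_zero,
        Matrix.cons_val_one, Matrix.head_cons]
      omega
    have hg'B : g' ∉ B := fun h => by
      rcases eq_or_lt_of_le (show r 0 + 1 ≤ g 0 by omega) with he | he
      · exact hgB (hext g g' hgl hg'l (by simp [hg', he]) ▸ h)
      · have := hrmax g' (mem_filter.2 ⟨h, by simpa [hg'] using he⟩)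
        simp [hg'] at this
    refine step g' hg'l hg'B l hl (by simp [hg']; have := hlmin r hrB; omega) ?_
    refine exchange_le (w := g' + Pi.single 0 1) (u := l + Pi.single 1 1)
      (mem_up.2 ⟨fun j => by fin_cases j <;> simp <;> omega, l, hl, 1, rfl⟩) ?_ fun i hi => ?_
    · intro h
      obtain ⟨-, m, hm, i, hmi⟩ := mem_up.1 h
      obtain ⟨hne, hmB⟩ := mem_erase.1 hm
      have h0 := congrFun hmi 0
      have := hlmin m hmB
      fin_cases i <;> simp at h0
      · omega
      · exact hne (hext m l (hB hmB) (hB hl) h0)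
    · fin_cases i
      · exact Or.inl rfl
      · right
        have he : g' + Pi.single 1 1 = r + Pi.single 0 1 := by
          funext j; fin_cases j <;> simp [hg'] <;> omega
        refine ⟨mem_up.2 ⟨hi, r, hrB, 0, he.symm⟩, fun hc => ?_⟩
        have h0 := congrFun hc 0
        simp [hg'] at h0
        have := hlmin r hrB
        omega
  · refine step g hgl hgB r hrB hrg ?_
    set g' : Fin 2 → ℕ := r + Pi.single 0 1 with hg'
    refine exchange_le (w := g + Pi.single 1 1) (u := r + Pi.single 0 1)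
      (mem_up.2 ⟨fun j => by fin_cases j <;> simp <;> omega, r, hrB, 0, rfl⟩) ?_ fun i hi => ?_
    · intro h
      obtain ⟨-, m, hm, i, hmi⟩ := mem_up.1 h
      obtain ⟨hne, hmB⟩ := mem_erase.1 hm
      have h0 := congrFun hmi 0
      fin_cases i <;> simp at h0
      · exact hne (hext m r (hB hmB) (hB hrB) h0)
      · rcases eq_or_lt_of_le (show r 0 + 1 ≤ g 0 by omega) with he | he
        · exact hgB (hext g m hgl (hB hmB) (by omega) ▸ hmB)
        · have := hrmax m (mem_filter.2 ⟨hmB, by omega⟩)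
          omega
    · fin_cases i
      · right
        have hi0 := hi 0
        simp at hi0
        set z : Fin 2 → ℕ := ![g 0 + 1, g 1 - 1] with hz
        have hzl : z ∈ lev a d := by
          simp only [hz, mem_lev, Fin.sum_univ_two, Fin.forall_fin_two, Matrix.cons_val_zero,
            Matrix.cons_val_one, Matrix.head_cons]
          omega
        have hzB : z ∈ B := by
          by_contra h
          have := hgmax z (mem_sdiff.2 ⟨hzl, h⟩)
          simp [hz] at this
        have he : z + Pi.single 1 1 = g + Pi.single 0 1 := by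
          funext j; fin_cases j <;> simp [hz] <;> omega
        refine ⟨mem_up.2 ⟨hi, z, hzB, 1, he⟩, fun hc => ?_⟩
        have h0 := congrFun hc 0
        simp at h0
        omega
      · exact Or.inl rfl

/-- The exchange in at least three variables, for a set compressed in every direction. -/
lemma exists_exchange {k : ℕ} {a : Fin (k + 3) → ℕ} (ha : Monotone a) {d : ℕ}
    {B : Finset (Fin (k + 3) → ℕ)} (hB : B ⊆ lev a d)
    (hcomp : ∀ p, ∀ x ∈ lev a d, ∀ y ∈ B, x p = y p → toLex y < toLex x → x ∈ B)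
    (hns : ¬ IsSeg a d B) :
    ∃ B' ⊆ lev a d, B'.card = B.card ∧ (up a B').card ≤ (up a B).card ∧
      ∑ m ∈ B', rk a d m < ∑ m ∈ B, rk a d m := by
  simp only [IsSeg, hB, true_and, not_forall] at hns
  obtain ⟨x, hx, y, hy, hyx, hxB⟩ := hns
  obtain ⟨g, hg, hgmax⟩ := exists_max_image (lev a d \ B) toLex ⟨x, mem_sdiff.2 ⟨hx, hxB⟩⟩
  obtain ⟨hgl, hgB⟩ := mem_sdiff.1 hg
  obtain ⟨l, hl, hlmin⟩ := exists_min_image B toLex ⟨y, hy⟩
  have hlg : toLex l < toLex g :=
    lt_of_le_of_lt (hlmin y hy) (lt_of_lt_of_le hyx (hgmax x (mem_sdiff.2 ⟨hx, hxB⟩)))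
  have hdiff : ∀ p, g p ≠ l p := fun p hp => hgB (hcomp p g hgl l hl hp hlg)
  obtain ⟨hga, hgd⟩ := mem_lev.1 hgl
  obtain ⟨hla, hld⟩ := mem_lev.1 (hB hl)
  have h00 : l 0 < g 0 := by
    obtain ⟨i, hb, hi⟩ := hlg
    rcases eq_or_ne i 0 with rfl | hi0
    · exact hi
    · exact absurd (hb 0 (Fin.pos_iff_ne_zero.2 hi0)).symm (hdiff 0)
  set L : Fin (k + 3) := Fin.last (k + 2) with hL
  have hne : (1 : Fin (k + 3)) ≠ L := by simp [hL, Fin.ext_iff]
  have h0L : (0 : Fin (k + 3)) ≠ L := by simp [hL, Fin.ext_iff]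
  have hkey : l L < g L := by
    rcases lt_or_gt_of_ne (hdiff L) with hlt | h
    swap
    · exact h
    exfalso
    set mid : Finset (Fin (k + 3)) := univ \ {0, L} with hmid
    have hsplit : ∀ f : Fin (k + 3) → ℕ, ∑ j, f j = f 0 + f L + ∑ j ∈ mid, f j := fun f => by
      rw [hmid, ← sum_sdiff (subset_univ ({0, L} : Finset _)), sum_pair h0L, add_comm]
    set v := min (l L) (d - g 0) with hv
    have hgs := hsplit g
    have hls := hsplit l
    obtain ⟨x₁, hx1s, hx1le, hx1sum⟩ := exists_decr mid g (v - g L) (by omega)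
    have hcap : l L - v ≤ ∑ j ∈ mid, (a j - 1 - l j) := by
      by_cases hvl : v = l L
      · omega
      rw [sum_tsub_distrib _ (fun j _ => by have := hla j; omega)]
      have h1 : a 1 - 1 ≤ ∑ j ∈ mid, (a j - 1) :=
        single_le_sum (f := fun j => a j - 1) (fun j _ => Nat.zero_le _)
          (by simp [hmid, hne])
      have := ha (Fin.zero_le (1 : Fin (k + 3)))
      have := hga 0
      omega
    obtain ⟨x₂, hx2a, hx2s, hx2le, hx2sum⟩ := exists_incr mid a l hla (l L - v) hcap
    set P := Function.update x₁ L v with hP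
    set Q := Function.update x₂ L v with hQ
    have hLmid : L ∉ mid := by simp [hmid]
    have h0mid : (0 : Fin (k + 3)) ∉ mid := by simp [hmid]
    have e1L := hx1s L hLmid
    have e2L := hx2s L hLmid
    have e10 := hx1s 0 h0mid
    have e20 := hx2s 0 h0mid
    have sumU : ∀ (f : Fin (k + 3) → ℕ) (b : ℕ),
        ∑ j, Function.update f L b j + f L = b + ∑ j, f j := fun f b => by
      rw [sum_update_of_mem (mem_univ L), ← add_sum_erase _ _ (mem_univ L),
        sdiff_singleton_eq_erase]
      omega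
    have hPl : P ∈ lev a d := by
      refine mem_lev.2 ⟨fun j => ?_, ?_⟩
      · by_cases hj : j = L
        · subst hj; simp [hP]; have := hla L; omega
        · simp [hP, hj]; exact lt_of_le_of_lt (hx1le j) (hga j)
      · have := sumU x₁ v
        rw [← hP] at this
        omega
    have hQl : Q ∈ lev a d := by
      refine mem_lev.2 ⟨fun j => ?_, ?_⟩
      · by_cases hj : j = L
        · subst hj; simp [hQ]; have := hla L; omega
        · simp [hQ, hj]; exact hx2a j
      · have := sumU x₂ v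
        rw [← hQ] at this
        omega
    have hP0 : P 0 = g 0 := by simp [hP, h0L, e10]
    have hQ0 : Q 0 = l 0 := by simp [hQ, h0L, e20]
    have hPB : P ∉ B := by
      intro hPB
      rcases lt_trichotomy (toLex P) (toLex g) with h | h | h
      · exact hgB (hcomp 0 g hgl P hPB hP0.symm h)
      · exact hgB (toLex.injective h ▸ hPB)
      · obtain ⟨i, hb, hi⟩ := h
        simp only [Pi.toLex_apply] at hb hi
        by_cases hiL : i = L
        · have : P = g := by
            refine funext fun j => ?_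
            by_cases hj : j = L
            · subst hj
              have h1 := hsplit P
              have h2 := (mem_lev.1 hPl).2
              have h3 : ∑ j ∈ mid, P j = ∑ j ∈ mid, g j := sum_congr rfl fun j hj' =>
                (hb j (by
                  rw [hiL]
                  exact lt_of_le_of_ne (Fin.le_last j) fun h => hLmid (h ▸ hj'))).symm
              omega
            · exact (hb j ((lt_of_le_of_ne (Fin.le_last j) hj).trans_eq hiL.symm)).symm
          exact hgB (this ▸ hPB)
        · simp [hP, hiL] at hi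
          have := hx1le i
          omega
    have hQB : Q ∈ B := by
      rcases lt_trichotomy (toLex l) (toLex Q) with h | h | h
      · exact hcomp 0 Q hQl l hl hQ0 h
      · exact toLex.injective h ▸ hl
      · exfalso
        obtain ⟨i, hb, hi⟩ := h
        simp only [Pi.toLex_apply] at hb hi
        by_cases hiL : i = L
        · have h1 := hsplit Q
          have h2 := (mem_lev.1 hQl).2
          have h3 : ∑ j ∈ mid, Q j = ∑ j ∈ mid, l j := sum_congr rfl fun j hj' =>
            hb j (by
              rw [hiL]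
              exact lt_of_le_of_ne (Fin.le_last j) fun h => hLmid (h ▸ hj'))
          subst hiL
          omega
        · simp [hQ, hiL] at hi
          have := hx2le i
          omega
    refine hPB (hcomp L P hPl Q hQB (by simp [hP, hQ]) ⟨0, fun j hj => absurd hj (by simp), ?_⟩)
    show Q 0 < P 0
    omega
  refine ⟨insert g (B.erase l), insert_subset hgl ((erase_subset _ _).trans hB), ?_, ?_, ?_⟩
  · rw [card_insert_of_notMem (by simp [hgB]), card_erase_add_one hl]
  · refine exchange_le (w := g + Pi.single L 1) (u := l + Pi.single L 1)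
      (mem_up.2 ⟨fun j => ?_, l, hl, L, rfl⟩) ?_ fun i hi => ?_
    · by_cases hj : j = L
      · subst hj; simp; have := hga L; omega
      · simpa [hj] using hla j
    · intro h
      obtain ⟨-, m, hm, i, hmi⟩ := mem_up.1 h
      obtain ⟨hne', hmB⟩ := mem_erase.1 hm
      rcases eq_or_ne i L with rfl | hiL
      · exact hne' (add_right_cancel hmi)
      have hlt : toLex m < toLex l := by
        refine ⟨i, fun j hj => ?_, ?_⟩
        · have hjL : j ≠ L := ne_of_lt (hj.trans_le (Fin.le_last i))
          simpa [hj.ne, hjL] using congrFun hmi j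
        · have := congrFun hmi i
          simp [hiL] at this
          show m i < l i
          omega
      exact absurd (hlmin m hmB) (not_le.2 hlt)
    · rcases eq_or_ne i L with rfl | hiL
      · exact Or.inl rfl
      right
      set z := g + Pi.single i 1 - Pi.single L 1 with hz
      have he : z + Pi.single L 1 = g + Pi.single i 1 := by
        funext j; by_cases hj : j = L
        · subst hj; simp [hz, hiL.symm]; omega
        · simp [hz, hj]
      have hzlt : toLex g < toLex z := by
        refine ⟨i, fun j hj => ?_, ?_⟩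
        · have hjL : j ≠ L := ne_of_lt (hj.trans_le (Fin.le_last i))
          simp [hz, hj.ne, hjL]
        · simp [hz, hiL]
      have hzl : z ∈ lev a d := by
        refine mem_lev.2 ⟨fun j => ?_, ?_⟩
        · have h1 := congrFun he j
          have := hi j
          simp only [Pi.add_apply] at h1 this
          omega
        · have h1 := congrArg (fun f : Fin (k + 3) → ℕ => ∑ j, f j) he
          simp [sum_add_distrib] at h1
          omega
      have hzB : z ∈ B := by
        by_contra h
        exact absurd (hgmax z (mem_sdiff.2 ⟨hzl, h⟩)) (not_le.2 hzlt)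
      refine ⟨mem_up.2 ⟨hi, z, hzB, L, he⟩, fun hc => ?_⟩
      obtain ⟨j, hji, hjL⟩ : ∃ j, j ≠ i ∧ j ≠ L := by
        by_cases h : i = 0
        · exact ⟨1, by simp [h, Fin.ext_iff], hne⟩
        · exact ⟨0, Ne.symm h, h0L⟩
      exact hdiff j (by simpa [hji, hjL] using congrFun hc j)
  · rw [sum_insert (by simp [hgB]), ← add_sum_erase B _ hl]
    exact Nat.add_lt_add_right (rk_lt_rk hgl hlg) _

/-- Clements-Lindstrom: initial segments have the smallest upper shadow. -/
theorem clements_lindstrom : ∀ {n : ℕ} {a : Fin n → ℕ}, Monotone a → ∀ {d : ℕ}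
    {A : Finset (Fin n → ℕ)}, A ⊆ lev a d → (up a (seg a d A.card)).card ≤ (up a A).card := by
  intro n
  induction n with
  | zero =>
    intro a _ d A hA
    have : A = seg a d A.card :=
      IsSeg.eq_seg ⟨hA, fun x _ y _ h => absurd h (by rw [Subsingleton.elim x y]; exact lt_irrefl _)⟩
    rw [← this]
  | succ n ih =>
    intro a ha d A hA
    rcases Nat.eq_zero_or_pos n with rfl | hn
    · have : A = seg a d A.card := IsSeg.eq_seg ⟨hA, fun x hx y hy h => absurd h (by
        have hxy : x = y := funext fun i => by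
          have := (mem_lev.1 hx).2
          have := (mem_lev.1 (hA hy)).2
          rw [Fin.eq_zero i]
          simp [Fin.sum_univ_one] at *
          omega
        rw [hxy]; exact lt_irrefl _)⟩
      rw [← this]
    classical
    let cand := (lev a d).powerset.filter fun B =>
      B.card = A.card ∧ (up a B).card ≤ (up a A).card
    obtain ⟨B, hBc, hmin⟩ := exists_min_image cand (fun B => ∑ m ∈ B, rk a d m)
      ⟨A, mem_filter.2 ⟨mem_powerset.2 hA, rfl, le_rfl⟩⟩
    obtain ⟨hBs, hcard, hup⟩ := mem_filter.1 hBc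
    rw [mem_powerset] at hBs
    have hcomp : ∀ p, comp p a d B = B := by
      intro p
      by_contra hne
      have hmono : Monotone (p.removeNth a) := ha.comp (Fin.strictMono_succAbove p).monotone
      have := hmin _ (mem_filter.2 ⟨mem_powerset.2 (show comp p a d B ⊆ lev a d from filter_subset _ _),
        by rw [card_comp p hBs, hcard],
        (card_up_comp p hBs fun e C hC => ih hmono hC).trans hup⟩)
      exact absurd (sum_rk_comp p hBs hne) (not_lt.2 this)
    suffices hseg : IsSeg a d B by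
      have h := hseg.eq_seg
      rw [hcard] at h
      rw [← h]; exact hup
    by_contra hns
    have hex : ∃ B' ⊆ lev a d, B'.card = B.card ∧ (up a B').card ≤ (up a B).card ∧
        ∑ m ∈ B', rk a d m < ∑ m ∈ B, rk a d m := by
      rcases n with _ | _ | k
      · omega
      · exact exists_exchange_two (ha (Fin.zero_le _)) hBs hns
      · exact exists_exchange ha hBs
          (fun p x hx y hy h1 h2 => compressed p (hcomp p) hx hy h1 h2) hns
    obtain ⟨B', h1, h2, h3, h4⟩ := hex
    exact absurd h4 (not_lt.2 (hmin B' (mem_filter.2 ⟨mem_powerset.2 h1, h2.trans hcard,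
      h3.trans hup⟩)))

end Vale.P200.Ext

namespace Vale.P200.Ext

open Finset

lemma seg_mono {n : ℕ} {a : Fin n → ℕ} {d q w : ℕ} (h : q ≤ w) : seg a d q ⊆ seg a d w :=
  fun _ hm => mem_filter.2 ⟨(mem_filter.1 hm).1, lt_of_lt_of_le (mem_filter.1 hm).2 h⟩

/-- Clements-Lindstrom in the form used for lex-plus-powers ideals. -/
theorem up_seg_subset {n : ℕ} {a : Fin n → ℕ} (ha : Monotone a) {d w : ℕ}
    {A : Finset (Fin n → ℕ)} (hA : A ⊆ lev a d) (hw : (up a A).card ≤ w) :
    up a (seg a d A.card) ⊆ seg a (d + 1) w := by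
  rw [(isSeg_up (isSeg_seg a d A.card)).eq_seg]
  exact seg_mono ((clements_lindstrom ha hA).trans hw)

end Vale.P200.Ext
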