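import Vale.Agent.P200.Ext.Seq
import Vale.Agent.P200.Ext.CL

/-!
P200, any number of variables: the statement passed from `c` forms in `c` variables to the general
case, and its monomial form.
-/

namespace Vale.P200.Ext

open MvPolynomial Module

universe u

/-- The Hilbert function of the quotient by `I`. -/
noncomputable def hq {K : Type u} [Field K] {σ : Type*} (I : Ideal (MvPolynomial σ K)) (d : ℕ) :
    ℕ :=
  finrank K ↥(homogeneousSubmodule σ K d) - finrank K ↥(grade I d)

/-- Lex-plus-powers ideals exist for `c` forms of degrees `a` in `c` variables: in each degree the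
upper shadow of the first exponents of the box is among the first ones of the next degree. -/
def Good (K : Type u) [Field K] {c : ℕ} (a : Fin c → ℕ) : Prop :=
  ∀ f : Fin c → MvPolynomial (Fin c) K, (∀ i, (f i).IsHomogeneous (a i)) →
    RegMod ⊥ (List.ofFn f) →
    ∀ I : Ideal (MvPolynomial (Fin c) K), Closed I → (∀ i, f i ∈ I) →
    ∀ d, hq I d ≤ (lev a d).card ∧
      up a (seg a d ((lev a d).card - hq I d)) ⊆
        seg a (d + 1) ((lev a (d + 1)).card - hq I (d + 1))

/-- Some monomial ideal containing the powers `X i ^ a i`, `i < c`, has the Hilbert function of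
`I`. -/
def HasMon {K : Type u} [Field K] {n c : ℕ} (h : c ≤ n) (a : Fin c → ℕ)
    (I : Ideal (MvPolynomial (Fin n) K)) : Prop :=
  ∃ S : Set (Fin n →₀ ℕ), IsUpperSet S ∧ (∀ i, Finsupp.single (Fin.castLE h i) (a i) ∈ S) ∧
    ∀ d, {m : Fin n →₀ ℕ | m.degree = d ∧ m ∈ S}.ncard = finrank K ↥(grade I d)

/-- The general case follows from the case of `c` variables: the statement that `Main` proves. -/
def ToHasMon (K : Type u) [Field K] : Prop :=
  ∀ {n c : ℕ} (h : c ≤ n) (a : Fin c → ℕ), (∀ i, 2 ≤ a i) → Good K a →
    ∀ f : Fin c → MvPolynomial (Fin n) K, (∀ i, (f i).IsHomogeneous (a i)) →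
      RegMod ⊥ (List.ofFn f) →
      ∀ I : Ideal (MvPolynomial (Fin n) K), Closed I → (∀ i, f i ∈ I) → HasMon h a I

end Vale.P200.Ext
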