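import Vale.Agent.P200.Ext.Main
import Vale.Agent.P200.Ext.Input

/-!
P200, any number of variables: from `c` variables to `n` variables, and the case `c = 3`.
-/

namespace Vale.P200.Ext

open MvPolynomial Module

universe u

variable {K : Type u} [Field K]

lemma finrank_restrictSupport_gen {σ : Type*} (s : Set (σ →₀ ℕ)) :
    finrank K ↥(restrictSupport K s) = s.ncard := by
  rw [finrank_eq_nat_card_basis (basisRestrictSupport K s), Nat.card_coe_set_eq]

lemma finrank_homogeneous {σ : Type*} (d : ℕ) :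
    finrank K ↥(homogeneousSubmodule σ K d) = {x : σ →₀ ℕ | x.degree = d}.ncard := by
  rw [homogeneousSubmodule_eq_finsupp_supported]
  exact finrank_restrictSupport_gen _

lemma finiteDimensional_grade {σ : Type*} [Finite σ] (I : Ideal (MvPolynomial σ K)) (d : ℕ) :
    FiniteDimensional K (grade I d) := by
  have hS : Module.Finite K (homogeneousSubmodule σ K d) :=
    Module.Finite.of_fg (homogeneousSubmodule_fg (σ := σ) (R := K) d)
  exact Submodule.finiteDimensional_of_le inf_le_right

lemma finrank_grade_le_homogeneous {σ : Type*} [Finite σ] (I : Ideal (MvPolynomial σ K)) (d : ℕ) :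
    finrank K ↥(grade I d) ≤ finrank K ↥(homogeneousSubmodule σ K d) := by
  have : Module.Finite K (homogeneousSubmodule σ K d) :=
    Module.Finite.of_fg (homogeneousSubmodule_fg (σ := σ) (R := K) d)
  exact Submodule.finrank_mono inf_le_right

lemma hq_mono {σ : Type*} [Finite σ] {J J' : Ideal (MvPolynomial σ K)} (h : J ≤ J') (d : ℕ) :
    hq J' d ≤ hq J d := by
  have := finiteDimensional_grade J' d
  have := Submodule.finrank_mono (R := K) (show grade J d ≤ grade J' d from
    inf_le_inf_right _ (fun x hx => h hx))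
  unfold hq
  omega

lemma finite_degree_eq {σ : Type*} [Finite σ] (d : ℕ) : {x : σ →₀ ℕ | x.degree = d}.Finite :=
  (Finsupp.finite_of_degree_le d).subset fun _ hx => le_of_eq hx

/-- The exponents of the lex-plus-powers monomials for the numbers `q`. -/
noncomputable def lexSet {c : ℕ} (a : Fin c → ℕ) (q : ℕ → ℕ) : Set (Fin c →₀ ℕ) :=
  {x | (∀ i, x i < a i) → (x : Fin c → ℕ) ∈ seg a x.degree (q x.degree)}

lemma lexSet_upper {c : ℕ} {a : Fin c → ℕ} {q : ℕ → ℕ}
    (h : ∀ d, up a (seg a d (q d)) ⊆ seg a (d + 1) (q (d + 1))) : IsUpperSet (lexSet a q) := by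
  have key : ∀ (γ : Fin c →₀ ℕ) (k : ℕ), γ.degree = k → ∀ x, x ∈ lexSet a q →
      x + γ ∈ lexSet a q := by
    intro γ k
    induction k generalizing γ with
    | zero =>
      intro hγ x hx
      rw [Finsupp.degree_eq_zero_iff] at hγ
      rwa [hγ, add_zero]
    | succ k ih =>
      intro hγ x hx
      obtain ⟨i, hi⟩ : ∃ i, γ i ≠ 0 := by
        by_contra hh
        simp only [not_exists, not_not] at hh
        rw [show γ = 0 from Finsupp.ext hh, map_zero] at hγ
        omega
      have he : Finsupp.single i 1 + (γ - Finsupp.single i 1) = γ :=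
        add_tsub_cancel_of_le (Finsupp.single_le_iff.2 (Nat.one_le_iff_ne_zero.2 hi))
      have hd : (γ - Finsupp.single i 1).degree = k := by
        have := congrArg Finsupp.degree he
        rw [map_add, Finsupp.degree_single, hγ] at this
        omega
      rw [← he, ← add_assoc]
      refine ih _ hd _ fun ho => ?_
      have hdeg : (x + Finsupp.single i 1).degree = x.degree + 1 := by simp
      rw [hdeg]
      refine h x.degree (mem_up.2 ⟨ho, (x : Fin c → ℕ), hx fun j => ?_, i, ?_⟩)
      · exact lt_of_le_of_lt (by simp) (ho j)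
      · funext j; simp [Finsupp.single_apply, Pi.single_apply, eq_comm]
  intro x y hxy hx
  obtain ⟨γ, rfl⟩ := exists_add_of_le hxy
  exact key γ _ rfl x hx

lemma lexSet_mono {c : ℕ} {a : Fin c → ℕ} {q q' : ℕ → ℕ} (h : ∀ d, q d ≤ q' d) :
    lexSet a q ⊆ lexSet a q' := fun _ hx ho => seg_mono (h _) (hx ho)

lemma ncard_lexSet {c : ℕ} {a : Fin c → ℕ} {q : ℕ → ℕ} (d : ℕ) (hq : q d ≤ (lev a d).card) :
    {x : Fin c →₀ ℕ | x.degree = d ∧ x ∈ lexSet a q}.ncard + (lev a d).card =
      {x : Fin c →₀ ℕ | x.degree = d}.ncard + q d := by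
  classical
  set E : Set (Fin c →₀ ℕ) := {x | x.degree = d ∧ ∀ i, x i < a i}
  set G : Set (Fin c →₀ ℕ) := {x | x.degree = d ∧ (∀ i, x i < a i) ∧ (x : Fin c → ℕ) ∈ seg a d (q d)}
  have himg : ∀ (s : Finset (Fin c → ℕ)), s ⊆ lev a d →
      {x : Fin c →₀ ℕ | x.degree = d ∧ (∀ i, x i < a i) ∧ (x : Fin c → ℕ) ∈ s}.ncard = s.card := by
    intro s hs
    have he : (fun x : Fin c →₀ ℕ => (x : Fin c → ℕ)) ''
        {x : Fin c →₀ ℕ | x.degree = d ∧ (∀ i, x i < a i) ∧ (x : Fin c → ℕ) ∈ s} = ↑s := by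
      ext g
      simp only [Set.mem_image, Set.mem_ofPred_eq, Finset.mem_coe]
      constructor
      · rintro ⟨x, ⟨-, -, hx⟩, rfl⟩; exact hx
      · intro hg
        obtain ⟨h1, h2⟩ := mem_lev.1 (hs hg)
        exact ⟨Finsupp.equivFunOnFinite.symm g, ⟨by simp [Finsupp.degree_eq_sum, h2],
          by simpa using h1, by simpa using hg⟩, by simp⟩
    rw [← Set.ncard_image_of_injective _ DFunLike.coe_injective, he, Set.ncard_coe_finset]
  have hE : E.ncard = (lev a d).card := by
    rw [← himg (lev a d) (Finset.Subset.refl _)]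
    congr 1
    ext x
    simp only [E, Set.mem_ofPred_eq, mem_lev]
    exact ⟨fun h => ⟨h.1, h.2, h.2, by rw [← Finsupp.degree_eq_sum]; exact h.1⟩,
      fun h => ⟨h.1, h.2.1⟩⟩
  have hG : G.ncard = q d :=
    (himg (seg a d (q d)) (Finset.filter_subset _ _)).trans (card_seg hq)
  have hfin := finite_degree_eq (σ := Fin c) d
  set O : Set (Fin c →₀ ℕ) := {x | x.degree = d ∧ ¬ ∀ i, x i < a i}
  have hOE : {x : Fin c →₀ ℕ | x.degree = d} = O ∪ E := by
    ext x; simp only [O, E, Set.mem_union, Set.mem_ofPred_eq]; tauto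
  have hOG : {x : Fin c →₀ ℕ | x.degree = d ∧ x ∈ lexSet a q} = O ∪ G := by
    ext x
    simp only [O, G, lexSet, Set.mem_union, Set.mem_ofPred_eq]
    constructor
    · rintro ⟨rfl, hx⟩
      by_cases ho : ∀ i, x i < a i
      · exact Or.inr ⟨rfl, ho, hx ho⟩
      · exact Or.inl ⟨rfl, ho⟩
    · rintro (⟨hd, ho⟩ | ⟨rfl, ho, hx⟩)
      · exact ⟨hd, fun h => absurd h ho⟩
      · exact ⟨rfl, fun _ => hx⟩
  have hOf : O.Finite := hfin.subset fun x hx => hx.1
  rw [hOE, hOG, Set.ncard_union_eq ?_ hOf (hfin.subset fun x hx => hx.1),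
    Set.ncard_union_eq ?_ hOf (hfin.subset fun x hx => hx.1), hE, hG]
  · omega
  · rw [Set.disjoint_left]; exact fun x h h' => h.2 h'.2
  · rw [Set.disjoint_left]; exact fun x h h' => h.2 h'.2.1

section Split

variable {m c : ℕ}

/-- The coordinates of `Fin (m+c)`: the first `c`, then the others. -/
def splitC (m c : ℕ) : Fin (m + c) ≃ Fin m ⊕ Fin c :=
  (finCongr (Nat.add_comm m c)).trans (finSumFinEquiv.symm.trans (Equiv.sumComm _ _))

lemma splitC_castLE (h : c ≤ m + c) (i : Fin c) : splitC m c (Fin.castLE h i) = Sum.inr i := by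
  rw [← Equiv.eq_symm_apply]
  exact Fin.ext (by simp [splitC])

/-- Exponents of the extra variables. -/
noncomputable def apartC (n : Fin (m + c) →₀ ℕ) : Fin m →₀ ℕ :=
  Finsupp.equivFunOnFinite.symm fun k => n ((splitC m c).symm (Sum.inl k))

/-- Exponents of the first `c` variables. -/
noncomputable def xpartC (n : Fin (m + c) →₀ ℕ) : Fin c →₀ ℕ :=
  Finsupp.equivFunOnFinite.symm fun k => n ((splitC m c).symm (Sum.inr k))

lemma degree_splitC (n : Fin (m + c) →₀ ℕ) : n.degree = (apartC n).degree + (xpartC n).degree := by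
  rw [Finsupp.degree_eq_sum, Finsupp.degree_eq_sum, Finsupp.degree_eq_sum,
    ← Equiv.sum_comp (splitC m c).symm, Fintype.sum_sum_type]
  simp [apartC, xpartC]

/-- Recombine. -/
noncomputable def joinC (α : Fin m →₀ ℕ) (x : Fin c →₀ ℕ) : Fin (m + c) →₀ ℕ :=
  Finsupp.equivFunOnFinite.symm fun i => Sum.elim α x (splitC m c i)

lemma apartC_join (α : Fin m →₀ ℕ) (x : Fin c →₀ ℕ) : apartC (joinC α x) = α := by
  ext k; simp [apartC, joinC]

lemma xpartC_join (α : Fin m →₀ ℕ) (x : Fin c →₀ ℕ) : xpartC (joinC α x) = x := by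
  ext k; simp [xpartC, joinC]

lemma joinC_parts (n : Fin (m + c) →₀ ℕ) : joinC (apartC n) (xpartC n) = n := by
  ext i
  have h : ∀ s, Sum.elim (apartC n) (xpartC n) s = n ((splitC m c).symm s) := by
    rintro (k | k) <;> simp [apartC, xpartC]
  simp [joinC, h]

/-- Slices glue to a monomial set. -/
theorem glueC {L : (Fin m →₀ ℕ) → Set (Fin c →₀ ℕ)} (hup : ∀ α, IsUpperSet (L α))
    (hmono : ∀ α i, L α ≤ L (α + Finsupp.single i 1)) :
    ∃ U : Set (Fin (m + c) →₀ ℕ), IsUpperSet U ∧
      (∀ n, xpartC n ∈ L (apartC n) → n ∈ U) ∧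
      ∀ d, {n | n.degree = d ∧ n ∈ U}.ncard =
        ∑ α ∈ expLE m d, {x : Fin c →₀ ℕ | x.degree = d - α.degree ∧ x ∈ L α}.ncard := by
  classical
  refine ⟨{n | xpartC n ∈ L (apartC n)}, ?_, fun n hn => hn, fun d => ?_⟩
  · intro n n' hle hn
    have hx : xpartC n ≤ xpartC n' := fun k => by simpa [xpartC] using hle _
    have hA : apartC n ≤ apartC n' := fun k => by simpa [apartC] using hle _
    exact nested_le hmono hA (hup _ hx hn)
  · set Y : (Fin m →₀ ℕ) → Set (Fin c →₀ ℕ) := fun α =>
      {x | x.degree = d - α.degree ∧ x ∈ L α} with hY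
    have hYfin : ∀ α, (Y α).Finite := fun α => (finite_degree_eq _).subset fun x hx => hx.1
    have himg : {n : Fin (m + c) →₀ ℕ | n.degree = d ∧ xpartC n ∈ L (apartC n)} =
        ↑(((expLE m d).sigma fun α => (hYfin α).toFinset).image fun p => joinC p.1 p.2) := by
      ext n
      simp only [Finset.coe_image, Finset.coe_sigma, Set.mem_image, Set.mem_sigma_iff,
        Set.Finite.coe_toFinset, Finset.mem_coe, mem_expLE, Set.mem_ofPred_eq, hY]
      constructor
      · rintro ⟨hd, hn⟩
        have := degree_splitC n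
        exact ⟨⟨apartC n, xpartC n⟩, ⟨show (apartC n).degree ≤ d by omega,
          show (xpartC n).degree = d - (apartC n).degree by omega, hn⟩, joinC_parts n⟩
      · rintro ⟨⟨α, x⟩, ⟨h1, h2, h3⟩, rfl⟩
        simp only at h1 h2 h3 ⊢
        have := degree_splitC (joinC α x)
        rw [apartC_join, xpartC_join] at this ⊢
        exact ⟨by omega, h3⟩
    simp only [Set.mem_ofPred_eq]
    rw [himg, Set.ncard_coe_finset, Finset.card_image_of_injOn, Finset.card_sigma]
    · exact Finset.sum_congr rfl fun α _ => (Set.ncard_eq_toFinset_card _ (hYfin α)).symm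
    · rintro ⟨α, x⟩ _ ⟨β, y⟩ _ h
      simp only at h
      have hα : α = β := by rw [← apartC_join α x, h, apartC_join]
      have hx : x = y := by rw [← xpartC_join α x, h, xpartC_join]
      subst hα hx; rfl

end Split

/-- From `c` forms in `c` variables to any number of variables. -/
theorem toHasMon [Infinite K] : ToHasMon K := by
  intro n c h a ha hgood f hf hreg I hI hfI
  obtain ⟨m, rfl⟩ : ∃ m, n = m + c := ⟨n - c, by omega⟩
  have hpos : ∀ g ∈ List.ofFn f, PosForm g := by
    intro g hg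
    obtain ⟨i, rfl⟩ := List.mem_ofFn.1 hg
    exact ⟨a i, le_trans (by omega) (ha i), hf i⟩
  obtain ⟨A, hA, hAreg⟩ := exists_good_coords (List.length_ofFn (f := f)) hpos hreg
  rw [List.map_ofFn] at hAreg
  obtain ⟨J, hJc, hJn, hJ0, hJd⟩ := exists_slices (Closed.map_equiv A hA hI)
  have hk : ∀ i, (killFirst (A (f i))).IsHomogeneous (a i) := fun i => by
    have := IsHomogeneous.aeval (m := a i) (φ := A (f i)) ((hA _ _).2 (hf i))
      (Sum.elim 0 X : Fin m ⊕ Fin c → MvPolynomial (Fin c) K) (n := 1) (by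
        rintro (j | j)
        · exact isHomogeneous_zero _ _ _
        · exact isHomogeneous_X K j)
    rw [one_mul] at this
    exact this
  have hG : ∀ α, _ := fun α => hgood (fun i => killFirst (A (f i))) hk hAreg (J α) (hJc α)
    fun i => nested_le hJn (bot_le (a := α)) (hJ0 _ (Ideal.mem_map_of_mem _ (hfI i)))
  let q : (Fin m →₀ ℕ) → ℕ → ℕ := fun α d => (lev a d).card - hq (J α) d
  obtain ⟨U, hU, hmem, hcount⟩ := glueC (L := fun α => lexSet a (q α))
    (fun α => lexSet_upper fun d => (hG α d).2)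
    (fun α i => lexSet_mono fun d => by
      have := hq_mono (hJn α i) d
      simp only [q]; omega)
  refine ⟨U, hU, fun i => hmem _ fun ho => absurd (ho i) ?_, fun d => ?_⟩
  · simp [xpartC, ← splitC_castLE h i]
  · rw [hcount d, ← finrank_grade_equiv A hA, hJd d]
    refine Finset.sum_congr rfl fun α _ => ?_
    have h1 := (hG α (d - α.degree)).1
    have h2 := ncard_lexSet (a := a) (q := q α) (d - α.degree) (Nat.sub_le _ _)
    have h3 := finrank_grade_le_homogeneous (J α) (d - α.degree)
    have h4 := finrank_homogeneous (K := K) (σ := Fin c) (d - α.degree)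
    simp only [q, hq] at h1 h2 ⊢
    omega

/-- The case of three variables. -/
theorem good_three {a b c : ℕ} (ha : 2 ≤ a) (hab : a ≤ b) (hbc : b ≤ c) :
    Good K (c := 3) ![a, b, c] := by
  classical
  intro f hf hreg I hI hfI d
  have hl : List.ofFn f = [f 0, f 1, f 2] := by simp [List.ofFn_succ]
  rw [hl] at hreg
  have h₁ : (f 0).IsHomogeneous a := hf 0
  have h₂ : (f 1).IsHomogeneous b := hf 1
  have h₃ : (f 2).IsHomogeneous c := hf 2
  have hR := isRegular_of_regMod (PosForm.constantCoeff_eq_zero ⟨a, by omega, h₁⟩)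
    (PosForm.constantCoeff_eq_zero ⟨b, by omega, h₂⟩)
    (PosForm.constantCoeff_eq_zero ⟨c, by omega, h₃⟩) hreg
  have hstep := lexStep_of_regular ha hab hbc h₁ h₂ h₃ hR hI (hfI 0) (hfI 1) (hfI 2)
  let t : (Fin 3 → ℕ) → ℕ × ℕ × ℕ := fun g => (g 0, g 1, g 2)
  have ht : Function.Injective t := by
    intro g g' he
    simp only [t, Prod.mk.injEq] at he
    funext i; fin_cases i <;> simp [he.1, he.2.1, he.2.2]
  have hlev : ∀ e, (lev ![a, b, c] e).image t = mons a b c e := by
    intro e
    ext ⟨i, j, l⟩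
    simp only [Finset.mem_image, mem_lev, mons, Finset.mem_filter, Finset.mem_product,
      Finset.mem_range]
    constructor
    · rintro ⟨g, ⟨h1, h2⟩, he⟩
      simp only [t, Prod.mk.injEq] at he
      rw [Fin.sum_univ_three] at h2
      have := h1 0; have := h1 1; have := h1 2
      simp at *
      omega
    · rintro ⟨⟨h1, h2, h3⟩, h4⟩
      refine ⟨![i, j, l], ⟨fun k => by fin_cases k <;> simpa, ?_⟩, by simp [t]⟩
      rw [Fin.sum_univ_three]; simpa using h4
  have hcard : ∀ e, (mons a b c e).card = (lev ![a, b, c] e).card := fun e => by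
    rw [← hlev e, Finset.card_image_of_injective _ ht]
  have hlex : ∀ (e : ℕ) (g g' : Fin 3 → ℕ), g ∈ lev ![a, b, c] e → g' ∈ lev ![a, b, c] e →
      (toLex g < toLex g' ↔ LexGT (t g') (t g)) := by
    intro e g g' hg hg'
    have h1 := (mem_lev.1 hg).2
    have h2 := (mem_lev.1 hg').2
    rw [Fin.sum_univ_three] at h1 h2
    constructor
    · rintro ⟨i, hj, hi⟩
      simp only [LexGT, t]
      fin_cases i
      · exact Or.inl hi
      · exact Or.inr ⟨hj 0 (by decide), hi⟩
      · have h0 : g 0 = g' 0 := hj 0 (by decide)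
        have h1' : g 1 = g' 1 := hj 1 (by decide)
        have h2' : g 2 < g' 2 := hi
        omega
    · intro hh
      simp only [LexGT, t] at hh
      rcases hh with hh | ⟨h0, hh⟩
      · exact ⟨0, fun j hj => absurd hj (Fin.not_lt_zero j), hh⟩
      · refine ⟨1, fun j hj => ?_, hh⟩
        fin_cases j
        · exact h0
        · exact absurd hj (by decide)
        · exact absurd hj (by decide)
  have hrk : ∀ e g, g ∈ lev ![a, b, c] e → rank a b c e (t g) = rk ![a, b, c] e g := by
    intro e g hg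
    unfold rank rk
    rw [← hlev e, Finset.filter_image, Finset.card_image_of_injective _ ht]
    congr 1
    exact Finset.filter_congr fun g' hg' => (hlex e g g' hg hg').symm
  have hS : ∀ e, finrank K ↥(homogeneousSubmodule (Fin 3) K e) = (e + 2).choose 2 := fun e => by
    rw [finrank_homogeneous, ncard_degree]
  obtain ⟨hd1, hd2, hd3⟩ := hstep d
  obtain ⟨-, he2, he3⟩ := hstep (d + 1)
  rw [show d + 3 = d + 1 + 2 from rfl] at hd1
  have hg : ∀ e, finrank K ↥(part I e) = finrank K ↥(grade I e) := fun e => rfl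
  have hs1 := hS d
  have hs2 := hS (d + 1)
  have hg1 := hg d
  have hg2 := hg (d + 1)
  have hc1 := hcard d
  have hc2 := hcard (d + 1)
  refine ⟨by unfold hq; omega, fun x hx => ?_⟩
  obtain ⟨hxa, g, hgm, i, hgx⟩ := mem_up.1 hx
  obtain ⟨hgl, hgr⟩ := Finset.mem_filter.1 hgm
  have hxl : x ∈ lev ![a, b, c] (d + 1) :=
    up_subset_lev (Finset.filter_subset _ _) hx
  refine Finset.mem_filter.2 ⟨hxl, ?_⟩
  have hle : ∀ k, g k ≤ x k := fun k => by rw [← hgx]; simp
  have := hd1 (t g) (hlev d ▸ Finset.mem_image_of_mem t hgl)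
    (by rw [hrk d g hgl]; unfold hq at hgr; omega)
    (t x) (hlev (d + 1) ▸ Finset.mem_image_of_mem t hxl) (hle 0) (hle 1) (hle 2)
  rw [hrk (d + 1) x hxl] at this
  unfold hq
  omega

end Vale.P200.Ext
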