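import Vale.Agent.P200.Ext.Middle
import Vale.Agent.P200.Ext.General

/-!
P200, any number of variables: `c` forms with large degrees from the fourth on.
-/

namespace Vale.P200.Ext

universe u

variable {K : Type u} [Field K]

/-- From the fourth on, every degree is at least the socle degree of the previous forms. -/
def DegreeCond {c : ℕ} (a : Fin c → ℕ) : Prop :=
  ∀ i : Fin c, 3 ≤ i.val → ∑ j ∈ Finset.Iio i, (a j - 1) ≤ a i

/-- Lex-plus-powers ideals exist in `c` variables for degrees with this condition. -/
theorem good_all [Infinite K] : ∀ {c : ℕ}, 3 ≤ c → ∀ {a : Fin c → ℕ}, Monotone a → (∀ i, 2 ≤ a i) →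
    DegreeCond a → Good K a := by
  intro c hc
  induction c, hc using Nat.le_induction with
  | base =>
    intro a hmono ha _
    have h : a = ![a 0, a 1, a 2] := by funext i; fin_cases i <;> rfl
    rw [h]
    exact good_three (ha 0) (hmono (by decide)) (hmono (by decide))
  | succ c hc ih =>
    intro a hmono ha hcond
    have hinit : Monotone (Fin.init a) := hmono.comp Fin.strictMono_castSucc.monotone
    have hg : Good K (Fin.init a) := ih hinit (fun i => ha _) fun i hi => by
      have h := hcond i.castSucc (by simpa using hi)
      rw [← Fin.map_castSuccEmb_Iio, Finset.sum_map] at h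
      exact h
    have hlast : ∑ i, (Fin.init a i - 1) ≤ a (Fin.last c) := by
      have h := hcond (Fin.last c) (by simpa using hc)
      have e : Finset.Iio (Fin.last c) = Finset.univ.map Fin.castSuccEmb := by
        ext x
        simp [Fin.lt_last_iff_ne_last, Fin.exists_castSucc_eq]
      rw [e, Finset.sum_map] at h
      exact h
    have hm : Monotone (Fin.snoc (Fin.init a) (a (Fin.last c)) : Fin (c + 1) → ℕ) := by
      rw [Fin.snoc_init_self]; exact hmono
    have h := good_snoc (K := K) (a := Fin.init a) toHasMon (by omega) (fun i => ha i.castSucc) hg hm hlast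
    rwa [Fin.snoc_init_self] at h

end Vale.P200.Ext
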