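import Mathlib

/-!
P200, any number of variables: a subspace whose product with the variables gains one dimension.
-/

namespace Vale.P200.Ext

open Module

variable {K : Type*} [Field K] {R : Type*} [CommRing R] [Algebra K R] {n : ℕ}

/-- `l • X`. -/
noncomputable abbrev lmul (l : R) (X : Submodule K R) : Submodule K R :=
  X.map (LinearMap.mulLeft K l)

lemma mem_lmul {l : R} {X : Submodule K R} {z : R} : z ∈ lmul l X ↔ ∃ x ∈ X, l * x = z := by
  simp [lmul, Submodule.mem_map]

/-- If the variables send `V` into `M`, `dim M ≤ dim V + 1`, `V` has no stable part, `M` is not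
stable and `V` holds a nonzerodivisor, then all variables lie on one pencil with `l`. -/
theorem pencil_of_gain_one (y : Fin n → R) (l : R) (V M : Submodule K R) [FiniteDimensional K V]
    [FiniteDimensional K M] (hl : Function.Injective fun x => l * x)
    (hVM : ∀ k, ∀ x ∈ V, y k * x ∈ M) (hlV : ∀ x ∈ V, l * x ∈ M)
    (hdim : finrank K M ≤ finrank K V + 1)
    (hstable : ∀ X : Submodule K R, X ≤ V → (∀ k, ∀ x ∈ X, y k * x ∈ lmul l X) → X = ⊥)
    (hM : ¬ ∀ k, ∀ m ∈ M, y k * m ∈ lmul l M)
    {g : R} (hg : g ∈ V) (hg0 : ∀ z, z * g = 0 → z = 0) :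
    ∃ (i : Fin n) (μ χ : Fin n → K), ∀ k, y k = μ k • y i + χ k • l := by
  have hinj : Function.Injective (LinearMap.mulLeft K l) := hl
  have hle : lmul l V ≤ M := by
    rintro _ ⟨x, hx, rfl⟩
    exact hlV x hx
  have hdl : finrank K (lmul l V) = finrank K V :=
    (Submodule.equivMapOfInjective _ hinj V).finrank_eq.symm
  by_cases hall : ∀ k, ∀ x ∈ V, y k * x ∈ lmul l V
  · have hV := hstable V le_rfl hall
    rw [hV, Submodule.mem_bot] at hg
    have hr : ∀ z : R, z = 0 := fun z => hg0 z (by rw [hg, mul_zero])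
    exact absurd (fun k m _ => by rw [hr (y k * m)]; exact zero_mem _) hM
  simp only [not_forall] at hall
  obtain ⟨i, v₀, hv₀, hu⟩ := hall
  set u := y i * v₀ with hudef
  obtain ⟨ψ₀, hψu, hψ0⟩ :=
    Submodule.exists_dual_map_eq_bot_of_notMem (p := lmul l V) hu inferInstance
  set ψ : Dual K R := (ψ₀ u)⁻¹ • ψ₀ with hψdef
  have hψu1 : ψ u = 1 := by simp [hψdef, inv_mul_cancel₀ hψu]
  have hψl : ∀ x ∈ V, ψ (l * x) = 0 := by
    intro x hx
    have : ψ₀ (l * x) ∈ (lmul l V).map ψ₀ := ⟨l * x, ⟨x, hx, rfl⟩, rfl⟩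
    rw [hψ0, Submodule.mem_bot] at this
    simp [hψdef, this]
  have huM : u ∈ M := hVM i v₀ hv₀
  have hMeq : M = lmul l V ⊔ Submodule.span K {u} := by
    refine (Submodule.eq_of_le_of_finrank_le (sup_le hle ?_) ?_).symm
    · rwa [Submodule.span_singleton_le_iff_mem]
    · have hlt : lmul l V < lmul l V ⊔ Submodule.span K {u} := by
        refine lt_of_le_of_ne le_sup_left fun h => hu ?_
        rw [h]; exact Submodule.mem_sup_right (Submodule.mem_span_singleton_self u)
      have := Submodule.finrank_lt_finrank_of_lt hlt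
      omega
  have hdec : ∀ m ∈ M, ∃ x : V, l * (x : R) + ψ m • u = m := by
    intro m hm
    rw [hMeq] at hm
    obtain ⟨p, ⟨x, hx, rfl⟩, q, hq, rfl⟩ := Submodule.mem_sup.1 hm
    obtain ⟨r, rfl⟩ := Submodule.mem_span_singleton.1 hq
    refine ⟨⟨x, hx⟩, ?_⟩
    simp [map_add, map_smul, hψl x hx, hψu1]
  -- the operators `τ k` with `y k * x = l * τ k x + ψ (y k * x) • u`
  have hτ : ∀ k, ∃ τ : V →ₗ[K] V, ∀ x : V, l * (τ x : R) + ψ (y k * x) • u = y k * x := by
    intro k
    choose f hf using fun x : V => hdec _ (hVM k x x.2)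
    have huniq : ∀ a b : V, l * (a : R) = l * b → a = b := fun a b h => Subtype.ext (hl h)
    refine ⟨{ toFun := f, map_add' := fun a b => huniq _ _ ?_, map_smul' := fun r a => huniq _ _ ?_ }, hf⟩
    · have h1 := hf (a + b)
      simp only [Submodule.coe_add, mul_add, map_add, add_smul] at h1 ⊢
      linear_combination h1 - hf a - hf b
    · have h1 := hf (r • a)
      have h2 := hf a
      simp only [Submodule.coe_smul, mul_smul_comm, map_smul, smul_eq_mul, mul_smul,
        RingHom.id_apply] at h1 ⊢
      simp only [Algebra.smul_def] at h1 h2 ⊢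
      linear_combination h1 - algebraMap K R r * h2
  choose τ hτ using hτ
  set φ : Fin n → V → K := fun k x => ψ (y k * x) with hφ
  set v : V := ⟨v₀, hv₀⟩ with hv
  have hφv : φ i v = 1 := hψu1
  -- commutation
  have hcomm : ∀ k x, (φ i x • y k - φ k x • y i) * u ∈ lmul l M := by
    intro k x
    refine mem_lmul.2 ⟨y i * τ k x - y k * τ i x, sub_mem (hVM _ _ (τ k x).2) (hVM _ _ (τ i x).2), ?_⟩
    have h1 := hτ i x
    have h2 := hτ k x
    simp only [hφ, Algebra.smul_def] at h1 h2 ⊢
    linear_combination y i * h2 - y k * h1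
  have hiu : y i * u ∉ lmul l M := by
    intro hmem
    apply hM
    intro k m hm
    obtain ⟨x, hx⟩ := hdec m hm
    rw [← hx, mul_add]
    refine add_mem (mem_lmul.2 ⟨y k * x, hVM k x x.2, by ring⟩) ?_
    rw [mul_smul_comm]
    refine Submodule.smul_mem _ _ ?_
    have h := hcomm k v
    rw [hφv, one_smul, sub_mul, smul_mul_assoc] at h
    have := add_mem h (Submodule.smul_mem _ (φ k v) hmem)
    rwa [sub_add_cancel] at this
  -- rank one
  set μ : Fin n → K := fun k => φ k v with hμ
  have hrank : ∀ k x, φ k x = μ k * φ i x := by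
    intro k x
    by_contra hne
    apply hiu
    have h := hcomm k x
    have h2 := Submodule.smul_mem _ (φ i x) (hcomm k v)
    rw [hφv, one_smul] at h2
    have h3 := Submodule.smul_mem _ (φ k x - μ k * φ i x)⁻¹ (sub_mem h2 h)
    have he : φ i x • ((y k - φ k v • y i) * u) - (φ i x • y k - φ k x • y i) * u =
        (φ k x - μ k * φ i x) • (y i * u) := by
      simp only [Algebra.smul_def, map_sub, map_mul, hμ]
      ring
    rw [he, smul_smul, inv_mul_cancel₀ (sub_ne_zero.2 hne), one_smul] at h3
    exact h3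
  have hhu : ∀ k, ∃ (χ : K) (r : V), (y k - μ k • y i - χ • l) * u = l * (l * (r : R)) := by
    intro k
    have h := hcomm k v
    rw [hφv, one_smul] at h
    obtain ⟨m, hm, hmu⟩ := mem_lmul.1 h
    obtain ⟨x, hx⟩ := hdec m hm
    refine ⟨ψ m, x, ?_⟩
    simp only [Algebra.smul_def, hμ] at hx hmu ⊢
    linear_combination -l * hx - hmu
  choose χ r hr using hhu
  -- the operator of `y k - μ k • y i - χ k • l` on `V`
  set H : Fin n → (V →ₗ[K] V) := fun k => τ k - μ k • τ i - χ k • LinearMap.id with hH
  have hHmul : ∀ k (x : V), l * (H k x : R) = (y k - μ k • y i - χ k • l) * x := by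
    intro k x
    have h1 := hτ k x
    have h2 := hτ i x
    have h3 : ψ (y k * x) = μ k * ψ (y i * x) := hrank k x
    rw [h3] at h1
    simp only [hH, LinearMap.sub_apply, LinearMap.smul_apply, LinearMap.id_apply,
      Submodule.coe_sub, Submodule.coe_smul]
    simp only [Algebra.smul_def, map_mul] at h1 h2 ⊢
    linear_combination h1 - algebraMap K R (μ k) * h2
  have hrel : ∀ k (x : V), φ i (H k x) = 0 ∧ τ i (H k x) = H k (τ i x) + φ i x • r k := by
    intro k x
    have h1 := hτ i (H k x)
    have h2 := hτ i x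
    have h3 := hr k
    have h4 := hHmul k x
    have h5 := hHmul k (τ i x)
    have e1 : l * (l * (τ i (H k x) : R) + φ i (H k x) • u) =
        l * (l * ((H k (τ i x) + φ i x • r k : V) : R)) := by
      simp only [hφ, Submodule.coe_add, Submodule.coe_smul, Algebra.smul_def] at h1 h2 h3 h4 h5 ⊢
      linear_combination l * h1 + y i * h4 - (y k - algebraMap K R (μ k) * y i - algebraMap K R (χ k) * l) * h2
        + algebraMap K R (ψ (y i * ↑x)) * h3 - l * h5
    have e2 := hl e1
    have hz : φ i (H k x) = 0 := by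
      have hR : ψ (l * ((H k (τ i x) + φ i x • r k : V) : R)) = 0 :=
        hψl _ (H k (τ i x) + φ i x • r k).2
      have := congrArg ψ e2
      rwa [map_add, map_smul, hψl _ (τ i (H k x)).2, hR, hψu1, zero_add, smul_eq_mul, mul_one] at this
    refine ⟨hz, ?_⟩
    rw [hz, zero_smul, add_zero] at e2
    exact Subtype.ext (hl e2)
  -- sequences
  set seq : ℕ → V → K := fun m x => φ i ((τ i ^ m) x) with hseq
  have seq_add : ∀ m a b, seq m (a + b) = seq m a + seq m b := fun m a b => by
    simp [hseq, hφ, mul_add]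
  have seq_smul : ∀ m (t : K) a, seq m (t • a) = t * seq m a := fun m t a => by
    simp [hseq, hφ]
  have hconv : ∀ k m x, seq m (H k x) = ∑ j ∈ Finset.range m, seq j x * seq (m - 1 - j) (r k) := by
    intro k m
    induction m with
    | zero => intro x; simpa [hseq] using (hrel k x).1
    | succ m ih =>
      intro x
      have hstep : ∀ z, seq (m + 1) z = seq m (τ i z) := fun z => by
        simp [hseq, pow_succ, Module.End.mul_apply]
      rw [hstep, (hrel k x).2, seq_add, seq_smul, ih, Finset.sum_range_succ']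
      congr 1
      refine Finset.sum_congr rfl fun j hj => ?_
      rw [show seq j (τ i x) = seq (j + 1) x by simp [hseq, pow_succ, Module.End.mul_apply]]
      congr 2
      omega
  let Fm : ℕ → Submodule K V := fun m =>
    { carrier := {x | ∀ j < m, seq j x = 0}
      zero_mem' := fun j _ => by simp [hseq, hφ]
      add_mem' := fun {a b} ha hb j hj => by rw [seq_add, ha j hj, hb j hj, add_zero]
      smul_mem' := fun t a ha j hj => by rw [seq_smul, ha j hj, mul_zero] }
  have hsep : ∀ x : V, (∀ m, seq m x = 0) → x = 0 := by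
    intro x hx
    let Z : Submodule K V := ⨅ m, Fm m
    have hZ : ∀ z : V, z ∈ Z ↔ ∀ m, seq m z = 0 := fun z => by
      simp only [Z, Submodule.mem_iInf]
      exact ⟨fun h m => h (m + 1) m m.lt_succ_self, fun h m j _ => h j⟩
    have hbot : Z.map V.subtype = ⊥ := by
      refine hstable _ (by rintro _ ⟨z, -, rfl⟩; exact z.2) ?_
      rintro k _ ⟨z, hz, rfl⟩
      have hzz := (hZ z).1 hz
      have hτz : τ k z ∈ Z := by
        have hHz : H k z ∈ Z := (hZ _).2 fun m => by
          rw [hconv]; exact Finset.sum_eq_zero fun j _ => by rw [hzz j, zero_mul]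
        have hiz : τ i z ∈ Z := (hZ _).2 fun m => by
          rw [show seq m (τ i z) = seq (m + 1) z by simp [hseq, pow_succ, Module.End.mul_apply]]
          exact hzz _
        have : τ k z = H k z + μ k • τ i z + χ k • z := by
          simp [hH]
          abel
        rw [this]
        exact add_mem (add_mem hHz (Submodule.smul_mem _ _ hiz)) (Submodule.smul_mem _ _ hz)
      refine mem_lmul.2 ⟨(τ k z : R), ⟨_, hτz, rfl⟩, ?_⟩
      have h1 := hτ k z
      have h0 : φ k z = 0 := by rw [hrank, show φ i z = 0 by simpa [hseq] using hzz 0, mul_zero]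
      rw [show ψ (y k * z) = 0 from h0, zero_smul, add_zero] at h1
      exact h1
    have hx' : (x : R) ∈ Z.map V.subtype := ⟨x, (hZ x).2 hx, rfl⟩
    rw [hbot, Submodule.mem_bot] at hx'
    exact Subtype.ext hx'
  refine ⟨i, μ, χ, fun k => ?_⟩
  have hrk : ∀ m, seq m (r k) = 0 := by
    by_contra hcon
    simp only [not_forall] at hcon
    classical
    let j₀ := Nat.find hcon
    have hlead : ∀ m x, (∀ j < m, seq j x = 0) → seq m x ≠ 0 →
        (∀ j < m + j₀ + 1, seq j (H k x) = 0) ∧ seq (m + j₀ + 1) (H k x) ≠ 0 := by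
      intro m x hlow hne
      refine ⟨fun j hj => ?_, ?_⟩
      · rw [hconv]
        refine Finset.sum_eq_zero fun t ht => ?_
        rw [Finset.mem_range] at ht
        rcases lt_or_ge t m with h | h
        · rw [hlow t h, zero_mul]
        · rw [not_not.1 (Nat.find_min hcon (show j - 1 - t < j₀ by omega)), mul_zero]
      · rw [hconv, Finset.sum_eq_single m]
        · rw [show m + j₀ + 1 - 1 - m = j₀ by omega]
          exact mul_ne_zero hne (Nat.find_spec hcon)
        · intro t ht htm
          rw [Finset.mem_range] at ht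
          rcases lt_or_ge t m with h | h
          · rw [hlow t h, zero_mul]
          · rw [not_not.1 (Nat.find_min hcon (show m + j₀ + 1 - 1 - t < j₀ by omega)), mul_zero]
        · intro h; exact absurd (Finset.mem_range.2 (by omega)) h
    have hiter : ∀ N, ∃ m x, N ≤ m ∧ (∀ j < m, seq j x = 0) ∧ seq m x ≠ 0 := by
      intro N
      induction N with
      | zero => exact ⟨0, v, le_rfl, fun j hj => absurd hj (by omega), by simp [hseq, hφv]⟩
      | succ N ih =>
        obtain ⟨m, x, hN, hlow, hne⟩ := ih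
        exact ⟨m + j₀ + 1, H k x, by omega, (hlead m x hlow hne).1, (hlead m x hlow hne).2⟩
    have hanti : ∀ a b, a ≤ b → Fm b ≤ Fm a := fun a b hab x hx j hj => hx j (lt_of_lt_of_le hj hab)
    obtain ⟨N, hN⟩ := IsArtinian.monotone_stabilizes
      (⟨fun m => OrderDual.toDual (Fm m), fun a b hab => hanti a b hab⟩ : ℕ →o (Submodule K V)ᵒᵈ)
    obtain ⟨m, x, hNm, hlow, hne⟩ := hiter N
    have hmem : x ∈ Fm N := fun j hj => hlow j (lt_of_lt_of_le hj hNm)
    have heq : Fm N = Fm (m + 1) := OrderDual.toDual.injective (hN (m + 1) (by omega))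
    rw [heq] at hmem
    exact hne (hmem m m.lt_succ_self)
  have hH0 : H k ⟨g, hg⟩ = 0 := hsep _ fun m => by
    rw [hconv]; exact Finset.sum_eq_zero fun j _ => by rw [hrk, mul_zero]
  have h := hHmul k ⟨g, hg⟩
  rw [hH0, Submodule.coe_zero, mul_zero] at h
  have := hg0 _ h.symm
  rw [sub_sub, sub_eq_zero] at this
  exact this

end Vale.P200.Ext
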