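import Vale.Agent.P200.Ext.CI

/-!
P200, any number of variables: one more form of large degree, by linkage.
-/

namespace Vale.P200.Ext

open MvPolynomial Module

universe u

section Dual

variable {n : ℕ}

/-- The complementary exponent in the box. -/
def flipExp (a m : Fin n → ℕ) : Fin n → ℕ := fun i => a i - 1 - m i

lemma flipExp_mem {a : Fin n → ℕ} {d : ℕ} {m : Fin n → ℕ} (hm : m ∈ lev a d) :
    flipExp a m ∈ lev a (∑ i, (a i - 1) - d) ∧ flipExp a (flipExp a m) = m ∧
      d ≤ ∑ i, (a i - 1) := by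
  obtain ⟨hb, hs⟩ := mem_lev.1 hm
  refine ⟨mem_lev.2 ⟨fun i => ?_, ?_⟩, funext fun i => ?_, ?_⟩
  · have := hb i; simp only [flipExp]; omega
  · rw [show (∑ i, flipExp a m i) = ∑ i, (a i - 1) - ∑ i, m i from
      Finset.sum_tsub_distrib _ fun i _ => by have := hb i; omega, hs]
  · have := hb i; simp only [flipExp]; omega
  · rw [← hs]; exact Finset.sum_le_sum fun i _ => by have := hb i; omega

lemma flipExp_lt {a : Fin n → ℕ} {x y : Fin n → ℕ} (hx : ∀ i, x i < a i)
    (h : toLex y < toLex x) : toLex (flipExp a x) < toLex (flipExp a y) := by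
  obtain ⟨i, hb, hi⟩ := h
  simp only [Pi.toLex_apply] at hb hi
  refine ⟨i, fun j hj => ?_, ?_⟩
  · show flipExp a x j = flipExp a y j
    rw [flipExp, flipExp, hb j hj]
  · show flipExp a x i < flipExp a y i
    have := hx i
    simp only [flipExp]
    omega

lemma card_lev_flip (a : Fin n → ℕ) {d : ℕ} (hd : d ≤ ∑ i, (a i - 1)) :
    (lev a (∑ i, (a i - 1) - d)).card = (lev a d).card := by
  refine Finset.card_nbij' (flipExp a) (flipExp a) ?_ ?_ ?_ ?_
  · intro m hm
    have h := (flipExp_mem (Finset.mem_coe.1 hm)).1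
    rwa [Nat.sub_sub_self hd] at h
  · intro m hm
    exact (flipExp_mem (Finset.mem_coe.1 hm)).1
  · intro m hm
    exact (flipExp_mem (Finset.mem_coe.1 hm)).2.1
  · intro m hm
    exact (flipExp_mem (Finset.mem_coe.1 hm)).2.1

lemma rk_flip {a : Fin n → ℕ} {d : ℕ} {m : Fin n → ℕ} (hm : m ∈ lev a d) :
    rk a (∑ i, (a i - 1) - d) (flipExp a m) + rk a d m + 1 = (lev a d).card := by
  classical
  obtain ⟨hfm, hffm, hd⟩ := flipExp_mem hm
  have h1 : rk a (∑ i, (a i - 1) - d) (flipExp a m) =
      ((lev a d).filter fun x => toLex x < toLex m).card := by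
    refine Finset.card_nbij' (flipExp a) (flipExp a) ?_ ?_ ?_ ?_
    · intro x hx
      simp only [Finset.coe_filter, Set.mem_ofPred_eq] at hx ⊢
      obtain ⟨h, hff, -⟩ := flipExp_mem hx.1
      rw [Nat.sub_sub_self hd] at h
      have := flipExp_lt (mem_lev.1 hx.1).1 hx.2
      rw [hffm] at this
      exact ⟨h, this⟩
    · intro x hx
      simp only [Finset.coe_filter, Set.mem_ofPred_eq] at hx ⊢
      obtain ⟨h, -, -⟩ := flipExp_mem hx.1
      exact ⟨h, flipExp_lt (mem_lev.1 hm).1 hx.2⟩
    · intro x hx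
      simp only [Finset.coe_filter, Set.mem_ofPred_eq] at hx
      exact (flipExp_mem hx.1).2.1
    · intro x hx
      simp only [Finset.coe_filter, Set.mem_ofPred_eq] at hx
      exact (flipExp_mem hx.1).2.1
  have h2 : (lev a d).filter (fun x => ¬ toLex x < toLex m) =
      insert m ((lev a d).filter fun x => toLex m < toLex x) := by
    ext x
    simp only [Finset.mem_filter, Finset.mem_insert]
    constructor
    · rintro ⟨hx, hle⟩
      rcases lt_trichotomy (toLex m) (toLex x) with h | h | h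
      · exact Or.inr ⟨hx, h⟩
      · exact Or.inl (toLex.injective h).symm
      · exact absurd h hle
    · rintro (rfl | ⟨hx, h⟩)
      · exact ⟨hm, lt_irrefl _⟩
      · exact ⟨hx, lt_asymm h⟩
  have h3 := Finset.card_filter_add_card_filter_not (s := lev a d) fun x => toLex x < toLex m
  have hni : m ∉ (lev a d).filter fun x => toLex m < toLex x := fun hmm =>
    lt_irrefl _ (Finset.mem_filter.1 hmm).2
  rw [← h1, h2, Finset.card_insert_of_notMem hni] at h3
  simp only [rk] at h3 ⊢
  omega

/-- The step in the degree `d` follows from the step for the linked degrees. -/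
lemma dual_step {a : Fin n → ℕ} {d : ℕ} (hd : d + 1 ≤ ∑ i, (a i - 1)) {g₀ g₁ : ℕ}
    (h : up a (seg a (∑ i, (a i - 1) - (d + 1)) g₁) ⊆ seg a (∑ i, (a i - 1) - d) g₀) :
    up a (seg a d ((lev a d).card - g₀)) ⊆ seg a (d + 1) ((lev a (d + 1)).card - g₁) := by
  intro x hx
  obtain ⟨hxb, m, hm, i, rfl⟩ := mem_up.1 hx
  obtain ⟨hml, hmr⟩ := Finset.mem_filter.1 hm
  have hxl : m + Pi.single i 1 ∈ lev a (d + 1) :=
    up_subset_lev (Finset.filter_subset _ _) hx
  refine Finset.mem_filter.2 ⟨hxl, ?_⟩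
  by_contra hcon
  have r1 := rk_flip hxl
  obtain ⟨hfl, -, -⟩ := flipExp_mem hml
  have hfx : flipExp a (m + Pi.single i 1) ∈ seg a (∑ i, (a i - 1) - (d + 1)) g₁ :=
    Finset.mem_filter.2 ⟨(flipExp_mem hxl).1, by omega⟩
  have he : flipExp a (m + Pi.single i 1) + Pi.single i 1 = flipExp a m := by
    funext j
    have := hxb j
    have := (mem_lev.1 hml).1 j
    by_cases hj : j = i
    · subst hj
      simp only [Pi.add_apply, Pi.single_eq_same, flipExp] at *
      omega
    · simp [flipExp, hj]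
  have hmem := h (mem_up.2 ⟨(mem_lev.1 hfl).1, _, hfx, i, he⟩)
  have := (Finset.mem_filter.1 hmem).2
  have r0 := rk_flip hml
  omega

end Dual

variable {K : Type u} [Field K]

/-- The step in small degrees, from a monomial ideal containing the first `c` powers. -/
lemma step_of_hasMon {c : ℕ} {a : Fin c → ℕ} {e : ℕ}
    (hmono : Monotone (Fin.snoc a e : Fin (c + 1) → ℕ))
    {I : Ideal (MvPolynomial (Fin (c + 1)) K)} (hI : HasMon c.le_succ a I) {d : ℕ} (hd : d + 1 < e) :
    up (Fin.snoc a e) (seg (Fin.snoc a e) d ((lev (Fin.snoc a e) d).card - hq I d)) ⊆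
      seg (Fin.snoc a e) (d + 1) ((lev (Fin.snoc a e) (d + 1)).card - hq I (d + 1)) := by
  classical
  obtain ⟨S, hS, hP, hcount⟩ := hI
  set A : Fin (c + 1) → ℕ := Fin.snoc a e
  let M : ℕ → Finset (Fin (c + 1) → ℕ) := fun j =>
    (lev A j).filter fun m => Finsupp.equivFunOnFinite.symm m ∈ S
  have hM : ∀ j, j < e → (M j).card = (lev A j).card - hq I j := by
    intro j hj
    have hsub : lev A j ⊆ lev (fun _ => j + 1) j := fun m hm => by
      refine mem_lev.2 ⟨fun i => ?_, (mem_lev.1 hm).2⟩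
      have := Finset.single_le_sum (f := m) (fun l _ => Nat.zero_le _) (Finset.mem_univ i)
      rw [(mem_lev.1 hm).2] at this
      omega
    have hin : ∀ m ∈ lev (fun _ : Fin (c + 1) => j + 1) j \ lev A j,
        Finsupp.equivFunOnFinite.symm m ∈ S := by
      intro m hm
      obtain ⟨hm1, hm2⟩ := Finset.mem_sdiff.1 hm
      obtain ⟨hb, hs⟩ := mem_lev.1 hm1
      obtain ⟨i, hi⟩ : ∃ i, A i ≤ m i := by
        by_contra hc'
        simp only [not_exists, not_le] at hc'
        exact hm2 (mem_lev.2 ⟨hc', hs⟩)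
      cases i using Fin.lastCases with
      | last =>
        simp only [A, Fin.snoc_last] at hi
        have := hb (Fin.last c)
        omega
      | cast i =>
        simp only [A, Fin.snoc_castSucc] at hi
        refine hS ?_ (hP i)
        rw [Finsupp.single_le_iff]
        exact hi
    have h1 : ((lev (fun _ : Fin (c + 1) => j + 1) j).filter
        fun m => Finsupp.equivFunOnFinite.symm m ∈ S).card = finrank K ↥(grade I j) := by
      rw [← hcount j, ← Set.ncard_coe_finset, ← Set.ncard_image_of_injective _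
        (Finsupp.equivFunOnFinite (α := Fin (c + 1)) (M := ℕ)).symm.injective]
      congr 1
      ext x
      simp only [Set.mem_image, Finset.coe_filter, Set.mem_ofPred_eq, mem_lev]
      constructor
      · rintro ⟨m, ⟨⟨-, hs⟩, hm⟩, rfl⟩
        exact ⟨by simpa [Finsupp.degree_eq_sum] using hs, hm⟩
      · rintro ⟨hd', hx⟩
        refine ⟨x, ⟨⟨fun i => ?_, (Finsupp.degree_eq_sum x).symm.trans hd'⟩, by simpa using hx⟩, by simp⟩
        have : x i ≤ x.degree := Finsupp.le_degree i x
        omega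
    have hsplit : (lev (fun _ : Fin (c + 1) => j + 1) j).filter
        (fun m => Finsupp.equivFunOnFinite.symm m ∈ S) =
        M j ∪ (lev (fun _ : Fin (c + 1) => j + 1) j \ lev A j) := by
      ext m
      simp only [M, Finset.mem_filter, Finset.mem_union, Finset.mem_sdiff]
      constructor
      · rintro ⟨h, h'⟩
        by_cases hA : m ∈ lev A j
        · exact Or.inl ⟨hA, h'⟩
        · exact Or.inr ⟨h, hA⟩
      · rintro (⟨h, h'⟩ | h)
        · exact ⟨hsub h, h'⟩
        · exact ⟨h.1, hin m (Finset.mem_sdiff.2 h)⟩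
    have hdisj : Disjoint (M j) (lev (fun _ : Fin (c + 1) => j + 1) j \ lev A j) :=
      Finset.disjoint_left.2 fun x hx hx' => (Finset.mem_sdiff.1 hx').2 (Finset.mem_filter.1 hx).1
    rw [hsplit, Finset.card_union_of_disjoint hdisj, Finset.card_sdiff_of_subset hsub] at h1
    have h2 := finrank_hom_eq_card (K := K) (n := c + 1) j (j + 1) (by omega)
    have h3 := finrank_grade_le_hom (K := K) I j
    have h4 := Finset.card_le_card hsub
    have h5 := Finset.card_filter_le (lev A j) fun m => Finsupp.equivFunOnFinite.symm m ∈ S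
    simp only [hq, M] at h1 h5 ⊢
    omega
  have hup : up A (M d) ⊆ M (d + 1) := by
    intro x hx
    obtain ⟨-, m, hm, i, rfl⟩ := mem_up.1 hx
    refine Finset.mem_filter.2 ⟨up_subset_lev (Finset.filter_subset _ _) hx, ?_⟩
    refine hS ?_ (Finset.mem_filter.1 hm).2
    intro l
    simp
  rw [← hM d (by omega), ← hM (d + 1) hd]
  exact up_seg_subset hmono (Finset.filter_subset _ _) (Finset.card_le_card hup)

/-- Linkage: the step in degree `d` for one more form of degree at least `∑ (a i - 1)`, outside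
the middle degree `d + 1 = e = ∑ (a i - 1)`. -/
theorem good_step [Infinite K] (hM : ToHasMon K) {c : ℕ} {a : Fin c → ℕ} (ha : ∀ i, 2 ≤ a i)
    (hgood : Good K a) {e : ℕ} (hmono : Monotone (Fin.snoc a e : Fin (c + 1) → ℕ))
    (he : ∑ i, (a i - 1) ≤ e) (he1 : 1 ≤ e)
    {f : Fin (c + 1) → MvPolynomial (Fin (c + 1)) K}
    (hf : ∀ i, (f i).IsHomogeneous ((Fin.snoc a e : Fin (c + 1) → ℕ) i))
    (hreg : RegMod ⊥ (List.ofFn f))
    {I : Ideal (MvPolynomial (Fin (c + 1)) K)} (hI : Closed I) (hfI : ∀ i, f i ∈ I)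
    {d : ℕ} (hmid : d + 1 = e → ∑ i, (a i - 1) < e) :
    hq I d ≤ (lev (Fin.snoc a e) d).card ∧
      up (Fin.snoc a e) (seg (Fin.snoc a e) d ((lev (Fin.snoc a e) d).card - hq I d)) ⊆
        seg (Fin.snoc a e) (d + 1) ((lev (Fin.snoc a e) (d + 1)).card - hq I (d + 1)) := by
  set A : Fin (c + 1) → ℕ := Fin.snoc a e
  set Q := Ideal.ofList (List.ofFn f)
  have hA1 : ∀ i, 1 ≤ A i := fun i => by
    cases i using Fin.lastCases with
    | last => simp [A]; omega
    | cast i => simp only [A, Fin.snoc_castSucc]; have := ha i; omega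
  have hQI : Q ≤ I := Ideal.span_le.2 fun x hx => by
    obtain ⟨i, rfl⟩ := List.mem_ofFn.1 hx
    exact hfI i
  have hcount : ∀ J, Q ≤ J → ∀ j, hq J j ≤ (lev A j).card := fun J hJ j =>
    (hq_antitone hJ j).trans (hq_ofList hf hreg j).le
  refine ⟨hcount I hQI d, ?_⟩
  have hreg' : RegMod ⊥ (List.ofFn fun i : Fin c => f i.castSucc) := by
    rw [List.ofFn_succ', List.concat_eq_append] at hreg
    exact (regMod_append.1 hreg).1
  have low : ∀ J : Ideal (MvPolynomial (Fin (c + 1)) K), Closed J → Q ≤ J → ∀ j, j + 1 < e →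
      up A (seg A j ((lev A j).card - hq J j)) ⊆
        seg A (j + 1) ((lev A (j + 1)).card - hq J (j + 1)) := fun J hJ hQJ j hj =>
    step_of_hasMon hmono (hM c.le_succ a ha hgood _
      (fun i => by simpa [A] using hf i.castSucc) hreg' J hJ
      fun i => hQJ (Ideal.subset_span (List.mem_ofFn.2 ⟨_, rfl⟩))) hj
  by_cases hd : d + 1 < e
  · exact low I hI hQI d hd
  set s := ∑ i, (A i - 1)
  have hs : s = ∑ i, (a i - 1) + (e - 1) := by simp [s, A, Fin.sum_univ_castSucc]
  by_cases hds : d + 1 ≤ s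
  swap
  · intro x hx
    have hxl := up_subset_lev (Finset.filter_subset _ _) hx
    exact absurd (flipExp_mem hxl).2.2 hds
  have hQ : Closed Q := closed_ofList fun g hg => by
    obtain ⟨i, rfl⟩ := List.mem_ofFn.1 hg
    exact ⟨_, hf i⟩
  have hsoc : Soc1 Q s := soc1_ofList noSocleHyp hA1 hf hreg
  have hz : ∀ (j : ℕ) (p : MvPolynomial (Fin (c + 1)) K), s < j → p.IsHomogeneous j → p ∈ Q := by
    intro j p hj hp
    have h0 : hq Q j = 0 := by
      rw [hq_ofList hf hreg j, Finset.card_eq_zero, Finset.eq_empty_iff_forall_notMem]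
      exact fun x hx => absurd (flipExp_mem hx).2.2 (not_le.2 hj)
    have := finite_hom (K := K) (n := c + 1) j
    have heq : grade Q j = homogeneousSubmodule (Fin (c + 1)) K j :=
      Submodule.eq_of_le_of_finrank_le inf_le_right (by simp only [hq] at h0; omega)
    exact (heq.symm ▸ hp : p ∈ grade Q j).1
  obtain ⟨L, hL⟩ : ∃ L, L = Q.colon (I : Set (MvPolynomial (Fin (c + 1)) K)) := ⟨_, rfl⟩
  have hl := low L (hL ▸ closed_colon hQ hI) (hL ▸ le_colon) (s - (d + 1)) (by omega)
  have e1 := hq_colon hI hQI hsoc hz (e := s - (d + 1)) (by omega)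
  have e0 := hq_colon hI hQI hsoc hz (e := s - d) (by omega)
  rw [← hL, Nat.sub_sub_self hds, hq_ofList hf hreg] at e1
  rw [← hL, Nat.sub_sub_self (by omega : d ≤ s), hq_ofList hf hreg] at e0
  rw [show s - (d + 1) + 1 = s - d by omega, card_lev_flip A hds,
    card_lev_flip A (by omega : d ≤ s),
    show (lev A (d + 1)).card - hq L (s - (d + 1)) = hq I (d + 1) by omega,
    show (lev A d).card - hq L (s - d) = hq I d by omega] at hl
  exact dual_step hds hl

end Vale.P200.Ext
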