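import Vale.Agent.P200.Assemble
import Vale.Agent.P200.Ext.Proj
import Vale.Agent.P200.Ext.Slices

/-!
P200, any number of variables: base change and the assembly of the monomial ideal.
-/

namespace Vale.P200.Ext

open MvPolynomial Module

universe u

section BaseChange

variable {K : Type*} [Field K] {L : Type*} [Field L] [Algebra K L] {σ : Type*}

lemma RegMod.baseChange : ∀ (l : List (MvPolynomial σ K)) (Q : Ideal (MvPolynomial σ K)),
    RegMod Q l → RegMod (Q.map (MvPolynomial.map (algebraMap K L)))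
      (l.map (MvPolynomial.map (algebraMap K L))) := by
  intro l
  induction l with
  | nil => intros; trivial
  | cons g t ih =>
    rintro Q ⟨hg, ht⟩
    refine ⟨fun p hp => nzd_map hg p hp, ?_⟩
    have h := ih _ ht
    rwa [Ideal.map_sup, Ideal.map_span, Set.image_singleton] at h

lemma Closed.baseChange {I : Ideal (MvPolynomial σ K)} (hI : Closed I) :
    Closed (I.map (MvPolynomial.map (algebraMap K L))) := by
  intro p hp d
  rw [mem_map_iff_spanL, mem_spanL_iff] at hp ⊢
  intro π
  rw [coeffMap_hcomp]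
  exact hI _ (hp π) d

lemma finrank_grade_baseChange [Finite σ] (I : Ideal (MvPolynomial σ K)) (d : ℕ) :
    finrank L ↥(grade (I.map (MvPolynomial.map (algebraMap K L))) d) = finrank K ↥(grade I d) := by
  have hfin : Module.Finite K (grade I d) := by
    have hS : Module.Finite K (homogeneousSubmodule σ K d) :=
      Module.Finite.of_fg (homogeneousSubmodule_fg (σ := σ) (R := K) d)
    exact Submodule.finiteDimensional_of_le inf_le_right
  have heq : grade (I.map (MvPolynomial.map (algebraMap K L))) d = spanL L (grade I d) := by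
    ext p
    rw [mem_spanL_iff]
    constructor
    · rintro ⟨hp, hd⟩ π
      refine ⟨mem_spanL_iff.1 (mem_map_iff_spanL.1 hp) π, fun m hm => ?_⟩
      rw [coeff_coeffMap] at hm
      exact hd fun h0 => hm (by rw [h0, map_zero])
    · intro hp
      refine ⟨mem_map_iff_spanL.2 (mem_spanL_iff.2 fun π => (hp π).1), fun m hm => ?_⟩
      obtain ⟨π, hπ⟩ : ∃ π : L →ₗ[K] K, π (coeff m p) ≠ 0 := by
        by_contra hcon
        simp only [not_exists, not_not] at hcon
        exact hm ((Module.forall_dual_apply_eq_zero_iff K (coeff m p)).1 hcon)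
      exact (hp π).2 (by rwa [coeff_coeffMap])
  rw [heq, finrank_spanL]

end BaseChange

section Equiv

variable {K : Type*} [Field K] {σ τ : Type*} (A : MvPolynomial σ K ≃ₐ[K] MvPolynomial τ K)

lemma hcomp_equiv (hA : ∀ d p, (A p).IsHomogeneous d ↔ p.IsHomogeneous d)
    (p : MvPolynomial σ K) (d : ℕ) :
    homogeneousComponent d (A p) = A (homogeneousComponent d p) := by
  conv_lhs => rw [← sum_homogeneousComponent p, map_sum, map_sum]
  rw [Finset.sum_congr rfl fun i _ => homogeneousComponent_of_mem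
    (n := i) ((hA i _).2 (homogeneousComponent_isHomogeneous i p)), Finset.sum_ite_eq]
  simp only [Finset.mem_range]
  split_ifs with h
  · rfl
  · rw [homogeneousComponent_eq_zero _ _ (by omega), map_zero]

lemma Closed.map_equiv (hA : ∀ d p, (A p).IsHomogeneous d ↔ p.IsHomogeneous d)
    {I : Ideal (MvPolynomial σ K)} (hI : Closed I) : Closed (I.map A) := by
  intro q hq d
  obtain ⟨p, rfl⟩ := A.surjective q
  rw [mem_map_equiv] at hq
  rw [hcomp_equiv A hA, mem_map_equiv]
  exact hI p hq d

lemma finrank_grade_equiv (hA : ∀ d p, (A p).IsHomogeneous d ↔ p.IsHomogeneous d)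
    (I : Ideal (MvPolynomial σ K)) (d : ℕ) :
    finrank K ↥(grade (I.map A) d) = finrank K ↥(grade I d) := by
  have h : grade (I.map A) d = (grade I d).map (A.toLinearEquiv : _ →ₗ[K] MvPolynomial τ K) := by
    ext q
    obtain ⟨p, rfl⟩ := A.surjective q
    rw [Submodule.mem_map_equiv]
    simp only [grade, Submodule.mem_inf, Submodule.restrictScalars_mem, mem_homogeneousSubmodule]
    refine and_congr ?_ ?_
    · rw [mem_map_equiv]; simp
    · rw [hA]; simp
  rw [h, LinearEquiv.finrank_map_eq]

end Equiv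

section Three

variable {K : Type*} [Field K] {a b c : ℕ}

lemma isRegular_of_regMod {f₁ f₂ f₃ : MvPolynomial (Fin 3) K} (hc₁ : constantCoeff f₁ = 0)
    (hc₂ : constantCoeff f₂ = 0) (hc₃ : constantCoeff f₃ = 0) (h : RegMod ⊥ [f₁, f₂, f₃]) :
    RingTheory.Sequence.IsRegular (MvPolynomial (Fin 3) K) [f₁, f₂, f₃] := by
  obtain ⟨h1, h2, h3, -⟩ := h
  refine ⟨⟨fun i hi => ?_⟩, ?_⟩
  · rw [isSMulRegular_quotient_iff_mem_of_smul_mem]
    simp only [List.length_cons, List.length_nil] at hi
    interval_cases i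
    · simpa [NZD, Submodule.bot_smul, Ideal.mul_top] using h1
    · simpa [NZD, Ideal.mul_top] using h2
    · simpa [NZD, Ideal.mul_top] using h3
  · intro htop
    rw [smul_eq_mul, Ideal.mul_top] at htop
    have h1 : (1 : MvPolynomial (Fin 3) K) ∈ Ideal.ofList [f₁, f₂, f₃] := by
      rw [← htop]; trivial
    have hle : Ideal.ofList [f₁, f₂, f₃] ≤
        RingHom.ker (constantCoeff : MvPolynomial (Fin 3) K →+* K) := by
      refine Ideal.span_le.2 ?_
      intro x hx
      simp only [Set.mem_ofPred_eq, List.mem_cons, List.not_mem_nil, or_false] at hx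
      rcases hx with rfl | rfl | rfl <;> assumption
    have := hle h1
    rw [RingHom.mem_ker, map_one] at this
    exact one_ne_zero this

/-- The number of monomials outside the powers in the lex-plus-powers space of `J`. -/
noncomputable def excess (a b c : ℕ) (J : Ideal (MvPolynomial (Fin 3) K)) (d : ℕ) : ℕ :=
  finrank K ↥(part J d) + (mons a b c d).card - (d + 2).choose 2

lemma excess_mono {J J' : Ideal (MvPolynomial (Fin 3) K)} (h : J ≤ J') (d : ℕ) :
    excess a b c J d ≤ excess a b c J' d := by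
  have : FiniteDimensional K (part J' d) := by
    have hS : Module.Finite K (homogeneousSubmodule (Fin 3) K d) :=
      Module.Finite.of_fg (homogeneousSubmodule_fg (σ := Fin 3) (R := K) d)
    exact Submodule.finiteDimensional_of_le inf_le_right
  have := Submodule.finrank_mono (R := K) (show part J d ≤ part J' d from
    inf_le_inf_right _ (fun x hx => h hx))
  unfold excess
  omega

lemma lppSet_mono {q q' : ℕ → ℕ} (h : ∀ d, q d ≤ q' d) : lppSet a b c q ⊆ lppSet a b c q' :=
  fun _ hm ho => lt_of_lt_of_le (hm ho) (h _)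

/-- The three-variable theorem in the form used for slices. -/
theorem lpp_three (ha : 2 ≤ a) (hab : a ≤ b) (hbc : b ≤ c) {f₁ f₂ f₃ : MvPolynomial (Fin 3) K}
    (h₁ : f₁.IsHomogeneous a) (h₂ : f₂.IsHomogeneous b) (h₃ : f₃.IsHomogeneous c)
    (h : RegMod ⊥ [f₁, f₂, f₃]) {J : Ideal (MvPolynomial (Fin 3) K)} (hJ : Closed J)
    (m₁ : f₁ ∈ J) (m₂ : f₂ ∈ J) (m₃ : f₃ ∈ J) :
    IsUpperSet (lppSet a b c (excess a b c J)) ∧
      ∀ d, {x : Fin 3 →₀ ℕ | x.degree = d ∧ x ∈ lppSet a b c (excess a b c J)}.ncard =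
        finrank K ↥(part J d) := by
  have hreg := isRegular_of_regMod (PosForm.constantCoeff_eq_zero ⟨a, by omega, h₁⟩)
    (PosForm.constantCoeff_eq_zero ⟨b, by omega, h₂⟩)
    (PosForm.constantCoeff_eq_zero ⟨c, by omega, h₃⟩) h
  have hstep := lexStep_of_regular ha hab hbc h₁ h₂ h₃ hreg hJ m₁ m₂ m₃
  have hs : IsUpperSet (lppSet a b c (excess a b c J)) := lppSet_upper fun e => (hstep e).1
  refine ⟨hs, fun d => ?_⟩
  have h1 := hstep d
  have hq : excess a b c J d ≤ (mons a b c d).card := by unfold excess; omega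
  have h2 := part_lpp_finrank (K := K) hs d hq
  rw [part_restrictSupport, finrank_restrictSupport] at h2
  change _ + _ = _ + (finrank K ↥(part J d) + (mons a b c d).card - (d + 2).choose 2) at h2
  omega

end Three

section Assembly

variable {m : ℕ}

/-- The coordinates of `Fin (m+3)`: the first three, then the others. -/
def splitEquiv (m : ℕ) : Fin (m + 3) ≃ Fin m ⊕ Fin 3 :=
  (finCongr (Nat.add_comm m 3)).trans (finSumFinEquiv.symm.trans (Equiv.sumComm _ _))

lemma splitEquiv_zero : splitEquiv m 0 = Sum.inr 0 := by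
  rw [← Equiv.eq_symm_apply]
  exact Fin.ext (by simp [splitEquiv])

lemma splitEquiv_one : splitEquiv m 1 = Sum.inr 1 := by
  rw [← Equiv.eq_symm_apply]
  exact Fin.ext (by simp [splitEquiv])

lemma splitEquiv_two : splitEquiv m 2 = Sum.inr 2 := by
  rw [← Equiv.eq_symm_apply]
  exact Fin.ext (by simp [splitEquiv, Nat.mod_eq_of_lt])

/-- Exponents of the extra variables. -/
noncomputable def apart (n : Fin (m + 3) →₀ ℕ) : Fin m →₀ ℕ :=
  Finsupp.equivFunOnFinite.symm fun k => n ((splitEquiv m).symm (Sum.inl k))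

/-- Exponents of the first three variables. -/
noncomputable def xpart (n : Fin (m + 3) →₀ ℕ) : Fin 3 →₀ ℕ :=
  Finsupp.equivFunOnFinite.symm fun k => n ((splitEquiv m).symm (Sum.inr k))

lemma degree_split (n : Fin (m + 3) →₀ ℕ) : n.degree = (apart n).degree + (xpart n).degree := by
  rw [Finsupp.degree_eq_sum, Finsupp.degree_eq_sum, Finsupp.degree_eq_sum,
    ← Equiv.sum_comp (splitEquiv m).symm, Fintype.sum_sum_type]
  simp [apart, xpart]

/-- Recombine. -/
noncomputable def joinExp (α : Fin m →₀ ℕ) (x : Fin 3 →₀ ℕ) : Fin (m + 3) →₀ ℕ :=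
  Finsupp.equivFunOnFinite.symm fun i => Sum.elim α x (splitEquiv m i)

lemma apart_join (α : Fin m →₀ ℕ) (x : Fin 3 →₀ ℕ) : apart (joinExp α x) = α := by
  ext k; simp [apart, joinExp]

lemma xpart_join (α : Fin m →₀ ℕ) (x : Fin 3 →₀ ℕ) : xpart (joinExp α x) = x := by
  ext k; simp [xpart, joinExp]

lemma join_parts (n : Fin (m + 3) →₀ ℕ) : joinExp (apart n) (xpart n) = n := by
  ext i
  have h : ∀ s, Sum.elim (apart n) (xpart n) s = n ((splitEquiv m).symm s) := by
    rintro (k | k) <;> simp [apart, xpart]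
  simp [joinExp, h]

lemma nested_le {β : Type*} [Preorder β] {J : (Fin m →₀ ℕ) → β}
    (h : ∀ α i, J α ≤ J (α + Finsupp.single i 1)) {α α' : Fin m →₀ ℕ} (hle : α ≤ α') :
    J α ≤ J α' := by
  obtain ⟨γ, rfl⟩ := exists_add_of_le hle
  clear hle
  suffices ∀ k γ, γ.degree = k → ∀ α, J α ≤ J (α + γ) from this _ γ rfl α
  intro k
  induction k with
  | zero =>
    intro γ hγ α
    rw [Finsupp.degree_eq_zero_iff] at hγ
    rw [hγ, add_zero]
  | succ k ih =>
    intro γ hγ α
    obtain ⟨i, hi⟩ : ∃ i, γ i ≠ 0 := by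
      by_contra hh
      simp only [not_exists, not_not] at hh
      rw [show γ = 0 from Finsupp.ext hh, map_zero] at hγ
      omega
    have he : Finsupp.single i 1 + (γ - Finsupp.single i 1) = γ :=
      add_tsub_cancel_of_le (Finsupp.single_le_iff.2 (Nat.one_le_iff_ne_zero.2 hi))
    have hd : (γ - Finsupp.single i 1).degree = k := by
      have := congrArg Finsupp.degree he
      rw [map_add, Finsupp.degree_single, hγ] at this
      omega
    calc J α ≤ J (α + Finsupp.single i 1) := h α i
      _ ≤ J (α + Finsupp.single i 1 + (γ - Finsupp.single i 1)) := ih _ hd _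
      _ = J (α + γ) := by rw [add_assoc, he]

/-- Slices glue to a monomial set. -/
theorem glue {a b c : ℕ} (q : (Fin m →₀ ℕ) → ℕ → ℕ)
    (hup : ∀ α, IsUpperSet (lppSet a b c (q α)))
    (hmono : ∀ α i d, q α d ≤ q (α + Finsupp.single i 1) d) :
    ∃ U : Set (Fin (m + 3) →₀ ℕ), IsUpperSet U ∧
      Finsupp.single 0 a ∈ U ∧ Finsupp.single 1 b ∈ U ∧ Finsupp.single 2 c ∈ U ∧
      ∀ d, {n | n.degree = d ∧ n ∈ U}.ncard =
        ∑ α ∈ expLE m d, {x : Fin 3 →₀ ℕ | x.degree = d - α.degree ∧ x ∈ lppSet a b c (q α)}.ncard := by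
  classical
  refine ⟨{n | xpart n ∈ lppSet a b c (q (apart n))}, ?_, ?_, ?_, ?_, fun d => ?_⟩
  · intro n n' hle hn
    have hx : xpart n ≤ xpart n' := fun k => by simpa [xpart] using hle _
    have hA : apart n ≤ apart n' := fun k => by simpa [apart] using hle _
    exact lppSet_mono (fun d => nested_le (J := fun α => q α d) (fun α i => hmono α i d) hA)
      (hup _ hx hn)
  · intro ho
    exfalso
    have := ho.1
    simp [xpart, ← splitEquiv_zero] at this
  · intro ho
    exfalso
    have := ho.2.1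
    simp [xpart, ← splitEquiv_one] at this
  · intro ho
    exfalso
    have := ho.2.2
    simp [xpart, ← splitEquiv_two] at this
  · set Y : (Fin m →₀ ℕ) → Set (Fin 3 →₀ ℕ) := fun α =>
      {x | x.degree = d - α.degree ∧ x ∈ lppSet a b c (q α)} with hY
    have hYfin : ∀ α, (Y α).Finite := fun α => (finite_degree _).subset fun x hx => hx.1
    have himg : {n : Fin (m + 3) →₀ ℕ | n.degree = d ∧ xpart n ∈ lppSet a b c (q (apart n))} =
        ↑(((expLE m d).sigma fun α => (hYfin α).toFinset).image fun p => joinExp p.1 p.2) := by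
      ext n
      simp only [Finset.coe_image, Finset.coe_sigma, Set.mem_image, Set.mem_sigma_iff,
        Set.Finite.coe_toFinset, Finset.mem_coe, mem_expLE, Set.mem_ofPred_eq, hY]
      constructor
      · rintro ⟨hd, hn⟩
        have := degree_split n
        exact ⟨⟨apart n, xpart n⟩, ⟨show (apart n).degree ≤ d by omega,
          show (xpart n).degree = d - (apart n).degree by omega, hn⟩, join_parts n⟩
      · rintro ⟨⟨α, x⟩, ⟨h1, h2, h3⟩, rfl⟩
        simp only at h1 h2 h3 ⊢
        have := degree_split (joinExp α x)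
        rw [apart_join, xpart_join] at this ⊢
        exact ⟨by omega, h3⟩
    simp only [Set.mem_ofPred_eq]
    rw [himg, Set.ncard_coe_finset, Finset.card_image_of_injOn, Finset.card_sigma]
    · exact Finset.sum_congr rfl fun α _ => (Set.ncard_eq_toFinset_card _ (hYfin α)).symm
    · rintro ⟨α, x⟩ _ ⟨β, y⟩ _ h
      simp only at h
      have hα : α = β := by rw [← apart_join α x, h, apart_join]
      have hx : x = y := by rw [← xpart_join α x, h, xpart_join]
      subst hα hx; rfl

variable {K : Type u} [Field K]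

lemma grade_monomialIdeal {σ : Type*} {U : Set (σ →₀ ℕ)} (hU : IsUpperSet U) (d : ℕ) :
    grade (Ideal.span ((fun s => monomial s (1 : K)) '' U)) d =
      restrictSupport K {n | n.degree = d ∧ n ∈ U} := by
  rw [grade, homogeneousSubmodule_eq_finsupp_supported]
  ext p
  simp only [Submodule.mem_inf, Submodule.restrictScalars_mem, mem_ideal_span_monomial_image,
    restrictSupport, AddMonoidAlgebra.mem_supported, Set.subset_def, Set.mem_ofPred_eq]
  constructor
  · rintro ⟨h, hd⟩ x hx
    obtain ⟨s, hs, hsx⟩ := h x hx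
    exact ⟨hd x hx, hU hsx hs⟩
  · exact fun h => ⟨fun x hx => ⟨x, (h x hx).2, le_rfl⟩, fun x hx => (h x hx).1⟩

/-- A monomial ideal containing the powers with the Hilbert function of `I`, three forms in any
number of variables. -/
theorem exists_monomial_ideal {a b c : ℕ} (ha : 2 ≤ a) (hab : a ≤ b) (hbc : b ≤ c)
    {f₁ f₂ f₃ : MvPolynomial (Fin (m + 3)) K} (h₁ : f₁.IsHomogeneous a) (h₂ : f₂.IsHomogeneous b)
    (h₃ : f₃.IsHomogeneous c) (hreg : RegMod ⊥ [f₁, f₂, f₃])
    {I : Ideal (MvPolynomial (Fin (m + 3)) K)} (hI : Closed I)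
    (m₁ : f₁ ∈ I) (m₂ : f₂ ∈ I) (m₃ : f₃ ∈ I) :
    ∃ U : Set (Fin (m + 3) →₀ ℕ), IsUpperSet U ∧
      Finsupp.single 0 a ∈ U ∧ Finsupp.single 1 b ∈ U ∧ Finsupp.single 2 c ∈ U ∧
      ∀ d, finrank K ↥(grade (Ideal.span ((fun s => monomial s (1 : K)) '' U)) d) =
        finrank K ↥(grade I d) := by
  -- pass to an infinite field
  let L := RatFunc K
  have : Infinite L := Infinite.of_injective (algebraMap (Polynomial K) (RatFunc K))
    (RatFunc.algebraMap_injective K)
  let ι : MvPolynomial (Fin (m + 3)) K →+* MvPolynomial (Fin (m + 3)) L :=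
    MvPolynomial.map (algebraMap K L)
  have hregL := RegMod.baseChange (L := L) _ _ hreg
  rw [Ideal.map_bot, List.map_cons, List.map_cons, List.map_cons, List.map_nil] at hregL
  have g₁ : (ι f₁).IsHomogeneous a := h₁.map _
  have g₂ : (ι f₂).IsHomogeneous b := h₂.map _
  have g₃ : (ι f₃).IsHomogeneous c := h₃.map _
  -- generic coordinates and slices
  obtain ⟨A, hA, hAreg⟩ := exists_good_coords (fs := [ι f₁, ι f₂, ι f₃]) rfl
    (by simp only [List.mem_cons, List.not_mem_nil, or_false]
        rintro g (rfl | rfl | rfl)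
        exacts [⟨a, by omega, g₁⟩, ⟨b, by omega, g₂⟩, ⟨c, by omega, g₃⟩]) hregL
  obtain ⟨J, hJc, hJn, hJ0, hJd⟩ := exists_slices (Closed.map_equiv A hA (Closed.baseChange (L := L) hI))
  have hk : ∀ {k : ℕ} {g : MvPolynomial (Fin (m + 3)) L}, g.IsHomogeneous k →
      (killFirst (A g)).IsHomogeneous k := fun {k g} hg => by
    have := IsHomogeneous.aeval (m := k) (φ := A g) ((hA k g).2 hg)
      (Sum.elim 0 X : Fin m ⊕ Fin 3 → MvPolynomial (Fin 3) L) (n := 1) (by
        rintro (i | i)
        · exact isHomogeneous_zero _ _ _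
        · exact isHomogeneous_X L i)
    rw [one_mul] at this
    exact this
  have hmem : ∀ {f : MvPolynomial (Fin (m + 3)) K}, f ∈ I → ∀ α, killFirst (A (ι f)) ∈ J α :=
    fun {f} hf α => nested_le hJn (bot_le (a := α))
      (hJ0 _ (Ideal.mem_map_of_mem _ (Ideal.mem_map_of_mem _ hf)))
  have hlpp : ∀ α, _ := fun α => lpp_three ha hab hbc (hk g₁) (hk g₂) (hk g₃) hAreg (hJc α)
    (hmem m₁ α) (hmem m₂ α) (hmem m₃ α)
  obtain ⟨U, hU, u₁, u₂, u₃, hcount⟩ := glue (fun α => excess a b c (J α)) (fun α => (hlpp α).1)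
    (fun α i => excess_mono (hJn α i))
  refine ⟨U, hU, u₁, u₂, u₃, fun d => ?_⟩
  rw [grade_monomialIdeal hU, finrank_eq_nat_card_basis (basisRestrictSupport K _),
    Nat.card_coe_set_eq, hcount d, ← finrank_grade_baseChange (L := L) I d,
    ← finrank_grade_equiv A hA, hJd d]
  exact Finset.sum_congr rfl fun α _ => (hlpp α).2 _

end Assembly

end Vale.P200.Ext
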