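import Vale.Agent.P200.Ext.Link
import Vale.Agent.P200.Ext.Gain

/-!
P200, any number of variables: the middle step when the last degree equals the socle degree of the
previous forms.
-/

namespace Vale.P200.Ext

open MvPolynomial Module

universe u

/-- The shadow of `q` exponents just below the middle degree has at most `q + 1` elements. -/
lemma card_up_seg_middle {c : ℕ} {a : Fin c → ℕ} {d : ℕ} (hd : d + 1 = ∑ i, (a i - 1)) (q : ℕ) :
    (up (Fin.snoc a (d + 1)) (seg (Fin.snoc a (d + 1)) d q)).card ≤
      (seg (Fin.snoc a (d + 1)) d q).card + 1 := by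
  classical
  set A : Fin (c + 1) → ℕ := Fin.snoc a (d + 1)
  let σ : (Fin (c + 1) → ℕ) → (Fin c → ℕ) := fun m => fun i => m i.castSucc
  let top : Fin c → ℕ := fun i => a i - 1
  set T := (seg A d q).image σ
  have hsum : ∀ m : Fin (c + 1) → ℕ, ∑ i, m i = ∑ i, σ m i + m (Fin.last c) := fun m =>
    Fin.sum_univ_castSucc m
  have key : ∀ x ∈ up A (seg A d q), σ x ∈ insert top T := by
    intro x hx
    obtain ⟨hxb, m, hm, i, rfl⟩ := mem_up.1 hx
    obtain ⟨hml, -⟩ := Finset.mem_filter.1 hm
    obtain ⟨hmb, hms⟩ := mem_lev.1 hml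
    cases i using Fin.lastCases with
    | last =>
      refine Finset.mem_insert_of_mem (Finset.mem_image.2 ⟨m, hm, funext fun i => ?_⟩)
      simp [σ, (Fin.castSucc_lt_last i).ne]
    | cast j =>
      set p := σ (m + Pi.single j.castSucc 1) with hp
      have hpb : ∀ i, p i < a i := fun i => by
        have := hxb i.castSucc
        simpa [A, hp, σ] using this
      have hple : ∑ i, p i ≤ d + 1 := by
        rw [hd]; exact Finset.sum_le_sum fun i _ => by have := hpb i; omega
      rcases hple.eq_or_lt with h | h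
      · refine Finset.mem_insert.2 (Or.inl (funext fun i => ?_))
        by_contra hne
        have : ∑ i, p i < ∑ i, (a i - 1) :=
          Finset.sum_lt_sum (fun i _ => by have := hpb i; omega)
            ⟨i, Finset.mem_univ i, by have := hpb i; simp only [top] at hne; omega⟩
        omega
      · refine Finset.mem_insert_of_mem (Finset.mem_image.2
          ⟨Fin.snoc p (d - ∑ i, p i), ?_, funext fun i => by simp [σ]⟩)
        refine (isSeg_seg A d q).2 _ (mem_lev.2 ⟨fun i => ?_, ?_⟩) m hm ?_
        · cases i using Fin.lastCases with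
          | last => simp [A]
          | cast i => simpa [A] using hpb i
        · simp only [Fin.sum_univ_castSucc, Fin.snoc_castSucc, Fin.snoc_last]; omega
        · refine ⟨j.castSucc, fun l hl => ?_, ?_⟩
          · obtain ⟨l, rfl⟩ := Fin.exists_castSucc_eq.2 (Fin.ne_last_of_lt hl)
            simp [hp, σ, hl.ne]
          · simp [hp, σ]
  have hinj : Set.InjOn σ (up A (seg A d q)) := by
    intro x hx y hy hxy
    have h1 := (mem_lev.1 (up_subset_lev (Finset.filter_subset _ _) hx)).2
    have h2 := (mem_lev.1 (up_subset_lev (Finset.filter_subset _ _) hy)).2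
    rw [hsum, hxy] at h1
    rw [hsum] at h2
    funext i
    cases i using Fin.lastCases with
    | last => omega
    | cast i => exact congrFun hxy i
  refine (Finset.card_le_card_of_injOn σ (fun x hx => key x hx) hinj).trans ?_
  exact (Finset.card_insert_le _ _).trans (Nat.add_le_add_right Finset.card_image_le _)

variable {K : Type u} [Field K]

/-- Monomials of a monomial ideal with the Hilbert function of `I` inside the box, up to degree
`e`: in degree `e` the last power may be missing. -/
lemma card_filter_hasMon {c : ℕ} {a : Fin c → ℕ} {e j : ℕ} (hj : j ≤ e)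
    {I : Ideal (MvPolynomial (Fin (c + 1)) K)} {S : Set (Fin (c + 1) →₀ ℕ)} (hS : IsUpperSet S)
    (hP : ∀ i, Finsupp.single (Fin.castLE c.le_succ i) (a i) ∈ S)
    (hcount : ∀ d, {m : Fin (c + 1) →₀ ℕ | m.degree = d ∧ m ∈ S}.ncard = finrank K ↥(grade I d))
    [DecidablePred fun m : Fin (c + 1) → ℕ => Finsupp.equivFunOnFinite.symm m ∈ S] :
    ((lev (Fin.snoc a e) j).filter fun m => Finsupp.equivFunOnFinite.symm m ∈ S).card + hq I j ≤
        (lev (Fin.snoc a e) j).card + 1 ∧
      (j < e → ((lev (Fin.snoc a e) j).filter fun m => Finsupp.equivFunOnFinite.symm m ∈ S).card +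
        hq I j = (lev (Fin.snoc a e) j).card) := by
  classical
  set A : Fin (c + 1) → ℕ := Fin.snoc a e
  set U := lev (fun _ : Fin (c + 1) => j + 1) j
  have hsub : lev A j ⊆ U := fun m hm => by
    refine mem_lev.2 ⟨fun i => ?_, (mem_lev.1 hm).2⟩
    have := Finset.single_le_sum (f := m) (fun l _ => Nat.zero_le _) (Finset.mem_univ i)
    rw [(mem_lev.1 hm).2] at this
    omega
  have hout : ∀ m ∈ (U \ lev A j).filter (fun m => Finsupp.equivFunOnFinite.symm m ∉ S),
      j = e ∧ m = Pi.single (Fin.last c) e := by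
    intro m hm
    obtain ⟨hm', hmS⟩ := Finset.mem_filter.1 hm
    obtain ⟨hm1, hm2⟩ := Finset.mem_sdiff.1 hm'
    obtain ⟨hb, hs⟩ := mem_lev.1 hm1
    obtain ⟨i, hi⟩ : ∃ i, A i ≤ m i := by
      by_contra hc'
      simp only [not_exists, not_le] at hc'
      exact hm2 (mem_lev.2 ⟨hc', hs⟩)
    cases i using Fin.lastCases with
    | cast i =>
      simp only [A, Fin.snoc_castSucc] at hi
      refine absurd (hS ?_ (hP i)) hmS
      rw [Finsupp.single_le_iff]
      exact hi
    | last =>
      simp only [A, Fin.snoc_last] at hi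
      rw [← Finset.add_sum_erase _ _ (Finset.mem_univ (Fin.last c))] at hs
      refine ⟨by omega, funext fun l => ?_⟩
      rcases eq_or_ne l (Fin.last c) with rfl | hl
      · simp; omega
      · have := Finset.single_le_sum (f := m) (fun l _ => Nat.zero_le _)
          (Finset.mem_erase.2 ⟨hl, Finset.mem_univ l⟩)
        simp [hl]; omega
  have hone : ((U \ lev A j).filter fun m => Finsupp.equivFunOnFinite.symm m ∉ S).card ≤ 1 :=
    Finset.card_le_one.2 fun x hx y hy => (hout x hx).2.trans (hout y hy).2.symm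
  have hnone : j < e → ((U \ lev A j).filter fun m => Finsupp.equivFunOnFinite.symm m ∉ S) = ∅ :=
    fun h => Finset.eq_empty_of_forall_notMem fun x hx => absurd (hout x hx).1 h.ne
  have h1 : (U.filter fun m => Finsupp.equivFunOnFinite.symm m ∈ S).card =
      finrank K ↥(grade I j) := by
    rw [← hcount j, ← Set.ncard_coe_finset, ← Set.ncard_image_of_injective _
      (Finsupp.equivFunOnFinite (α := Fin (c + 1)) (M := ℕ)).symm.injective]
    congr 1
    ext x
    simp only [U, Set.mem_image, Finset.coe_filter, Set.mem_ofPred_eq, mem_lev]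
    constructor
    · rintro ⟨m, ⟨⟨-, hs⟩, hm⟩, rfl⟩
      exact ⟨by simpa [Finsupp.degree_eq_sum] using hs, hm⟩
    · rintro ⟨hd', hx⟩
      refine ⟨x, ⟨⟨fun i => ?_, (Finsupp.degree_eq_sum x).symm.trans hd'⟩, by simpa using hx⟩, by simp⟩
      have : x i ≤ x.degree := Finsupp.le_degree i x
      omega
  rw [← Finset.union_sdiff_of_subset hsub, Finset.filter_union,
    Finset.card_union_of_disjoint (Finset.disjoint_filter_filter Finset.disjoint_sdiff)] at h1
  have h6 := Finset.card_filter_add_card_filter_not (s := U \ lev A j)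
    fun m => Finsupp.equivFunOnFinite.symm m ∈ S
  rw [Finset.card_sdiff_of_subset hsub] at h6
  have h2 : finrank K ↥(homogeneousSubmodule (Fin (c + 1)) K j) = U.card :=
    finrank_hom_eq_card j (j + 1) (by omega)
  have h4 := Finset.card_le_card hsub
  have h3 := finrank_grade_le_hom (K := K) I j
  have h5 := Finset.card_filter_le (lev A j) fun m => Finsupp.equivFunOnFinite.symm m ∈ S
  simp only [hq]
  refine ⟨by omega, fun hlt => ?_⟩
  rw [hnone hlt, Finset.card_empty] at h6
  omega

section Quotient

variable {n : ℕ} {Q : Ideal (MvPolynomial (Fin n) K)}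

lemma mk_eq_iff {p q : MvPolynomial (Fin n) K} :
    Ideal.Quotient.mkₐ K Q p = Ideal.Quotient.mkₐ K Q q ↔ p - q ∈ Q := by
  rw [Ideal.Quotient.mkₐ_eq_mk]; exact Ideal.Quotient.eq

/-- The image of a graded piece modulo `Q`. -/
lemma finrank_map_mk {I : Ideal (MvPolynomial (Fin n) K)} (hle : Q ≤ I) (d : ℕ) :
    finrank K ↥((grade I d).map (Ideal.Quotient.mkₐ K Q).toLinearMap) + hq I d = hq Q d := by
  have := finite_grade I d
  set π := (Ideal.Quotient.mkₐ K Q).toLinearMap
  have h := LinearMap.finrank_range_add_finrank_ker (π.domRestrict (grade I d))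
  have hk : LinearMap.ker (π.domRestrict (grade I d)) =
      Submodule.comap (grade I d).subtype (grade Q d) := by
    ext ⟨p, hp⟩
    show π p = 0 ↔ p ∈ grade Q d
    constructor
    · intro h0
      exact ⟨Ideal.Quotient.eq_zero_iff_mem.1 h0, hp.2⟩
    · exact fun h => Ideal.Quotient.eq_zero_iff_mem.2 h.1
  rw [LinearMap.range_domRestrict, hk,
    (Submodule.comapSubtypeEquivOfLe (show grade Q d ≤ grade I d
      from inf_le_inf_right _ hle)).finrank_eq] at h
  have := finrank_grade_le_hom (K := K) I d
  simp only [hq]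
  omega

/-- Forms of degree at least two have no linear part. -/
lemma linear_part_eq_zero {L : List (MvPolynomial (Fin n) K)}
    (h : ∀ g ∈ L, ∃ b, 2 ≤ b ∧ g.IsHomogeneous b) {p : MvPolynomial (Fin n) K}
    (hp : p ∈ Ideal.ofList L) : homogeneousComponent 1 p = 0 := by
  induction hp using Submodule.span_induction with
  | mem x hx =>
    obtain ⟨b, hb, hxb⟩ := h x hx
    rw [homogeneousComponent_of_mem hxb, if_neg (by omega)]
  | zero => simp
  | add x y _ _ hx hy => rw [map_add, hx, hy, add_zero]
  | smul r x hx' hx =>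
    have hcl : Closed (Ideal.ofList L) := closed_ofList fun g hg => by
      obtain ⟨b, -, hb⟩ := h g hg; exact ⟨b, hb⟩
    have hc : constantCoeff x = 0 := by
      have hle : Ideal.ofList L ≤ RingHom.ker (constantCoeff : MvPolynomial (Fin n) K →+* K) :=
        Ideal.span_le.2 fun g hg => by
          obtain ⟨b, hb, hgb⟩ := h g hg
          exact PosForm.constantCoeff_eq_zero ⟨b, by omega, hgb⟩
      exact hle hx'
    have hsplit : r * x = C (constantCoeff r) * x + (r - C (constantCoeff r)) * x := by ring
    rw [smul_eq_mul, hsplit, map_add, homogeneousComponent_C_mul, hx, mul_zero, zero_add]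
    ext δ
    rw [coeff_homogeneousComponent, coeff_zero]
    split_ifs with hδ
    · classical
      rw [coeff_mul]
      refine Finset.sum_eq_zero fun uv huv => ?_
      rw [Finset.HasAntidiagonal.mem_antidiagonal] at huv
      have hdeg : uv.1.degree + uv.2.degree = 1 := by rw [← map_add, huv, hδ]
      rcases Nat.eq_zero_or_pos uv.1.degree with h0 | h0
      · rw [Finsupp.degree_eq_zero_iff] at h0
        rw [h0, coeff_sub, coeff_C, if_pos rfl, ← constantCoeff_eq, sub_self, zero_mul]
      · have h0' : uv.2.degree = 0 := by omega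
        rw [Finsupp.degree_eq_zero_iff] at h0'
        rw [h0', ← constantCoeff_eq, hc, mul_zero]
    · rfl

end Quotient

/-- The middle step: the last degree is `d + 1 = ∑ (a i - 1)`. -/
theorem step_middle [Infinite K] (hM : ToHasMon K) {c : ℕ} (hc : 2 ≤ c) {a : Fin c → ℕ}
    (ha : ∀ i, 2 ≤ a i) (hgood : Good K a) {d : ℕ} (hd : d + 1 = ∑ i, (a i - 1))
    (hmono : Monotone (Fin.snoc a (d + 1) : Fin (c + 1) → ℕ))
    {f : Fin (c + 1) → MvPolynomial (Fin (c + 1)) K}
    (hf : ∀ i, (f i).IsHomogeneous ((Fin.snoc a (d + 1) : Fin (c + 1) → ℕ) i))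
    (hreg : RegMod ⊥ (List.ofFn f))
    {I : Ideal (MvPolynomial (Fin (c + 1)) K)} (hI : Closed I) (hfI : ∀ i, f i ∈ I) :
    up (Fin.snoc a (d + 1)) (seg (Fin.snoc a (d + 1)) d
        ((lev (Fin.snoc a (d + 1)) d).card - hq I d)) ⊆
      seg (Fin.snoc a (d + 1)) (d + 1)
        ((lev (Fin.snoc a (d + 1)) (d + 1)).card - hq I (d + 1)) := by
  classical
  set A : Fin (c + 1) → ℕ := Fin.snoc a (d + 1) with hA
  set f' : Fin c → MvPolynomial (Fin (c + 1)) K := fun i => f i.castSucc
  set Q' := Ideal.ofList (List.ofFn f')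
  have hf' : ∀ i, (f' i).IsHomogeneous (a i) := fun i => by simpa [A] using hf i.castSucc
  have hcl' : Closed Q' := closed_ofList fun g hg => by
    obtain ⟨i, rfl⟩ := List.mem_ofFn.1 hg; exact ⟨_, hf' i⟩
  have hsplit : List.ofFn f = List.ofFn f' ++ [f (Fin.last c)] := by
    rw [List.ofFn_succ', List.concat_eq_append]
  rw [hsplit] at hreg
  obtain ⟨hreg', hflast⟩ := regMod_snoc.1 hreg
  have hflastd : (f (Fin.last c)).IsHomogeneous (d + 1) := by simpa [A] using hf (Fin.last c)
  have hQI : Q' ≤ I := Ideal.span_le.2 fun x hx => by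
    obtain ⟨i, rfl⟩ := List.mem_ofFn.1 hx
    exact hfI _
  set Q := Ideal.ofList (List.ofFn f)
  have hQeq : Q = Q' ⊔ Ideal.span {f (Fin.last c)} := by
    simp only [Q, hsplit, Ideal.ofList_append, Ideal.ofList_singleton, Q']
  have hQI' : Q ≤ I := Ideal.span_le.2 fun x hx => by
    obtain ⟨i, rfl⟩ := List.mem_ofFn.1 hx
    exact hfI _
  have hregf : RegMod ⊥ (List.ofFn f) := by rw [hsplit]; exact hreg
  have hlev : ∀ j, hq Q j = (lev A j).card := fun j => hq_ofList hf hregf j
  have hd1 : (lev A (d + 1)).card = (lev A d).card := by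
    have hs : ∑ i, (A i - 1) = 2 * d + 1 := by
      simp only [A, Fin.sum_univ_castSucc, Fin.snoc_castSucc, Fin.snoc_last]
      omega
    have := card_lev_flip A (d := d) (by omega)
    rwa [hs, show 2 * d + 1 - d = d + 1 by omega] at this
  have hId : hq I d ≤ (lev A d).card := (hq_antitone hQI' d).trans (hlev d).le
  by_cases hfull : hq I d = 0
  · have hall : ∀ p : MvPolynomial (Fin (c + 1)) K, p.IsHomogeneous d → p ∈ I := by
      intro p hp
      have := finite_hom (K := K) (n := c + 1) d
      have heq : grade I d = homogeneousSubmodule (Fin (c + 1)) K d :=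
        Submodule.eq_of_le_of_finrank_le inf_le_right (by simp only [hq] at hfull; omega)
      exact (heq.symm ▸ hp : p ∈ grade I d).1
    have h1 : hq I (d + 1) = 0 := by
      have heq : grade I (d + 1) = homogeneousSubmodule (Fin (c + 1)) K (d + 1) := by
        refine le_antisymm inf_le_right fun p hp => ⟨?_, hp⟩
        rw [p.as_sum]
        refine I.sum_mem fun δ hδ => ?_
        have hdeg : δ.degree = d + 1 := by
          by_contra hne
          exact mem_support_iff.1 hδ (hp.coeff_eq_zero hne)
        obtain ⟨i, hi⟩ : ∃ i, δ i ≠ 0 := by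
          by_contra hh
          simp only [not_exists, not_not] at hh
          rw [show δ = 0 from Finsupp.ext hh, map_zero] at hdeg
          omega
        obtain ⟨δ', rfl⟩ : ∃ δ', δ = δ' + Finsupp.single i 1 :=
          ⟨δ - Finsupp.single i 1, (tsub_add_cancel_of_le (Finsupp.single_le_iff.2 (by omega))).symm⟩
        rw [map_add, Finsupp.degree_single] at hdeg
        rw [show monomial (δ' + Finsupp.single i 1) (coeff (δ' + Finsupp.single i 1) p) =
          monomial δ' (coeff (δ' + Finsupp.single i 1) p) * X i by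
            rw [monomial_add_single, pow_one]]
        exact I.mul_mem_right _ (hall _ (isHomogeneous_monomial _ (by omega)))
      rw [hq, heq, Nat.sub_self]
    intro x hx
    have hxl := up_subset_lev (Finset.filter_subset _ _) hx
    exact Finset.mem_filter.2 ⟨hxl, by rw [h1, Nat.sub_zero]; exact rk_lt_card hxl⟩
  set q := (lev A d).card - hq I d with hq'
  have hqlt : q < (lev A d).card := by omega
  suffices hU : (up A (seg A d q)).card ≤ (lev A (d + 1)).card - hq I (d + 1) by
    rw [(isSeg_up (isSeg_seg A d q)).eq_seg]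
    exact seg_mono hU
  by_cases hg : ∃ g ∈ grade I d, NZD Q' g
  swap
  · -- all of `I_d` lies in one associated prime
    let ι := {P : Ideal (MvPolynomial (Fin (c + 1)) K) //
      P ∈ associatedPrimes (MvPolynomial (Fin (c + 1)) K) (MvPolynomial (Fin (c + 1)) K ⧸ Q')}
    have : Finite ι := (associatedPrimes.finite _ _).to_subtype
    obtain ⟨P, hP⟩ : ∃ P : ι, ∀ p ∈ grade I d, p ∈ P.1 := by
      by_contra hcon
      simp only [not_exists, not_forall] at hcon
      obtain ⟨x, hx⟩ := Submodule.exists_forall_notMem_of_forall_ne_top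
        (fun P : ι => Submodule.comap (grade I d).subtype (P.1.restrictScalars K)) fun P h => by
          obtain ⟨p, hp, hpP⟩ := hcon P
          have : (⟨p, hp⟩ : grade I d) ∈ Submodule.comap (grade I d).subtype (P.1.restrictScalars K) := by
            rw [h]; exact Submodule.mem_top
          exact hpP this
      refine hg ⟨x.1, x.2, fun p hp => ?_⟩
      have hreg1 : IsSMulRegular (MvPolynomial (Fin (c + 1)) K ⧸ Q') x.1 := by
        by_contra hn
        have h1 : x.1 ∈ ({r : MvPolynomial (Fin (c + 1)) K |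
            IsSMulRegular (MvPolynomial (Fin (c + 1)) K ⧸ Q') r}ᶜ : Set _) := hn
        rw [← biUnion_associatedPrimes_eq_compl_regular] at h1
        simp only [Set.mem_iUnion, SetLike.mem_coe] at h1
        obtain ⟨P, hP, hxP⟩ := h1
        exact hx ⟨P, hP⟩ hxP
      exact (isSMulRegular_quotient_iff_mem_of_smul_mem _ _).1 hreg1 p hp
    set I' := Q' ⊔ Ideal.span (grade I d : Set (MvPolynomial (Fin (c + 1)) K))
    have hI'I : I' ≤ I := sup_le hQI (Ideal.span_le.2 fun p hp => hp.1)
    obtain ⟨hprime, y, hy⟩ := isAssociatedPrime_iff.1 P.2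
    obtain ⟨h0, rfl⟩ := Submodule.Quotient.mk_surjective (p := Q') y
    have hmem : ∀ r, r ∈ P.1 ↔ r * h0 ∈ Q' := fun r => by
      rw [hy, Submodule.mem_colon_singleton, Submodule.mem_bot, ← Submodule.Quotient.mk_smul,
        Submodule.Quotient.mk_eq_zero, smul_eq_mul]
    have hI'P : I' ≤ P.1 :=
      sup_le (fun r hr => (hmem r).2 (Q'.mul_mem_right _ hr)) (Ideal.span_le.2 hP)
    have hnot : f (Fin.last c) ∉ I' := by
      intro hm
      have h1 : h0 ∈ Q' := hflast h0 ((hmem _).1 (hI'P hm))
      exact hprime.ne_top ((Ideal.eq_top_iff_one _).2 ((hmem 1).2 (by rwa [one_mul])))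
    have hclI' : Closed I' := by
      intro p hp j
      obtain ⟨p1, hp1, p2, hp2, rfl⟩ := Submodule.mem_sup.1 hp
      rw [map_add]
      refine Submodule.add_mem_sup (hcl' p1 hp1 j) ?_
      clear hp hp1
      induction hp2 using Submodule.span_induction generalizing j with
      | mem x hx =>
        rw [homogeneousComponent_of_mem hx.2]
        split_ifs
        · exact Ideal.subset_span hx
        · exact zero_mem _
      | zero => simp
      | add x y _ _ hx hy => rw [map_add]; exact add_mem (hx j) (hy j)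
      | smul r x _ hx =>
        rw [smul_eq_mul, ← sum_homogeneousComponent x, Finset.mul_sum, map_sum]
        refine sum_mem fun e _ => ?_
        rw [hcomp_mul (homogeneousComponent_isHomogeneous e x)]
        split_ifs
        · exact Ideal.mul_mem_left _ _ (hx e)
        · exact zero_mem _
    obtain ⟨S, hS, hSP, hcount⟩ := hM c.le_succ a ha hgood f' hf' hreg' I' hclI'
      (fun i => Submodule.mem_sup_left (Ideal.subset_span (List.mem_ofFn.2 ⟨i, rfl⟩)))
    let M : ℕ → Finset (Fin (c + 1) → ℕ) := fun j =>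
      (lev A j).filter fun m => Finsupp.equivFunOnFinite.symm m ∈ S
    have hgrade : grade I' d = grade I d :=
      le_antisymm (inf_le_inf_right _ hI'I) fun p hp =>
        ⟨Submodule.mem_sup_right (Ideal.subset_span hp), hp.2⟩
    have hMd : (M d).card = q := by
      have h : (M d).card + hq I' d = (lev A d).card :=
        (card_filter_hasMon (e := d + 1) (j := d) (by omega) hS hSP hcount).2 (by omega)
      have hI'd : hq I' d = hq I d := congrArg
        (fun T : Submodule K (MvPolynomial (Fin (c + 1)) K) =>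
          finrank K ↥(homogeneousSubmodule (Fin (c + 1)) K d) - finrank K ↥T) hgrade
      omega
    have hup : up A (M d) ⊆ M (d + 1) := by
      intro x hx
      obtain ⟨-, m, hm, i, rfl⟩ := mem_up.1 hx
      refine Finset.mem_filter.2 ⟨up_subset_lev (Finset.filter_subset _ _) hx, ?_⟩
      refine hS ?_ (Finset.mem_filter.1 hm).2
      intro l
      simp
    have hlt : grade I' (d + 1) < grade I (d + 1) := by
      refine lt_of_le_of_ne (inf_le_inf_right _ hI'I) fun h => hnot ?_
      have : f (Fin.last c) ∈ grade I (d + 1) := ⟨hfI _, hflastd⟩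
      rw [← h] at this
      exact this.1
    have := finite_grade I (d + 1)
    have h1 := Submodule.finrank_lt_finrank_of_lt hlt
    have h2 : (M (d + 1)).card + hq I' (d + 1) ≤ (lev A (d + 1)).card + 1 :=
      (card_filter_hasMon (e := d + 1) (j := d + 1) le_rfl hS hSP hcount).1
    have h3 := finrank_grade_le_hom (K := K) I (d + 1)
    have h4 := clements_lindstrom hmono (show M d ⊆ lev A d from Finset.filter_subset _ _)
    rw [hMd] at h4
    refine h4.trans ((Finset.card_le_card hup).trans ?_)
    simp only [hq] at h2 ⊢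
    omega
  -- a regular form in degree `d`: the product with the variables gains two
  obtain ⟨g, hg, hgn⟩ := hg
  refine (card_up_seg_middle hd q).trans ?_
  rw [card_seg hqlt.le]
  by_contra hcon
  rw [not_le] at hcon
  -- a linear nonzerodivisor
  have hposf' : ∀ x ∈ List.ofFn f', PosForm x := fun x hx => by
    obtain ⟨i, rfl⟩ := List.mem_ofFn.1 hx
    exact ⟨a i, by have := ha i; omega, hf' i⟩
  have hns : NoSocle Q' := noSocleHyp (List.ofFn f') (by simp) hposf' hreg'
  obtain ⟨l, hl, hlnzd⟩ := exists_tri (Q := Q') (⟨0, by omega⟩ : Fin (c + 1))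
    (fun i hi => absurd hi (by simp [Fin.lt_def])) hns
  have hl1 : l.IsHomogeneous 1 := hl.homogeneous
  set Ql := Q' ⊔ Ideal.span {l}
  have hsoc : Soc1 Ql (d + 1) := by
    have hlist : List.ofFn (Fin.snoc f' l) = List.ofFn f' ++ [l] := by
      rw [List.ofFn_succ', List.concat_eq_append]
      simp [Fin.snoc_castSucc, Fin.snoc_last]
    have h := soc1_ofList (K := K) noSocleHyp (a := Fin.snoc a 1) (f := Fin.snoc f' l)
      (fun i => by
        cases i using Fin.lastCases with
        | last => simp
        | cast i => simp only [Fin.snoc_castSucc]; have := ha i; omega)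
      (fun i => by
        cases i using Fin.lastCases with
        | last => simpa using hl1
        | cast i => simpa using hf' i)
      (by rw [hlist]; exact regMod_snoc.2 ⟨hreg', hlnzd⟩)
    rw [hlist, Ideal.ofList_append, Ideal.ofList_singleton] at h
    simpa [Fin.sum_univ_castSucc, ← hd] using h
  set R := MvPolynomial (Fin (c + 1)) K ⧸ Q'
  set π : MvPolynomial (Fin (c + 1)) K →ₐ[K] R := Ideal.Quotient.mkₐ K Q'
  have hπ0 : ∀ {p}, π p = 0 ↔ p ∈ Q' := fun {p} => Ideal.Quotient.eq_zero_iff_mem
  have hπs : Function.Surjective π := Ideal.Quotient.mkₐ_surjective K Q'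
  let H : ℕ → Submodule K R := fun j => (homogeneousSubmodule (Fin (c + 1)) K j).map π.toLinearMap
  let V : Submodule K R := (grade I d).map π.toLinearMap
  let M : Submodule K R := (grade I (d + 1)).map π.toLinearMap
  have := finite_grade I d
  have := finite_grade I (d + 1)
  have hV : finrank K V + hq I d = hq Q' d := finrank_map_mk hQI d
  have hMdim : finrank K M + hq I (d + 1) = hq Q' (d + 1) := finrank_map_mk hQI (d + 1)
  have hqd : hq Q d = hq Q' d := by
    have := hq_sup hcl' hflastd hflast d
    rw [← hQeq, if_neg (by omega), add_zero] at this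
    exact this
  have hqe : hq Q (d + 1) + hq Q' 0 = hq Q' (d + 1) := by
    have := hq_sup hcl' hflastd hflast (d + 1)
    rwa [← hQeq, if_pos le_rfl, Nat.sub_self] at this
  have hq0 : hq Q' 0 = 1 := by
    have hbot : grade Q' 0 = ⊥ := by
      rw [Submodule.eq_bot_iff]
      rintro p ⟨hp, hp0⟩
      have hle : Q' ≤ RingHom.ker (constantCoeff : MvPolynomial (Fin (c + 1)) K →+* K) :=
        Ideal.span_le.2 fun x hx => (hposf' x hx).constantCoeff_eq_zero
      ext δ
      by_cases hδ : δ = 0
      · subst hδ; rw [coeff_zero, ← constantCoeff_eq]; exact hle hp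
      · rw [coeff_zero]; exact IsHomogeneous.coeff_eq_zero hp0 (by rwa [Ne, Finsupp.degree_eq_zero_iff])
    rw [hq, hbot, finrank_bot, Nat.sub_zero, finrank_hom_eq_card 0 1 one_pos]
    refine Finset.card_eq_one.2 ⟨0, Finset.eq_singleton_iff_unique_mem.2 ⟨mem_lev.2 ⟨fun _ => Nat.one_pos, by simp⟩, ?_⟩⟩
    intro x hx
    funext i
    have := (mem_lev.1 hx).1 i
    simp at this ⊢
    omega
  rw [hlev] at hqd hqe
  -- hypotheses of the pencil lemma
  have hlinj : Function.Injective fun x : R => π l * x := by
    intro x y hxy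
    obtain ⟨p, rfl⟩ := hπs x
    obtain ⟨p', rfl⟩ := hπs y
    simp only [← map_mul] at hxy
    refine mk_eq_iff.2 (hlnzd _ ?_)
    rw [mul_sub]
    exact mk_eq_iff.1 hxy
  have hmulM : ∀ (z : MvPolynomial (Fin (c + 1)) K), z.IsHomogeneous 1 → ∀ x ∈ V, π z * x ∈ M := by
    rintro z hz _ ⟨p, hp, rfl⟩
    exact ⟨z * p, ⟨I.mul_mem_left _ hp.1, (Nat.add_comm 1 d) ▸ hz.mul hp.2⟩, map_mul π z p⟩
  have hstable : ∀ X : Submodule K R, X ≤ V →
      (∀ k, ∀ x ∈ X, π (MvPolynomial.X k) * x ∈ lmul (π l) X) → X = ⊥ := by
    suffices ∀ j, j ≤ d → ∀ X : Submodule K R, X ≤ H j →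
        (∀ k, ∀ x ∈ X, π (MvPolynomial.X k) * x ∈ lmul (π l) X) → X = ⊥ from
      fun X hX h => this d le_rfl X (hX.trans (Submodule.map_mono inf_le_right)) h
    intro j
    induction j with
    | zero =>
      intro _ Y hY hst
      rw [Submodule.eq_bot_iff]
      intro x hx
      obtain ⟨p, hp, rfl⟩ := hY hx
      have hpQl : p ∈ Ql := hsoc.1 0 p hp (fun k => ?_) (by omega)
      · obtain ⟨q1, hq1, r1, hr⟩ := mem_sup_span.1 hpQl
        have h := congrArg (homogeneousComponent 0) hr
        rw [homogeneousComponent_eq_self hp, map_add, hcomp_mul hl1, if_neg (by omega), add_zero] at h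
        exact hπ0.2 (h ▸ hcl' q1 hq1 0)
      · obtain ⟨z, -, hz⟩ := mem_lmul.1 (hst k _ hx)
        obtain ⟨w, rfl⟩ := hπs z
        have hz' : π (l * w) = π (MvPolynomial.X k * p) := by rw [map_mul, map_mul]; exact hz
        refine mem_sup_span.2 ⟨MvPolynomial.X k * p - l * w, ?_, w, by ring⟩
        exact mk_eq_iff.1 hz'.symm
    | succ j ih =>
      intro hj Y hY hst
      let Y' : Submodule K R := H j ⊓ Y.comap (LinearMap.mulLeft K (π l))
      have hYY' : ∀ x ∈ Y, x ∈ lmul (π l) Y' := by
        intro x hx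
        obtain ⟨p, hp, rfl⟩ := hY hx
        have hpQl : p ∈ Ql := hsoc.1 (j + 1) p hp (fun k => ?_) (by omega)
        · obtain ⟨q1, hq1, r1, hr⟩ := mem_sup_span.1 hpQl
          have h := congrArg (homogeneousComponent (j + 1)) hr
          rw [homogeneousComponent_eq_self hp, map_add, hcomp_mul_add hl1] at h
          have he : π l * π (homogeneousComponent j r1) = π p := by
            rw [← map_mul, ← h, map_add π, hπ0.2 (hcl' q1 hq1 _), zero_add, mul_comm]
          refine mem_lmul.2 ⟨_, ⟨⟨_, homogeneousComponent_isHomogeneous j r1, rfl⟩, ?_⟩, he⟩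
          show π l * π (homogeneousComponent j r1) ∈ Y
          rw [he]; exact hx
        · obtain ⟨z, -, hz⟩ := mem_lmul.1 (hst k _ hx)
          obtain ⟨w, rfl⟩ := hπs z
          have hz' : π (l * w) = π (MvPolynomial.X k * p) := by rw [map_mul, map_mul]; exact hz
          refine mem_sup_span.2 ⟨MvPolynomial.X k * p - l * w, ?_, w, by ring⟩
          exact mk_eq_iff.1 hz'.symm
      have hY' : Y' = ⊥ := ih (by omega) Y' inf_le_left fun k x' hx' => by
        obtain ⟨z, hz, hzx⟩ := mem_lmul.1 (hst k _ hx'.2)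
        have : z = π (MvPolynomial.X k) * x' := hlinj (by
          show π l * z = π l * (π (MvPolynomial.X k) * x')
          rw [hzx, LinearMap.mulLeft_apply]; ring)
        rw [← this]
        exact hYY' z hz
      rw [Submodule.eq_bot_iff]
      intro x hx
      obtain ⟨z, hz, rfl⟩ := mem_lmul.1 (hYY' x hx)
      rw [hY', Submodule.mem_bot] at hz
      rw [hz, mul_zero]
  have hgV : π g ∈ V := ⟨g, hg, rfl⟩
  have hg0 : ∀ z : R, z * π g = 0 → z = 0 := by
    intro z hz
    obtain ⟨p, rfl⟩ := hπs z
    rw [← map_mul, hπ0, mul_comm] at hz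
    exact hπ0.2 (hgn p hz)
  have hnM : ¬ ∀ k, ∀ m ∈ M, π (MvPolynomial.X k) * m ∈ lmul (π l) M := by
    intro hst
    have hgen : ∀ (k : ℕ) (δ : Fin (c + 1) →₀ ℕ) (r : K), δ.degree = k → ∀ m ∈ M,
        ∃ m' ∈ M, π (monomial δ r) * m = π l ^ k * m' := by
      intro k
      induction k with
      | zero =>
        intro δ r hδ m hm
        rw [Finsupp.degree_eq_zero_iff] at hδ
        subst hδ
        refine ⟨r • m, M.smul_mem r hm, ?_⟩
        rw [pow_zero, one_mul, ← C_apply, ← algebraMap_eq, AlgHom.commutes,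
          ← Algebra.smul_def]
      | succ k ih =>
        intro δ r hδ m hm
        obtain ⟨i, hi⟩ : ∃ i, δ i ≠ 0 := by
          by_contra hh
          simp only [not_exists, not_not] at hh
          rw [show δ = 0 from Finsupp.ext hh, map_zero] at hδ
          omega
        obtain ⟨δ', rfl⟩ : ∃ δ', δ = δ' + Finsupp.single i 1 :=
          ⟨δ - Finsupp.single i 1, (tsub_add_cancel_of_le (Finsupp.single_le_iff.2 (by omega))).symm⟩
        rw [map_add, Finsupp.degree_single] at hδ
        obtain ⟨m1, hm1, h1⟩ := ih δ' r (by omega) m hm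
        obtain ⟨m2, hm2, h2⟩ := mem_lmul.1 (hst i m1 hm1)
        refine ⟨m2, hm2, ?_⟩
        rw [monomial_add_single, pow_one, map_mul, pow_succ]
        calc π (monomial δ' r) * π (MvPolynomial.X i) * m
            = π (MvPolynomial.X i) * (π (monomial δ' r) * m) := by ring
          _ = π l ^ k * (π (MvPolynomial.X i) * m1) := by rw [h1]; ring
          _ = _ := by rw [← h2]; ring
    have hle : (H (d + 1)).map (LinearMap.mulRight K (π (l * g))) ≤
        M.map (LinearMap.mulLeft K (π l ^ (d + 1))) := by
      rintro _ ⟨_, ⟨p, hp, rfl⟩, rfl⟩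
      have hm : π (l * g) ∈ M := by rw [map_mul]; exact hmulM l hl1 _ hgV
      show π p * π (l * g) ∈ _
      rw [p.as_sum, map_sum, Finset.sum_mul]
      refine Submodule.sum_mem _ fun δ hδ => ?_
      obtain ⟨m', hm', he⟩ := hgen (d + 1) δ (coeff δ p) (by
        by_contra hne
        exact mem_support_iff.1 hδ (IsHomogeneous.coeff_eq_zero hp hne)) _ hm
      exact ⟨m', hm', he.symm⟩
    have hinj : Function.Injective (LinearMap.mulRight K (π (l * g))) := by
      refine LinearMap.ker_eq_bot.1 ((Submodule.eq_bot_iff _).2 fun z hz => ?_)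
      rw [LinearMap.mem_ker, LinearMap.mulRight_apply, map_mul, ← mul_assoc] at hz
      have := hg0 _ hz
      exact hlinj (by simpa [mul_comm] using this)
    have h1 := Submodule.finrank_mono hle
    rw [← (Submodule.equivMapOfInjective _ hinj (H (d + 1))).finrank_eq] at h1
    have h2 := Submodule.finrank_map_le (LinearMap.mulLeft K (π l ^ (d + 1))) M
    have gt : grade (⊤ : Ideal (MvPolynomial (Fin (c + 1)) K)) (d + 1) =
        homogeneousSubmodule (Fin (c + 1)) K (d + 1) := by
      ext p; simp [grade]
    have hHdim : finrank K (H (d + 1)) + hq (⊤ : Ideal (MvPolynomial (Fin (c + 1)) K)) (d + 1) =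
        hq Q' (d + 1) := by
      have := finrank_map_mk (I := (⊤ : Ideal (MvPolynomial (Fin (c + 1)) K))) (Q := Q') le_top (d + 1)
      rw [gt] at this
      exact this
    have htop : hq (⊤ : Ideal (MvPolynomial (Fin (c + 1)) K)) (d + 1) = 0 := by
      rw [hq, gt, Nat.sub_self]
    omega
  obtain ⟨i, μ, χ, hk⟩ := pencil_of_gain_one (fun k => π (MvPolynomial.X k)) (π l) V M hlinj
    (fun k => hmulM _ (isHomogeneous_X K k)) (hmulM l hl1) (by omega) hstable hnM hgV hg0
  have hlin : ∀ k, (MvPolynomial.X k : MvPolynomial (Fin (c + 1)) K) =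
      μ k • MvPolynomial.X i + χ k • l := by
    intro k
    have h : MvPolynomial.X k - (μ k • MvPolynomial.X i + χ k • l) ∈ Q' := by
      refine mk_eq_iff.1 ?_
      rw [map_add, map_smul, map_smul]
      exact hk k
    have h1 := linear_part_eq_zero (fun x hx => by
      obtain ⟨j, rfl⟩ := List.mem_ofFn.1 hx; exact ⟨a j, ha j, hf' j⟩) h
    have hh : (MvPolynomial.X k - (μ k • MvPolynomial.X i + χ k • l)).IsHomogeneous 1 :=
      Submodule.sub_mem (homogeneousSubmodule (Fin (c + 1)) K 1) (isHomogeneous_X K k)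
        (Submodule.add_mem _ (Submodule.smul_mem _ _ (isHomogeneous_X K i))
          (Submodule.smul_mem _ _ hl1))
    rw [homogeneousComponent_eq_self hh, sub_eq_zero] at h1
    exact h1
  have hspan : Submodule.span K (Set.range fun k : Fin (c + 1) =>
      (MvPolynomial.X k : MvPolynomial (Fin (c + 1)) K)) ≤
      Submodule.span K {MvPolynomial.X i, l} := by
    refine Submodule.span_le.2 ?_
    rintro _ ⟨k, rfl⟩
    show (MvPolynomial.X k : MvPolynomial (Fin (c + 1)) K) ∈ _
    rw [hlin k]
    exact add_mem (Submodule.smul_mem _ _ (Submodule.subset_span (by simp)))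
      (Submodule.smul_mem _ _ (Submodule.subset_span (by simp)))
  have hindep : LinearIndependent K fun k : Fin (c + 1) =>
      (MvPolynomial.X k : MvPolynomial (Fin (c + 1)) K) := by
    rw [Fintype.linearIndependent_iff]
    intro w hw k
    have := congrArg (coeff (Finsupp.single k 1)) hw
    simpa [coeff_sum, coeff_X', Finsupp.single_left_inj] using this
  have hfin : Module.Finite K (Submodule.span K
      ({MvPolynomial.X i, l} : Set (MvPolynomial (Fin (c + 1)) K))) :=
    Module.Finite.span_of_finite K (Set.toFinite _)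
  have h1 := Submodule.finrank_mono hspan
  rw [finrank_span_eq_card hindep, Fintype.card_fin] at h1
  have h2 : finrank K (Submodule.span K
      ({MvPolynomial.X i, l} : Set (MvPolynomial (Fin (c + 1)) K))) ≤ 2 := by
    refine (finrank_span_le_card _).trans ?_
    simp only [Set.toFinset_insert, Set.toFinset_singleton]
    exact Finset.card_le_two
  omega

/-- One more form of degree at least `∑ (a i - 1)` keeps lex-plus-powers ideals. -/
theorem good_snoc [Infinite K] (hM : ToHasMon K) {c : ℕ} (hc : 2 ≤ c) {a : Fin c → ℕ}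
    (ha : ∀ i, 2 ≤ a i) (hgood : Good K a) {e : ℕ}
    (hmono : Monotone (Fin.snoc a e : Fin (c + 1) → ℕ))
    (he : ∑ i, (a i - 1) ≤ e) : Good K (Fin.snoc a e : Fin (c + 1) → ℕ) := by
  intro f hf hreg I hI hfI d
  have he1 : 1 ≤ e := by
    have h1 := Finset.single_le_sum (f := fun i => a i - 1) (fun i _ => Nat.zero_le _)
      (Finset.mem_univ (⟨0, by omega⟩ : Fin c))
    have := ha ⟨0, by omega⟩
    omega
  by_cases hmid : d + 1 = e ∧ e = ∑ i, (a i - 1)
  · obtain ⟨rfl, hd⟩ := hmid
    refine ⟨(hq_antitone (show Ideal.ofList (List.ofFn f) ≤ I from Ideal.span_le.2 fun x hx => by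
      obtain ⟨i, rfl⟩ := List.mem_ofFn.1 hx; exact hfI i) d).trans (hq_ofList hf hreg d).le, ?_⟩
    exact step_middle hM hc ha hgood hd hmono hf hreg hI hfI
  · exact good_step hM ha hgood hmono he he1 hf hreg hI hfI fun h =>
      lt_of_le_of_ne he fun h2 => hmid ⟨h, h2.symm⟩

end Vale.P200.Ext
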