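import Vale.Agent.P200.Ext.Seq

/-!
P200, any number of variables: regular sequences of any length, unfolded.
-/

namespace Vale.P200.Ext

open MvPolynomial

variable {K : Type*} [Field K] {σ : Type*}

lemma regMod_of_take : ∀ (l : List (MvPolynomial σ K)) (Q : Ideal (MvPolynomial σ K)),
    (∀ i (h : i < l.length), NZD (Q ⊔ Ideal.ofList (l.take i)) l[i]) → RegMod Q l
  | [], _, _ => trivial
  | g :: t, Q, h => by
    refine ⟨?_, regMod_of_take t _ fun i hi => ?_⟩
    · have h0 := h 0 (Nat.succ_pos _)
      simp only [List.take_zero, Ideal.ofList_nil, sup_bot_eq] at h0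
      exact h0
    · have h1 := h (i + 1) (Nat.succ_lt_succ hi)
      simp only [List.take_succ_cons, Ideal.ofList_cons, ← sup_assoc] at h1
      exact h1

/-- A regular sequence in the sense of Mathlib, unfolded. -/
lemma regMod_of_isRegular_list {l : List (MvPolynomial σ K)}
    (h : RingTheory.Sequence.IsRegular (MvPolynomial σ K) l) : RegMod ⊥ l := by
  refine regMod_of_take l ⊥ fun i hi => ?_
  have h0 := h.toIsWeaklyRegular.regular_mod_prev i hi
  rw [isSMulRegular_quotient_iff_mem_of_smul_mem] at h0
  simp only [smul_eq_mul, Ideal.mul_top] at h0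
  rw [bot_sup_eq]
  exact h0

end Vale.P200.Ext
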