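import Vale.Agent.P200.Reduction

/-!
P200, any number of variables: permutation and exchange for regular sequences of forms, generic
triangular linear forms.
-/

namespace Vale.P200.Ext

open MvPolynomial

variable {K : Type*} [Field K] {σ : Type*}

/-- An ideal containing the components of its elements. -/
def Closed (Q : Ideal (MvPolynomial σ K)) : Prop :=
  ∀ p ∈ Q, ∀ d, homogeneousComponent d p ∈ Q

/-- `g` is a nonzerodivisor modulo `Q`. -/
def NZD (Q : Ideal (MvPolynomial σ K)) (g : MvPolynomial σ K) : Prop := ∀ p, g * p ∈ Q → p ∈ Q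

/-- A form of positive degree. -/
def PosForm (g : MvPolynomial σ K) : Prop := ∃ d, 1 ≤ d ∧ g.IsHomogeneous d

/-- A regular sequence modulo `Q`. -/
def RegMod : Ideal (MvPolynomial σ K) → List (MvPolynomial σ K) → Prop
  | _, [] => True
  | Q, g :: t => NZD Q g ∧ RegMod (Q ⊔ Ideal.span {g}) t

/-- No nonzero element killed by all variables modulo `Q`. -/
def NoSocle (Q : Ideal (MvPolynomial σ K)) : Prop := ∀ h, (∀ i, X i * h ∈ Q) → h ∈ Q

lemma regMod_append {Q : Ideal (MvPolynomial σ K)} {l₁ l₂ : List (MvPolynomial σ K)} :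
    RegMod Q (l₁ ++ l₂) ↔ RegMod Q l₁ ∧ RegMod (Q ⊔ Ideal.ofList l₁) l₂ := by
  induction l₁ generalizing Q with
  | nil => simp [RegMod]
  | cons g t ih =>
    simp only [List.cons_append, RegMod, ih, Ideal.ofList_cons, ← sup_assoc, and_assoc]

lemma closed_bot : Closed (⊥ : Ideal (MvPolynomial σ K)) := by
  intro p hp d
  simp [(Submodule.mem_bot _).1 hp]

lemma Closed.sup_span {Q : Ideal (MvPolynomial σ K)} (hQ : Closed Q) {g : MvPolynomial σ K}
    {a : ℕ} (hg : g.IsHomogeneous a) : Closed (Q ⊔ Ideal.span {g}) := by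
  intro p hp d
  obtain ⟨q, hq, w, hw, rfl⟩ := Submodule.mem_sup.1 hp
  obtain ⟨u, rfl⟩ := Ideal.mem_span_singleton'.1 hw
  rw [map_add, hcomp_mul hg]
  refine Submodule.add_mem_sup (hQ q hq d) ?_
  split_ifs
  · exact Ideal.mul_mem_left _ _ (Ideal.subset_span rfl)
  · exact zero_mem _

lemma mem_sup_span {Q : Ideal (MvPolynomial σ K)} {g p : MvPolynomial σ K} :
    p ∈ Q ⊔ Ideal.span {g} ↔ ∃ q ∈ Q, ∃ u, q + u * g = p := by
  simp only [Submodule.mem_sup, Ideal.mem_span_singleton']
  constructor
  · rintro ⟨q, hq, w, ⟨u, rfl⟩, h⟩; exact ⟨q, hq, u, h⟩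
  · rintro ⟨q, hq, u, h⟩; exact ⟨q, hq, _, ⟨u, rfl⟩, h⟩

/-- Graded Nakayama: two consecutive forms of a regular sequence commute. -/
lemma regMod_swap {Q : Ideal (MvPolynomial σ K)} (hQ : Closed Q) {g h : MvPolynomial σ K}
    (hg : PosForm g) (hh : PosForm h) (h1 : NZD Q g) (h2 : NZD (Q ⊔ Ideal.span {g}) h) :
    NZD Q h ∧ NZD (Q ⊔ Ideal.span {h}) g := by
  obtain ⟨a, ha, hga⟩ := hg
  obtain ⟨b, -, hhb⟩ := hh
  have key : NZD Q h := by
    suffices ∀ d p, p.IsHomogeneous d → h * p ∈ Q → p ∈ Q by
      intro p hp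
      refine mem_of_hcomp_mem fun d => this d _ (homogeneousComponent_isHomogeneous d p) ?_
      rw [mul_comm h, ← hcomp_mul_add hhb, mul_comm p]
      exact hQ _ hp _
    intro d
    induction d using Nat.strong_induction_on with
    | h d ih =>
      intro p hp hmem
      obtain ⟨q, hq, v, hqv⟩ := mem_sup_span.1 (h2 p (Submodule.mem_sup_left hmem))
      have hpe := congrArg (homogeneousComponent d) hqv
      rw [homogeneousComponent_eq_self hp, map_add, hcomp_mul hga] at hpe
      by_cases hd : a ≤ d
      · rw [if_pos hd] at hpe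
        have h4 : g * (h * homogeneousComponent (d - a) v) ∈ Q := by
          have : g * (h * homogeneousComponent (d - a) v) =
              h * p - h * homogeneousComponent d q := by
            conv_rhs => rw [← hpe]
            ring
          rw [this]
          exact sub_mem hmem (Ideal.mul_mem_left _ _ (hQ q hq d))
        rw [← hpe]
        exact add_mem (hQ q hq d) (Ideal.mul_mem_right _ _
          (ih _ (by omega) _ (homogeneousComponent_isHomogeneous _ _) (h1 _ h4)))
      · rw [if_neg hd, add_zero] at hpe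
        rw [← hpe]; exact hQ q hq d
  refine ⟨key, fun p hp => ?_⟩
  obtain ⟨q, hq, v, hqv⟩ := mem_sup_span.1 hp
  have h4 : h * v ∈ Q ⊔ Ideal.span {g} :=
    mem_sup_span.2 ⟨-q, Q.neg_mem hq, p, by linear_combination -hqv⟩
  obtain ⟨q', hq', t, ht⟩ := mem_sup_span.1 (h2 v h4)
  have h5 : g * (p - t * h) ∈ Q := by
    rw [show g * (p - t * h) = q + h * q' by linear_combination -hqv - h * ht]
    exact add_mem hq (Ideal.mul_mem_left _ _ hq')
  exact mem_sup_span.2 ⟨p - t * h, h1 _ h5, t, by ring⟩

lemma regMod_perm {l l' : List (MvPolynomial σ K)} (hp : l.Perm l') :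
    ∀ Q : Ideal (MvPolynomial σ K), Closed Q → (∀ g ∈ l, PosForm g) → RegMod Q l → RegMod Q l' := by
  induction hp with
  | nil => exact fun _ _ _ h => h
  | cons x _ ih =>
    intro Q hQ hpos h
    obtain ⟨a, -, hxa⟩ := hpos x List.mem_cons_self
    exact ⟨h.1, ih _ (hQ.sup_span hxa) (fun g hg => hpos g (List.mem_cons_of_mem _ hg)) h.2⟩
  | swap x y l =>
    rintro Q hQ hpos ⟨hy, hx, hl⟩
    have hs := regMod_swap hQ (hpos y List.mem_cons_self)
      (hpos x (List.mem_cons_of_mem _ List.mem_cons_self)) hy hx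
    refine ⟨hs.1, hs.2, ?_⟩
    rwa [sup_assoc, sup_comm (Ideal.span {x}), ← sup_assoc]
  | @trans l₁ l₂ l₃ h₁ _ ih₁ ih₂ =>
    intro Q hQ hpos h
    exact ih₂ Q hQ (fun g hg => hpos g (h₁.mem_iff.2 hg)) (ih₁ Q hQ hpos h)

lemma ofList_perm {l l' : List (MvPolynomial σ K)} (hp : l.Perm l') :
    Ideal.ofList l = Ideal.ofList l' := by
  simp only [Ideal.ofList]
  congr 1
  ext x
  exact hp.mem_iff

lemma mem_ideal_of_X {P : Ideal (MvPolynomial σ K)} (hP : ∀ i, X i ∈ P) {f : MvPolynomial σ K}
    (hf : constantCoeff f = 0) : f ∈ P := by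
  have h : ∀ p : MvPolynomial σ K, p - C (constantCoeff p) ∈ P := by
    intro p
    induction p using MvPolynomial.induction_on with
    | C r => simp
    | add p q hp hq =>
      rw [map_add, map_add, add_sub_add_comm]
      exact add_mem hp hq
    | mul_X p i _ => simpa using P.mul_mem_left p (hP i)
  simpa [hf] using h f

lemma PosForm.constantCoeff_eq_zero {g : MvPolynomial σ K} (hg : PosForm g) :
    constantCoeff g = 0 := by
  obtain ⟨d, hd, h⟩ := hg
  rw [constantCoeff_eq]
  exact h.coeff_eq_zero (by rw [map_zero]; omega)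

lemma noSocle_of_nzd {Q : Ideal (MvPolynomial σ K)} {f : MvPolynomial σ K}
    (hf : constantCoeff f = 0) (h : NZD Q f) : NoSocle Q := fun p hp => by
  refine h p ?_
  have : f ∈ Q.colon {p} :=
    mem_ideal_of_X (fun i => Submodule.mem_colon_singleton.2 (hp i)) hf
  exact Submodule.mem_colon_singleton.1 this

/-- The socle does not depend on the last form of a regular sequence. -/
lemma noSocle_exchange {Q : Ideal (MvPolynomial σ K)} {a b : MvPolynomial σ K}
    (hca : constantCoeff a = 0) (ha : NZD Q a) (hb : NZD Q b)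
    (hs : NoSocle (Q ⊔ Ideal.span {a})) : NoSocle (Q ⊔ Ideal.span {b}) := by
  intro h hX
  have hah : a * h ∈ Q ⊔ Ideal.span {b} := by
    have : a ∈ (Q ⊔ Ideal.span {b}).colon {h} :=
      mem_ideal_of_X (fun i => Submodule.mem_colon_singleton.2 (hX i)) hca
    exact Submodule.mem_colon_singleton.1 this
  obtain ⟨q, hq, k, hk⟩ := mem_sup_span.1 hah
  have hXk : ∀ i, X i * k ∈ Q ⊔ Ideal.span {a} := by
    intro i
    obtain ⟨qi, hqi, u, hu⟩ := mem_sup_span.1 (hX i)
    have : b * (a * u - X i * k) ∈ Q := by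
      rw [show b * (a * u - X i * k) = X i * q - a * qi by
        linear_combination a * hu - X i * hk]
      exact sub_mem (Ideal.mul_mem_left _ _ hq) (Ideal.mul_mem_left _ _ hqi)
    exact mem_sup_span.2 ⟨-(a * u - X i * k), Q.neg_mem (hb _ this), u, by ring⟩
  obtain ⟨q', hq', v, hv⟩ := mem_sup_span.1 (hs k hXk)
  have : a * (h - v * b) ∈ Q := by
    rw [show a * (h - v * b) = q + q' * b by linear_combination -hk - b * hv]
    exact add_mem hq (Ideal.mul_mem_right _ _ hq')
  exact mem_sup_span.2 ⟨h - v * b, ha _ this, v, by ring⟩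

/-- The degree-`d` part of an ideal. -/
noncomputable def grade (I : Ideal (MvPolynomial σ K)) (d : ℕ) : Submodule K (MvPolynomial σ K) :=
  I.restrictScalars K ⊓ homogeneousSubmodule σ K d

section Tri

variable {n : ℕ}

/-- The span of the variables after `j`. -/
noncomputable def above (j : Fin n) : Submodule K (MvPolynomial (Fin n) K) :=
  Submodule.span K (X '' {i : Fin n | j < i})

/-- `g = X j +` a combination of later variables. -/
def IsTri (j : Fin n) (g : MvPolynomial (Fin n) K) : Prop := g - X j ∈ above (K := K) j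

lemma above_homogeneous {j : Fin n} {r : MvPolynomial (Fin n) K} (hr : r ∈ above (K := K) j) :
    r.IsHomogeneous 1 := by
  have : above (K := K) j ≤ homogeneousSubmodule (Fin n) K 1 := by
    refine Submodule.span_le.2 ?_
    rintro _ ⟨i, -, rfl⟩
    exact isHomogeneous_X K i
  exact this hr

lemma IsTri.homogeneous {j : Fin n} {g : MvPolynomial (Fin n) K} (h : IsTri j g) :
    g.IsHomogeneous 1 := by
  have := (above_homogeneous h).add (isHomogeneous_X K j)
  rwa [sub_add_cancel] at this

lemma IsTri.posForm {j : Fin n} {g : MvPolynomial (Fin n) K} (h : IsTri j g) : PosForm g :=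
  ⟨1, le_rfl, h.homogeneous⟩

lemma X_mem_of_tri {P : Ideal (MvPolynomial (Fin n) K)} (j : Fin n)
    (hlow : ∀ i, i < j → ∃ g, IsTri i g ∧ g ∈ P) (hhigh : ∀ i, j ≤ i → X i ∈ P) :
    ∀ i, X i ∈ P := by
  suffices ∀ k (i : Fin n), n - i.val = k → X i ∈ P from fun i => this _ i rfl
  intro k
  induction k using Nat.strong_induction_on with
  | h k ih =>
    intro i hik
    rcases le_or_gt j i with h | h
    · exact hhigh i h
    · obtain ⟨g, hg, hgP⟩ := hlow i h
      have hle : above (K := K) i ≤ P.restrictScalars K := by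
        refine Submodule.span_le.2 ?_
        rintro _ ⟨l, hl, rfl⟩
        have : i.val < l.val := hl
        exact ih (n - l.val) (by omega) l rfl
      have h1 : g - X i ∈ P := hle hg
      have := sub_mem hgP h1
      rwa [sub_sub_cancel] at this

variable [Infinite K]

/-- A generic triangular form is a nonzerodivisor when there is no socle. -/
lemma exists_tri {Q : Ideal (MvPolynomial (Fin n) K)} (j : Fin n)
    (hlow : ∀ i, i < j → ∃ g, IsTri i g ∧ g ∈ Q) (hs : NoSocle Q) :
    ∃ g, IsTri j g ∧ NZD Q g := by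
  classical
  set L : K → MvPolynomial (Fin n) K := fun t =>
    X j + ∑ i ∈ Finset.univ.filter (fun i => j < i), (t ^ (i.val - j.val)) • X i with hL
  have htri : ∀ t, IsTri j (L t) := fun t => by
    show L t - X j ∈ above (K := K) j
    rw [hL, add_sub_cancel_left]
    exact Submodule.sum_mem _ fun i hi => Submodule.smul_mem _ _
      (Submodule.subset_span ⟨i, (Finset.mem_filter.1 hi).2, rfl⟩)
  let S := MvPolynomial (Fin n) K
  have hfin : (⋃ P ∈ associatedPrimes S (S ⧸ Q), {t : K | L t ∈ P}).Finite := by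
    refine Set.Finite.biUnion (associatedPrimes.finite S (S ⧸ Q)) fun P hP => ?_
    by_contra hinf
    obtain ⟨hprime, x, hx⟩ := isAssociatedPrime_iff.1 hP
    obtain ⟨h, rfl⟩ := Submodule.Quotient.mk_surjective (p := Q) x
    have hmem : ∀ r, r ∈ P ↔ r * h ∈ Q := fun r => by
      rw [hx, Submodule.mem_colon_singleton, Submodule.mem_bot, ← Submodule.Quotient.mk_smul,
        Submodule.Quotient.mk_eq_zero, smul_eq_mul]
    have hhigh : ∀ i, j ≤ i → (X i : S) ∈ P := by
      intro i hi
      change (X i : S) ∈ P.restrictScalars K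
      rw [← Subspace.forall_mem_dualAnnihilator_apply_eq_zero_iff]
      intro ψ hψ
      rw [Submodule.mem_dualAnnihilator] at hψ
      set pol : Polynomial K := Polynomial.C (ψ (X j)) +
        ∑ l ∈ Finset.univ.filter (fun l => j < l),
          Polynomial.C (ψ (X l)) * Polynomial.X ^ (l.val - j.val) with hpol
      have hroot : ∀ t ∈ {t : K | L t ∈ P}, pol.IsRoot t := by
        intro t ht
        have := hψ _ ht
        rw [hL, map_add, map_sum] at this
        simp only [hpol, Polynomial.IsRoot.def, Polynomial.eval_add, Polynomial.eval_C,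
          Polynomial.eval_finset_sum, Polynomial.eval_mul, Polynomial.eval_pow, Polynomial.eval_X]
        rw [← this]
        congr 1
        exact Finset.sum_congr rfl fun l _ => by rw [map_smul, smul_eq_mul, mul_comm]
      have h0 : pol = 0 := Polynomial.eq_zero_of_infinite_isRoot pol
        (Set.Infinite.mono hroot hinf)
      have hc : pol.coeff (i.val - j.val) = 0 := by rw [h0, Polynomial.coeff_zero]
      rw [hpol, Polynomial.coeff_add, Polynomial.finsetSum_coeff, Polynomial.coeff_C] at hc
      rcases eq_or_lt_of_le hi with rfl | hlt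
      · rw [Nat.sub_self, if_pos rfl, Finset.sum_eq_zero, add_zero] at hc
        · exact hc
        · intro l hl
          have : j.val < l.val := (Finset.mem_filter.1 hl).2
          rw [Polynomial.coeff_C_mul_X_pow, if_neg (by omega)]
      · have hv : j.val < i.val := hlt
        rw [if_neg (by omega), zero_add, Finset.sum_eq_single i] at hc
        · rwa [Polynomial.coeff_C_mul_X_pow, if_pos rfl] at hc
        · intro l hl hne
          have : j.val < l.val := (Finset.mem_filter.1 hl).2
          rw [Polynomial.coeff_C_mul_X_pow, if_neg]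
          intro he
          exact hne (Fin.ext (by omega))
        · intro hh; exact absurd (Finset.mem_filter.2 ⟨Finset.mem_univ i, hlt⟩) hh
    have hall := X_mem_of_tri (P := P) j
      (fun i hi => by
        obtain ⟨g, hg, hgQ⟩ := hlow i hi
        exact ⟨g, hg, (hmem g).2 (Q.mul_mem_right _ hgQ)⟩) hhigh
    have hh : h ∈ Q := hs h fun i => (hmem _).1 (hall i)
    exact hprime.ne_top (P.eq_top_iff_one.2 ((hmem 1).2 (by rwa [one_mul])))
  obtain ⟨t, ht⟩ := hfin.infinite_compl.nonempty
  refine ⟨L t, htri t, fun p hp => ?_⟩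
  have hreg : IsSMulRegular (S ⧸ Q) (L t) := by
    by_contra hn
    apply ht
    have h1 : L t ∈ ({r : S | IsSMulRegular (S ⧸ Q) r}ᶜ : Set S) := hn
    rw [← biUnion_associatedPrimes_eq_compl_regular] at h1
    simpa only [Set.mem_iUnion, Set.mem_ofPred_eq, exists_prop, SetLike.mem_coe] using h1
  exact (isSMulRegular_quotient_iff_mem_of_smul_mem _ _).1 hreg p hp

end Tri

end Vale.P200.Ext
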